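import Vale.Agent.P141.H736.FixBC
import Vale.Agent.P141.H419.WFamA

/-!
# P141, line (A), TI, the pair `(B~, C~)` at fixed `x₀`: all numbers as plain sums

`fix_BC2` : `fix_BC` with the numbers of the second family from `H419.WFamR`.
-/

set_option linter.unusedSectionVars false

namespace Vale.Agent.P141.H736

open Finset Matrix
open Vale.Agent.P075 (Ix val bd rad res phi exists_sq psd_isSymm psd_conj_symm trace_mul_nonneg)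
open Vale.Agent.P141.PL (iv ix mem_iv ix_ix)
open Vale.Agent.P141.PL.H103 Vale.Agent.P141.H103
open Vale.Agent.P141.H784 (av)
open Vale.Agent.P141.H581.TVCP (mB mB_nonneg)
open Vale.Agent.P141.H419.WFamR
open Vale.Agent.P141.H912 (wS OwL OwL_eq)
open Vale.Agent.P141.H874 Vale.Agent.P141.H457

noncomputable section

variable {κ : Type*} [Fintype κ] [DecidableEq κ]

variable {be : ℝ} {T e d : ℕ → ℤ → ℤ → Matrix κ κ ℝ}

/-! ### The weight of the variation -/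

theorem inv_form_le (hb : 0 < be) {R : Matrix κ κ ℝ} (hR : R.PosSemidef) (w : κ → ℝ) :
    w ⬝ᵥ ((be • (1 : Matrix κ κ ℝ) + R)⁻¹ *ᵥ w) ≤ be⁻¹ * (w ⬝ᵥ w) := by
  have hX : (be • (1 : Matrix κ κ ℝ) + R).PosDef := (PosDef.one.smul hb).add_posSemidef hR
  set X := be • (1 : Matrix κ κ ℝ) + R with hXd
  set u := X⁻¹ *ᵥ w with hu
  have hw : w = be • u + R *ᵥ u := by
    have h1 : X *ᵥ u = w := by
      rw [hu, mulVec_mulVec, mul_nonsing_inv _ hX.det_pos.ne'.isUnit, one_mulVec]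
    rw [← h1, hXd, add_mulVec, smul_mulVec, one_mulVec]
  have h1 : 0 ≤ u ⬝ᵥ R *ᵥ u := by
    have := hR.dotProduct_mulVec_nonneg u
    rwa [star_trivial] at this
  have h2 : 0 ≤ (R *ᵥ u) ⬝ᵥ (R *ᵥ u) := Finset.sum_nonneg fun i _ => mul_self_nonneg _
  have e1 : w ⬝ᵥ u = be * (u ⬝ᵥ u) + u ⬝ᵥ R *ᵥ u := by
    conv_lhs => rw [hw]
    rw [add_dotProduct, smul_dotProduct, smul_eq_mul, dotProduct_comm (R *ᵥ u) u]
  have e2 : w ⬝ᵥ w = be * (be * (u ⬝ᵥ u)) + 2 * (be * (u ⬝ᵥ R *ᵥ u)) + (R *ᵥ u) ⬝ᵥ (R *ᵥ u) := by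
    rw [hw]
    simp only [add_dotProduct, dotProduct_add, smul_dotProduct, dotProduct_smul, smul_eq_mul,
      dotProduct_comm (R *ᵥ u) u]
    ring
  rw [e1, e2, inv_mul_eq_div, le_div_iff₀ hb]
  nlinarith

/-- `d (be + T)⁻¹ d ≤ be⁻¹ d d` -/
theorem Fv_le (hb : 0 < be) (hT : H419.Wt T e d) (k : ℕ) (n x : ℤ) (v : κ → ℝ) :
    v ⬝ᵥ Fv be T d k n x *ᵥ v ≤ be⁻¹ * ((d k x n *ᵥ v) ⬝ᵥ (d k x n *ᵥ v)) := by
  have hd := hT.d_symm k x n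
  have hX : (be • (1 : Matrix κ κ ℝ) + T (k + 1) x n).PosDef :=
    (PosDef.one.smul hb).add_posSemidef (hT.ps (k + 1) x n)
  have e1 : v ⬝ᵥ Fv be T d k n x *ᵥ v
      = (d k x n *ᵥ v) ⬝ᵥ ((be • (1 : Matrix κ κ ℝ) + T (k + 1) x n)⁻¹ *ᵥ (d k x n *ᵥ v)) := by
    unfold Fv
    rw [← mulVec_mulVec, ← mulVec_mulVec, dotProduct_mulVec v (d k x n), ← mulVec_transpose, hd]
  rw [e1]
  exact inv_form_le hb (hT.ps (k + 1) x n) _

/-! ### Scalars -/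

theorem own_le {L h D E' B E : ℝ} (hL : 1 ≤ L) (hE : 0 ≤ E) (h1 : h ≤ E) (h2 : D ≤ E)
    (h3 : E' ≤ E) (h4 : B ≤ E) : L * h + 64 * L ^ 3 * D + L * E' + L * B ≤ 67 * L ^ 3 * E := by
  have hL0 : 0 ≤ L := by linarith
  have hL3 : L ≤ L ^ 3 := le_self_pow₀ hL (by norm_num)
  have a1 := mul_le_mul_of_nonneg_left h1 hL0
  have a2 := mul_le_mul_of_nonneg_left h2 (show 0 ≤ 64 * L ^ 3 by positivity)
  have a3 := mul_le_mul_of_nonneg_left h3 hL0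
  have a4 := mul_le_mul_of_nonneg_left h4 hL0
  have a5 := mul_le_mul_of_nonneg_right hL3 hE
  linarith

/-- the own number as a linear form -/
theorem Ow_lin (J : ℕ) (be : ℝ) (H D E' B : ℕ → ℝ) (r : ℕ) :
    OwL J H (fun r => 2 * be⁻¹ * D r) (fun r => 2 * E' r) (fun r => ((J : ℝ) + 1) * B r) r
      = ((J : ℝ) + 1) * H r + 64 * ((J : ℝ) + 1) ^ 3 * (be⁻¹ * D r) + ((J : ℝ) + 1) * E' r
        + ((J : ℝ) + 1) * B r := by
  rw [OwL_eq]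
  ring

theorem wS_Ow (N J : ℕ) (be : ℝ) (H D E' B : ℕ → ℝ) :
    wS N (OwL J H (fun r => 2 * be⁻¹ * D r) (fun r => 2 * E' r) (fun r => ((J : ℝ) + 1) * B r))
      = ((J : ℝ) + 1) * wS N H + 64 * ((J : ℝ) + 1) ^ 3 * wS N (fun r => be⁻¹ * D r)
        + ((J : ℝ) + 1) * wS N E' + ((J : ℝ) + 1) * wS N B := by
  have e : (OwL J H (fun r => 2 * be⁻¹ * D r) (fun r => 2 * E' r) (fun r => ((J : ℝ) + 1) * B r))
      = fun r => ((((J : ℝ) + 1) * H r + 64 * ((J : ℝ) + 1) ^ 3 * (be⁻¹ * D r))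
        + ((J : ℝ) + 1) * E' r) + ((J : ℝ) + 1) * B r := funext fun r => Ow_lin J be H D E' B r
  rw [e, H912.wS_add, H912.wS_add, H912.wS_add, H912.wS_smul, H912.wS_smul, H912.wS_smul,
    H912.wS_smul, H912.wS_smul]

theorem t3_le {τ s bi D E' E : ℝ} (hτ0 : 0 ≤ τ) (hτ2 : τ ≤ 2) (hs : 0 ≤ s) (hE : 0 ≤ E)
    (hD : 0 ≤ D) (hE' : 0 ≤ E') (hbi : 1 ≤ bi) (h1 : bi * D ≤ E) (h2 : bi * E' ≤ E) :
    368 * (τ * s) * (2 + τ * bi) * (2 * D + 2 * τ * E') ≤ 17664 * (s * E) := by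
  have g1 : D ≤ E := (le_mul_of_one_le_left hD hbi).trans h1
  have g2 : E' ≤ E := (le_mul_of_one_le_left hE' hbi).trans h2
  have j1 : ∀ {u v : ℝ}, u ≤ v → 0 ≤ v → τ * u ≤ 2 * v := fun {u v} hu hv =>
    (mul_le_mul_of_nonneg_left hu hτ0).trans (mul_le_mul_of_nonneg_right hτ2 hv)
  have j2 := j1 g2 hE
  have j3 := j1 h1 hE
  have j4 := j1 h2 hE
  have j5 := j1 j4 (by positivity)
  have i1 : (2 + τ * bi) * (2 * D + 2 * τ * E')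
      = 4 * D + 4 * (τ * E') + 2 * (τ * (bi * D)) + 2 * (τ * (τ * (bi * E'))) := by ring
  have t2 : (2 + τ * bi) * (2 * D + 2 * τ * E') ≤ 24 * E := by
    rw [i1]
    linarith
  have k1 := mul_le_mul_of_nonneg_left t2 (show 0 ≤ 368 * (τ * s) by positivity)
  have k2 := mul_le_mul_of_nonneg_right hτ2 (show 0 ≤ s * E by positivity)
  have k3 : 368 * (τ * s) * (24 * E) = 8832 * (τ * (s * E)) := by ring
  rw [k3, ← mul_assoc] at k1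
  linarith

theorem t1_le {τ s L E X : ℝ} (hτ0 : 0 ≤ τ) (hτ2 : τ ≤ 2) (hs : 0 ≤ s) (hE : 0 ≤ E)
    (hL : 0 ≤ L) (hX : X ≤ 67 * L ^ 3 * E) :
    368 * τ ^ 2 * s * X ≤ 98624 * (L ^ 3 * (s * E)) := by
  have k1 := mul_le_mul_of_nonneg_left hX (show 0 ≤ 368 * τ ^ 2 * s by positivity)
  have k0 : τ ^ 2 ≤ 4 := by nlinarith
  have k2 : 368 * τ ^ 2 * s * (67 * L ^ 3 * E) = 24656 * (τ ^ 2 * (L ^ 3 * (s * E))) := by ring
  have k3 := mul_le_mul_of_nonneg_right k0 (show 0 ≤ L ^ 3 * (s * E) by positivity)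
  rw [k2] at k1
  linarith

/-! ### The pair -/

open scoped Classical in
/-- **The pair at fixed `x₀`, all numbers as plain sums.** -/
theorem fix_BC2 (hb : 0 < be) (hb1 : be ≤ 1) {s q τ : ℝ} (hs : 0 < s) (hq0 : 0 ≤ q) (hτ0 : 0 ≤ τ)
    (hτ2 : τ ≤ 2)
    (hT : H419.Wt T e d) (hTτ : ∀ k x m, (τ • (1 : Matrix κ κ ℝ) - T k x m).PosSemidef)
    {N : ℕ} {b c : ℕ → ℤ → ℤ → κ → ℝ} {Pb Pc : ℕ → ℤ → ℤ → Prop}
    (hPb : ∀ k < N, ∀ w m, ¬ Pb k w m → ∀ x ∈ iv k m, b (k + 1) x w = b k x w)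
    (hPc : ∀ k < N, ∀ w m, ¬ Pc k w m → ∀ x ∈ iv k m, c (k + 1) x w = c k x w)
    (cap : ∀ k < N, ∀ n m, (q • (1 : Matrix (Ix k × κ) (Ix k × κ) ℝ) - CP (b k) k k n m).PosSemidef)
    (cap1 : ∀ k < N, ∀ n m,
      (q • (1 : Matrix (Ix k × κ) (Ix k × κ) ℝ) - CP (b (k + 1)) k k n m).PosSemidef)
    (capN : ∀ n m, (q • (1 : Matrix (Ix N × κ) (Ix N × κ) ℝ) - CP (b N) N N n m).PosSemidef)
    {C : ℝ}
    (capC : ∀ k a n m, k ≤ a → a < N → (C • (1 : Matrix (Ix k × κ) (Ix k × κ) ℝ)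
      - SD be T k (a + 1) n m * CP (c k) k (a + 1) n m * SD be T k (a + 1) n m).PosSemidef)
    (capC1 : ∀ k a n m, k ≤ a → a < N → (C • (1 : Matrix (Ix k × κ) (Ix k × κ) ℝ)
      - SD be T k (a + 1) n m * CP (c (k + 1)) k (a + 1) n m * SD be T k (a + 1) n m).PosSemidef)
    {J : ℕ} (hJ : 2 * C ≤ s * 4 ^ J)
    {R₁ S₁ T₁ : ℤ} {cc : ℕ → ℤ} (hcc : PL.H588.Pl cc) {E EB : ℝ} (hE0 : 0 ≤ E) (hEB0 : 0 ≤ EB)
    -- the first slot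
    (hB1 : mB N R₁ S₁ (b 0) ≤ EB)
    (hB2 : ∑ k ∈ Ico 0 N, mB N R₁ S₁ (rs (Pb k) k (b (k + 1))) ≤ EB)
    (hB3 : ∑ k ∈ Ico 0 N, GW N R₁ S₁ T₁ (k + 1) (cc (k + 1)) (fun n n' m => av (k + 1) n m fun x y =>
      b (k + 1) x y ⬝ᵥ Fv be T d k n' x *ᵥ b (k + 1) x y) ≤ EB)
    (hB4 : ∑ k ∈ Ico 0 N, GW N R₁ S₁ T₁ (k + 1) (cc (k + 1)) (fun n n' m => av (k + 1) n m fun x y =>
      b (k + 1) x y ⬝ᵥ e k x n' *ᵥ b (k + 1) x y) ≤ EB)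
    -- the second slot, shifted path, lag zero
    (hC0 : nmH N T₁ S₁ be T (c1 N c) 0 ≤ E)
    (hC1 : be⁻¹ * nmD N T₁ S₁ d (c1 N c) 0 ≤ E)
    (hC2 : be⁻¹ * nmE N T₁ S₁ e (c1 N c) 0 ≤ E)
    (hC3 : ∑ k ∈ Ico 0 N, ∑ x ∈ iv N S₁, ∑ z ∈ iv N T₁,
      (if ∃ w, ix (k + 1) w = cc (k + 1) - ix (k + 1) x - ix (k + 1) z ∧ Pb k w (ix k x) then
        wE be T k (c (k + 1)) x z else 0) ≤ E)
    (hC4 : ∑ k ∈ Ico 0 N, Wn N T₁ S₁ be T (rs (Pc k) k (c (k + 1))) k ≤ E)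
    -- the second slot, every lag
    (hW0 : wS N (nmH N T₁ S₁ be T c) ≤ E)
    (hW1 : wS N (fun r => be⁻¹ * nmD N T₁ S₁ d c r) ≤ E)
    (hW2 : wS N (fun r => be⁻¹ * nmE N T₁ S₁ e c r) ≤ E)
    (hW3 : wS N (nmB N T₁ S₁ be T Pc c) ≤ E) :
    ∑ k ∈ Ico 0 N, GW N R₁ S₁ T₁ (k + 1) (cc (k + 1)) (fun n n' m =>
        (CP (b (k + 1)) (k + 1) (k + 1) n m * (sk (k + 1) κ *
          PG be s T (c (k + 1)) (k + 1) (k + 1) n' m * sk (k + 1) κ)).trace)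
      ≤ 18 * (120000 * ((J : ℝ) + 1) ^ 3) * (√(s * E * (q * EB)) + q * E) := by
  have hp := hT.ps
  set L : ℝ := (J : ℝ) + 1 with hL
  have hL1 : 1 ≤ L := by
    have : (0 : ℝ) ≤ J := Nat.cast_nonneg J
    linarith
  have hL3 : 1 ≤ L ^ 3 := one_le_pow₀ hL1
  have hbi : 1 ≤ be⁻¹ := (one_le_inv₀ hb).2 hb1
  have hμ : 0 < s⁻¹ := inv_pos.2 hs
  have hC : s⁻¹ / 4 ^ J * (2 * C) ≤ 1 := by
    have h1 := mul_le_mul_of_nonneg_left hJ (show 0 ≤ s⁻¹ / 4 ^ J by positivity)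
    refine h1.trans (le_of_eq ?_)
    field_simp
  have hs' : s = (s⁻¹ / 4 ^ 0)⁻¹ := by simp
  have nH := nmH_nonneg (T := T) hb hp N T₁ S₁ c
  have nD := nmD_nonneg (d := d) N T₁ S₁ c
  have nE := nmE_nonneg (e := e) hT.pe N T₁ S₁ c
  have nB := nmB_nonneg (T := T) hb hp N T₁ S₁ Pc c
  have nE1 := nmE_nonneg (e := e) hT.pe N T₁ S₁ (c1 N c)
  have up : ∀ {u : ℝ}, 0 ≤ u → u ≤ be⁻¹ * u := fun {u} hu => le_mul_of_one_le_left hu hbi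
  have hsE : 0 ≤ s * E := mul_nonneg hs.le hE0
  -- lag zero
  have z0 : nmH N T₁ S₁ be T c 0 ≤ E := (H912.wS_zero_le nH).trans hW0
  have z1 : be⁻¹ * nmD N T₁ S₁ d c 0 ≤ E :=
    (H912.wS_zero_le (X := fun r => be⁻¹ * nmD N T₁ S₁ d c r)
      fun r => mul_nonneg (by positivity) (nD r)).trans hW1
  have z2 : nmE N T₁ S₁ e c 0 ≤ E := (up (nE 0)).trans
    ((H912.wS_zero_le (X := fun r => be⁻¹ * nmE N T₁ S₁ e c r)
      fun r => mul_nonneg (by positivity) (nE r)).trans hW2)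
  have z3 : nmB N T₁ S₁ be T Pc c 0 ≤ E := (H912.wS_zero_le nB).trans hW3
  have hOM := OM_real hb hT hτ0 hTτ hμ T₁ S₁ hPc hC capC (Nat.zero_le J) hs'
  rw [Ow_lin] at hOM
  have o1 := own_le hL1 hE0 z0 z1 z2 z3
  have o1' := mul_le_mul_of_nonneg_left o1 (show 0 ≤ 2 * s by positivity)
  have hOO := OO_real hb hT hτ0 hTτ hμ T₁ S₁ hPc hC capC1 (Nat.zero_le J) hs'
  rw [Ow_lin] at hOO
  have o2 := own_le hL1 hE0 hC0 hC1 ((up (nE1 0)).trans hC2)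
    ((nmB_c1 hb hp N T₁ S₁ Pc c).trans hC4)
  have o2' := mul_le_mul_of_nonneg_left o2 (show 0 ≤ 4 * s by positivity)
  -- the plane energy
  have hTV := TV_real hb hT hτ0 hTτ hμ T₁ S₁ hPc hC capC (Nat.zero_le J) hs'
  rw [wS_Ow] at hTV
  have w2 : wS N (nmE N T₁ S₁ e c) ≤ E :=
    (H912.wS_mono fun r => up (nE r)).trans hW2
  have o3 := own_le hL1 hE0 hW0 hW1 w2 hW3
  have eD : be⁻¹ * wS N (nmD N T₁ S₁ d c) ≤ E := by
    rw [← H912.wS_smul]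
    exact hW1
  have eE : be⁻¹ * wS N (nmE N T₁ S₁ e c) ≤ E := by
    rw [← H912.wS_smul]
    exact hW2
  have pD : 0 ≤ wS N (nmD N T₁ S₁ d c) := H912.wS_nonneg nD
  have pE : 0 ≤ wS N (nmE N T₁ S₁ e c) := H912.wS_nonneg nE
  have e2 : wS N (fun r => 2 * nmD N T₁ S₁ d c r + 2 * τ * nmE N T₁ S₁ e c r)
      = 2 * wS N (nmD N T₁ S₁ d c) + 2 * τ * wS N (nmE N T₁ S₁ e c) := by
    rw [H912.wS_add, H912.wS_smul, H912.wS_smul]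
  rw [e2] at hTV
  have t3 := t3_le hτ0 hτ2 hs.le hE0 pD pE hbi eD eE
  have t1 := t1_le hτ0 hτ2 hs.le hE0 (by linarith : (0 : ℝ) ≤ L) o3
  have hLs : s * E ≤ L ^ 3 * (s * E) := le_mul_of_one_le_left hsE hL3
  have nLs : 0 ≤ L ^ 3 * (s * E) := by positivity
  have ea : (120000 * L ^ 3) * (s * E) = 120000 * (L ^ 3 * (s * E)) := by ring
  refine fix_BC (a := 120000 * L ^ 3) hb hs hq0 hτ0 hτ2 hT hTτ hPb hPc cap cap1 capN hcc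
    (by linarith) hE0 hEB0 hB1 hB2 hB3 hB4 ?_ ?_ hC3 hC4 ?_ ?_ ?_
  · have h1 : ∑ k ∈ Ico 0 N, ∑ x ∈ iv N S₁, ∑ z ∈ iv N T₁,
        c (k + 1) x z ⬝ᵥ Fv be T d k (ix (k + 1) z) x *ᵥ c (k + 1) x z
        ≤ be⁻¹ * nmD N T₁ S₁ d (c1 N c) 0 := by
      rw [nmD_c1, Finset.mul_sum, Nat.sub_zero]
      refine Finset.sum_le_sum fun k _ => ?_
      unfold Dn
      rw [Finset.mul_sum]
      refine Finset.sum_le_sum fun x _ => ?_
      rw [Finset.mul_sum]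
      exact Finset.sum_le_sum fun z _ => Fv_le hb hT k _ x _
    exact h1.trans hC1
  · have h1 : ∑ k ∈ Ico 0 N, ∑ x ∈ iv N S₁, ∑ z ∈ iv N T₁,
        c (k + 1) x z ⬝ᵥ e k x (ix (k + 1) z) *ᵥ c (k + 1) x z = nmE N T₁ S₁ e (c1 N c) 0 := by
      rw [nmE_c1, Nat.sub_zero]
      rfl
    rw [h1]
    exact (up (nE1 0)).trans hC2
  · refine hTV.trans ((add_le_add t1 t3).trans ?_)
    rw [ea]
    linarith
  · refine hOM.trans (o1'.trans ?_)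
    rw [ea]
    have : 2 * s * (67 * L ^ 3 * E) = 134 * (L ^ 3 * (s * E)) := by ring
    rw [this]
    linarith
  · refine hOO.trans (o2'.trans ?_)
    rw [ea]
    have : 4 * s * (67 * L ^ 3 * E) = 268 * (L ^ 3 * (s * E)) := by ring
    rw [this]
    linarith

end

end Vale.Agent.P141.H736
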