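import Vale.Agent.P141.H457.RealBC

/-!
# P141, line (A), TI, the pair `(B~, C~)` at fixed `x₀`: the kills

`X_le` : the sum of the kills `H457.xk` of `H457.wpair` is at most `q τ` times the weighted energy of
the second slot on the nodes next to a change of the first one, plus its own births.
-/

set_option linter.unusedSectionVars false

namespace Vale.Agent.P141.H736

open Finset Matrix
open Vale.Agent.P075 (Ix val bd rad res phi exists_sq psd_isSymm psd_conj_symm trace_mul_nonneg)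
open Vale.Agent.P141.PL (iv ix mem_iv ix_ix)
open Vale.Agent.P141.PL.H588 (hd)
open Vale.Agent.P141.PL.H103 Vale.Agent.P141.H103
open Vale.Agent.P141.H389 (mn GW_le_sum)
open Vale.Agent.P141.H585.PairO (mh mh_nonneg)
open Vale.Agent.P141.H419.PairW (pq pg)
open Vale.Agent.P141.H874 Vale.Agent.P141.H457

noncomputable section

variable {κ : Type*} [Fintype κ] [DecidableEq κ]

/-! ### One matrix -/

open scoped Classical in
/-- a restricted Gram matrix is at most the Gram matrix -/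
theorem CP_rs_le (P : ℤ → ℤ → Prop) (k : ℕ) (f : ℤ → ℤ → κ → ℝ) (a : ℕ) (n m : ℤ) :
    (CP f k a n m - CP (rs P k f) k a n m).PosSemidef := by
  have h := CP_change (k := k) (P := P) (f := f) (f' := fun x w => if P w (ix k x) then 0 else f x w)
    (fun w m hP x hx => by
      rw [mem_iv] at hx
      simp only [hx, hP, if_false]) a n m
  have e0 : rs P k (fun x w => if P w (ix k x) then 0 else f x w) = fun _ _ => (0 : κ → ℝ) := by
    funext x w
    unfold rs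
    by_cases hP : P w (ix k x)
    · simp only [hP, if_true]
    · simp only [hP, if_false]
  have e1 : CP (fun _ _ => (0 : κ → ℝ)) k a n m = 0 := by
    ext p q
    simp [CP, BM, XR]
  rw [e0, e1, add_zero] at h
  rw [h, add_sub_cancel_right]
  exact CP_psd _ _ _ _ _

theorem pg_zero {n : Type*} [Fintype n] [DecidableEq n] (s : ℝ) (Θ W : Matrix n n ℝ) :
    pg s Θ W 0 = 0 := by
  unfold pg pq
  simp

/-- the trace of the second slot against a capped partner -/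
theorem tr_PG_le {be s q τ : ℝ} (hb : 0 < be) (hs : 0 < s) (hq0 : 0 ≤ q) (hτ0 : 0 ≤ τ)
    {T : ℕ → ℤ → ℤ → Matrix κ κ ℝ} (hp : ∀ k x m, (T k x m).PosSemidef)
    (hTτ : ∀ k x m, (τ • (1 : Matrix κ κ ℝ) - T k x m).PosSemidef) (c : ℤ → ℤ → κ → ℝ) (k a : ℕ)
    (n h : ℤ) {Q : Matrix (Ix k × κ) (Ix k × κ) ℝ} (pQ : Q.PosSemidef)
    (cQ : (q • (1 : Matrix (Ix k × κ) (Ix k × κ) ℝ) - Q).PosSemidef) :
    (Q * PG be s T c k a n h).trace ≤ q * τ * (WD be T k a n h * CP c k a n h).trace := by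
  have hS := psd_isSymm (SD_psd hb hp k a n h)
  have hU := SD_unit hb hp k a n h
  have hΘ := psd_isSymm (TD_psd hp k a n h)
  have hτ' : (τ • (SD be T k a n h * SD be T k a n h) -
      TD T k a n h * TD T k a n h).PosSemidef := by
    rw [SD_sq hb hp]
    exact WD_sq hb.le hτ0 hp hTτ _ _ _ _
  have a2 := tr_pg_add hs hq0 hτ0 hΘ hS hU hτ' PosSemidef.zero (CP_psd c k a n h) pQ cQ
  rw [zero_add, SD_sq hb hp, pg_zero, Matrix.mul_zero, trace_zero, zero_add] at a2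
  exact a2

/-- the weighted energy of a cell -/
theorem tr_WD_CP (be : ℝ) (T : ℕ → ℤ → ℤ → Matrix κ κ ℝ) (c : ℤ → ℤ → κ → ℝ) (k a : ℕ) (n h : ℤ) :
    (WD be T k a n h * CP c k a n h).trace = ((2 : ℝ) ^ k * 2 ^ a)⁻¹ *
      ∑ x ∈ iv k h, ∑ z ∈ iv a n,
        c x z ⬝ᵥ (be • (1 : Matrix κ κ ℝ) + T a x (ix a z)) *ᵥ c x z := by
  rw [trace_mul_comm]
  unfold WD
  rw [trace_CP_DB]
  congr 1
  refine Finset.sum_congr rfl fun x _ => Finset.sum_congr rfl fun z hz => ?_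
  rw [mem_iv.1 hz]

/-! ### Sums over the nodes -/

theorem GW_mo {N : ℕ} {R S T : ℤ} {k : ℕ} {c : ℤ} {g d : ℤ → ℤ → ℤ → ℝ}
    (H : ∀ n n' m, g n n' m ≤ d n n' m) : GW N R S T k c g ≤ GW N R S T k c d := by
  unfold GW
  refine mul_le_mul_of_nonneg_left ?_ (by positivity)
  refine Finset.sum_le_sum fun m _ => Finset.sum_le_sum fun n _ => ?_
  split_ifs
  · exact H _ _ _
  · exact le_rfl

/-- node sums: a function of the second cell only -/
theorem GW_pl (N : ℕ) (R S T : ℤ) (k : ℕ) (c : ℤ) {g : ℤ → ℤ → ℤ → ℝ}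
    (g0 : ∀ n n' m, 0 ≤ g n n' m) :
    GW N R S T k c g ≤ (4 : ℝ) ^ k * ∑ m ∈ iv (N - k) S, ∑ n' ∈ iv (N - k) T,
      g (c - m - n') n' m := by
  have e : GW N R S T k c g = GW N R S T k c (fun _ n' m => g (c - m - n') n' m) := by
    unfold GW
    congr 1
    refine Finset.sum_congr rfl fun m _ => Finset.sum_congr rfl fun n _ => ?_
    have h1 : c - m - (c - m - n) = n := by ring
    simp only [h1]
  rw [e]
  exact GW_le_sum N R S T k c fun n' m => g0 _ _ _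

open scoped Classical in
/-- the halves of the node, as points -/
theorem node_pts (k : ℕ) (m n' : ℤ) (μ : ℤ → Prop) (f : ℤ → ℤ → ℝ) :
    (4 : ℝ) ^ (k + 1) * mh (fun h => if μ h then (1 / 2) * (((2 : ℝ) ^ k * 2 ^ k)⁻¹ *
        ∑ x ∈ iv k h, ∑ z ∈ iv k (2 * n'), f x z + ((2 : ℝ) ^ k * 2 ^ k)⁻¹ *
        ∑ x ∈ iv k h, ∑ z ∈ iv k (2 * n' + 1), f x z) else 0) m
      = ∑ x ∈ iv (k + 1) m, ∑ z ∈ iv (k + 1) n', if μ (ix k x) then f x z else 0 := by
  have e1 : ∀ h : ℤ, (if μ h then (1 / 2) * (((2 : ℝ) ^ k * 2 ^ k)⁻¹ *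
        ∑ x ∈ iv k h, ∑ z ∈ iv k (2 * n'), f x z + ((2 : ℝ) ^ k * 2 ^ k)⁻¹ *
        ∑ x ∈ iv k h, ∑ z ∈ iv k (2 * n' + 1), f x z) else 0)
      = (1 / 2) * ((2 : ℝ) ^ k * 2 ^ k)⁻¹ * ∑ x ∈ iv k h, ∑ z ∈ iv (k + 1) n',
        if μ (ix k x) then f x z else 0 := by
    intro h
    have e2 : ∑ x ∈ iv k h, ∑ z ∈ iv (k + 1) n', (if μ (ix k x) then f x z else 0)
        = if μ h then ∑ x ∈ iv k h, ∑ z ∈ iv (k + 1) n', f x z else 0 := by
      split_ifs with hh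
      · refine Finset.sum_congr rfl fun x hx => Finset.sum_congr rfl fun z _ => ?_
        rw [mem_iv.1 hx, if_pos hh]
      · refine Finset.sum_eq_zero fun x hx => Finset.sum_eq_zero fun z _ => ?_
        rw [mem_iv.1 hx, if_neg hh]
    rw [e2]
    split_ifs with hh
    · simp only [H389.sum_iv_succ', Finset.sum_add_distrib]
      ring
    · ring
  unfold mh
  beta_reduce
  rw [e1, e1, H389.sum_iv_succ' k m]
  have e4 : (4 : ℝ) ^ (k + 1) = 4 * (2 ^ k * 2 ^ k) := by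
    rw [pow_succ, ← mul_pow]
    norm_num
    ring
  rw [e4]
  have h2 : (2 : ℝ) ^ k ≠ 0 := by positivity
  field_simp
  ring

/-- sums over the root -/
theorem root_pts {N k : ℕ} (hk : k ≤ N) (S T : ℤ) (f : ℤ → ℤ → ℤ → ℤ → ℝ) :
    ∑ m ∈ iv (N - k) S, ∑ n' ∈ iv (N - k) T, ∑ x ∈ iv k m, ∑ z ∈ iv k n', f m n' x z
      = ∑ x ∈ iv N S, ∑ z ∈ iv N T, f (ix k x) (ix k z) x z := by
  have e1 : ∀ m, ∑ n' ∈ iv (N - k) T, ∑ x ∈ iv k m, ∑ z ∈ iv k n', f m n' x z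
      = ∑ x ∈ iv k m, ∑ z ∈ iv N T, f m (ix k z) x z := by
    intro m
    rw [Finset.sum_comm]
    exact Finset.sum_congr rfl fun x _ => H258.sum_sub hk T fun n' z => f m n' x z
  rw [Finset.sum_congr rfl fun m _ => e1 m]
  exact H258.sum_sub hk S fun m x => ∑ z ∈ iv N T, f m (ix k z) x z

open scoped Classical in
/-- **Node sums as plain sums.** -/
theorem GW_pts {N k : ℕ} (hk : k < N) (R S T c : ℤ) (μ : ℤ → ℤ → Prop) {f : ℤ → ℤ → ℝ}
    (f0 : ∀ x z, 0 ≤ f x z) :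
    GW N R S T (k + 1) c (fun n n' m => mh (fun h => if μ n h then (1 / 2) *
        (((2 : ℝ) ^ k * 2 ^ k)⁻¹ * ∑ x ∈ iv k h, ∑ z ∈ iv k (2 * n'), f x z +
        ((2 : ℝ) ^ k * 2 ^ k)⁻¹ * ∑ x ∈ iv k h, ∑ z ∈ iv k (2 * n' + 1), f x z) else 0) m)
      ≤ ∑ x ∈ iv N S, ∑ z ∈ iv N T,
        if μ (c - ix (k + 1) x - ix (k + 1) z) (ix k x) then f x z else 0 := by
  have p0 : ∀ h n : ℤ, 0 ≤ ((2 : ℝ) ^ k * 2 ^ k)⁻¹ * ∑ x ∈ iv k h, ∑ z ∈ iv k n, f x z := fun h n =>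
    mul_nonneg (by positivity) (Finset.sum_nonneg fun x _ => Finset.sum_nonneg fun z _ => f0 x z)
  refine (GW_pl N R S T (k + 1) c fun n n' m => mh_nonneg (fun h => ?_) m).trans (le_of_eq ?_)
  · split_ifs
    · have := p0 h (2 * n')
      have := p0 h (2 * n' + 1)
      linarith
    · exact le_rfl
  · rw [← root_pts (show k + 1 ≤ N by omega) S T
      (fun m n' x z => if μ (c - m - n') (ix k x) then f x z else 0), Finset.mul_sum]
    refine Finset.sum_congr rfl fun m _ => ?_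
    rw [Finset.mul_sum]
    refine Finset.sum_congr rfl fun n' _ => ?_
    exact node_pts k m n' (μ (c - m - n')) f

/-! ### The kills -/

section kills

variable {be : ℝ} {T e d : ℕ → ℤ → ℤ → Matrix κ κ ℝ}

/-- weighted energy at a point -/
def wE (be : ℝ) (T : ℕ → ℤ → ℤ → Matrix κ κ ℝ) (k : ℕ) (f : ℤ → ℤ → κ → ℝ) (x z : ℤ) : ℝ :=
  f x z ⬝ᵥ (be • (1 : Matrix κ κ ℝ) + T k x (ix k z)) *ᵥ f x z

theorem wE_nonneg (hb : 0 < be) (hp : ∀ k x m, (T k x m).PosSemidef) (k : ℕ)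
    (f : ℤ → ℤ → κ → ℝ) (x z : ℤ) : 0 ≤ wE be T k f x z := by
  have h := ((PosSemidef.one (n := κ) (R := ℝ)).smul hb.le).add (hp k x (ix k z))
  have h2 := h.dotProduct_mulVec_nonneg (f x z)
  rwa [star_trivial] at h2

open scoped Classical in
/-- **The kills.** `CRB` : energy next to a change of the first slot, `BRN` : own births. -/
theorem X_le (hb : 0 < be) {s q τ : ℝ} (hs : 0 < s) (hq0 : 0 ≤ q) (hτ0 : 0 ≤ τ)
    (hp : ∀ k x m, (T k x m).PosSemidef)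
    (hTτ : ∀ k x m, (τ • (1 : Matrix κ κ ℝ) - T k x m).PosSemidef)
    {N : ℕ} {b c : ℕ → ℤ → ℤ → κ → ℝ} {Pb Pc : ℕ → ℤ → ℤ → Prop}
    (cap1 : ∀ k < N, ∀ n m,
      (q • (1 : Matrix (Ix k × κ) (Ix k × κ) ℝ) - CP (b (k + 1)) k k n m).PosSemidef)
    (R₁ S₁ T₁ : ℤ) (cc : ℕ → ℤ) :
    ∑ k ∈ Ico 0 N, GW N R₁ S₁ T₁ (k + 1) (cc (k + 1)) (fun n n' m =>
        mh (fun h => xk be s q τ T Pb Pc b c k n n' h) m)
      ≤ q * τ * (∑ k ∈ Ico 0 N, ∑ x ∈ iv N S₁, ∑ z ∈ iv N T₁,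
          (if ∃ w, ix (k + 1) w = cc (k + 1) - ix (k + 1) x - ix (k + 1) z ∧ Pb k w (ix k x) then
            wE be T k (c (k + 1)) x z else 0)
        + ∑ k ∈ Ico 0 N, ∑ x ∈ iv N S₁, ∑ z ∈ iv N T₁,
          wE be T k (rs (Pc k) k (c (k + 1))) x z) := by
  rw [← Finset.sum_add_distrib, Finset.mul_sum]
  refine Finset.sum_le_sum fun k hk => ?_
  rw [Finset.mem_Ico] at hk
  have hqt : 0 ≤ q * τ := mul_nonneg hq0 hτ0
  set f1 : ℤ → ℤ → ℝ := wE be T k (c (k + 1)) with hf1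
  set f2 : ℤ → ℤ → ℝ := wE be T k (rs (Pc k) k (c (k + 1))) with hf2
  have t1 : ∀ n h, (WD be T k k n h * CP (c (k + 1)) k k n h).trace
      = ((2 : ℝ) ^ k * 2 ^ k)⁻¹ * ∑ x ∈ iv k h, ∑ z ∈ iv k n, f1 x z := fun n h =>
    tr_WD_CP be T (c (k + 1)) k k n h
  have t2 : ∀ n h, (WD be T k k n h * CP (rs (Pc k) k (c (k + 1))) k k n h).trace
      = ((2 : ℝ) ^ k * 2 ^ k)⁻¹ * ∑ x ∈ iv k h, ∑ z ∈ iv k n, f2 x z := fun n h =>
    tr_WD_CP be T (rs (Pc k) k (c (k + 1))) k k n h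
  have key : ∀ n n' h, xk be s q τ T Pb Pc b c k n n' h
      ≤ q * τ * (if ∃ w, ix (k + 1) w = n ∧ Pb k w h then (1 / 2) *
          (((2 : ℝ) ^ k * 2 ^ k)⁻¹ * ∑ x ∈ iv k h, ∑ z ∈ iv k (2 * n'), f1 x z +
          ((2 : ℝ) ^ k * 2 ^ k)⁻¹ * ∑ x ∈ iv k h, ∑ z ∈ iv k (2 * n' + 1), f1 x z) else 0)
        + q * τ * (if True then (1 / 2) *
          (((2 : ℝ) ^ k * 2 ^ k)⁻¹ * ∑ x ∈ iv k h, ∑ z ∈ iv k (2 * n'), f2 x z +
          ((2 : ℝ) ^ k * 2 ^ k)⁻¹ * ∑ x ∈ iv k h, ∑ z ∈ iv k (2 * n' + 1), f2 x z) else 0) := by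
    intro n n' h
    unfold xk
    rw [if_pos trivial, ← t2, ← t2, ← t1, ← t1]
    refine add_le_add ?_ (le_of_eq (by ring))
    rw [mn_CP]
    have eV : mn (fun n => PG be s T (c (k + 1)) k k n h) n'
        = (1 / 2 : ℝ) • (PG be s T (c (k + 1)) k k (2 * n') h
          + PG be s T (c (k + 1)) k k (2 * n' + 1) h) := rfl
    split_ifs with hP
    · have pQ := CP_psd (rs (Pb k) k (b (k + 1))) k (k + 1) n h
      have cQ : (q • (1 : Matrix (Ix k × κ) (Ix k × κ) ℝ)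
          - CP (rs (Pb k) k (b (k + 1))) k (k + 1) n h).PosSemidef := by
        have h1 := CP_rs_le (Pb k) k (b (k + 1)) (k + 1) n h
        have h2 : (q • (1 : Matrix (Ix k × κ) (Ix k × κ) ℝ)
            - CP (b (k + 1)) k (k + 1) n h).PosSemidef := by
          have h0 := ((cap1 k hk.2 (2 * n) h).add (cap1 k hk.2 (2 * n + 1) h)).smul
            (show (0 : ℝ) ≤ 1 / 2 by norm_num)
          rw [← mn_CP]
          unfold mn
          have e : (1 / 2 : ℝ) • (q • (1 : Matrix (Ix k × κ) (Ix k × κ) ℝ) -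
              CP (b (k + 1)) k k (2 * n) h + (q • (1 : Matrix (Ix k × κ) (Ix k × κ) ℝ) -
              CP (b (k + 1)) k k (2 * n + 1) h)) = q • (1 : Matrix (Ix k × κ) (Ix k × κ) ℝ) -
              (1 / 2 : ℝ) • (CP (b (k + 1)) k k (2 * n) h + CP (b (k + 1)) k k (2 * n + 1) h) := by
            module
          rwa [e] at h0
        have h3 := h2.add h1
        rwa [sub_add_sub_cancel] at h3
      have g0 := tr_PG_le hb hs hq0 hτ0 hp hTτ (c (k + 1)) k k (2 * n') h pQ cQ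
      have g1 := tr_PG_le hb hs hq0 hτ0 hp hTτ (c (k + 1)) k k (2 * n' + 1) h pQ cQ
      rw [eV, ← tr_half]
      linarith
    · have ez : CP (rs (Pb k) k (b (k + 1))) k (k + 1) n h = 0 := by
        ext p p'
        simp only [CP, BM, XR, Matrix.smul_apply, Matrix.sum_apply, vecMulVec_apply, smul_eq_mul,
          Matrix.zero_apply]
        rw [Finset.sum_eq_zero, mul_zero, mul_zero]
        intro w hw
        have hw' : ¬ Pb k w h := fun hh => hP ⟨w, mem_iv.1 hw, hh⟩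
        simp only [rs, H389.cell_ix, hw', if_false, Pi.zero_apply, zero_mul]
      rw [ez, Matrix.zero_mul, trace_zero, mul_zero]
  have g1 := GW_pts hk.2 R₁ S₁ T₁ (cc (k + 1)) (fun n h => ∃ w, ix (k + 1) w = n ∧ Pb k w h)
    (f := f1) (fun x z => wE_nonneg hb hp k _ x z)
  have g2 := GW_pts hk.2 R₁ S₁ T₁ (cc (k + 1)) (fun _ _ => True)
    (f := f2) (fun x z => wE_nonneg hb hp k _ x z)
  simp only [if_true] at g2
  have h1 : GW N R₁ S₁ T₁ (k + 1) (cc (k + 1)) (fun n n' m =>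
        mh (fun h => xk be s q τ T Pb Pc b c k n n' h) m)
      ≤ q * τ * GW N R₁ S₁ T₁ (k + 1) (cc (k + 1)) (fun n n' m => mh (fun h =>
          if ∃ w, ix (k + 1) w = n ∧ Pb k w h then (1 / 2) *
          (((2 : ℝ) ^ k * 2 ^ k)⁻¹ * ∑ x ∈ iv k h, ∑ z ∈ iv k (2 * n'), f1 x z +
          ((2 : ℝ) ^ k * 2 ^ k)⁻¹ * ∑ x ∈ iv k h, ∑ z ∈ iv k (2 * n' + 1), f1 x z) else 0) m)
        + q * τ * GW N R₁ S₁ T₁ (k + 1) (cc (k + 1)) (fun _ n' m => mh (fun h =>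
          (1 / 2) * (((2 : ℝ) ^ k * 2 ^ k)⁻¹ * ∑ x ∈ iv k h, ∑ z ∈ iv k (2 * n'), f2 x z +
          ((2 : ℝ) ^ k * 2 ^ k)⁻¹ * ∑ x ∈ iv k h, ∑ z ∈ iv k (2 * n' + 1), f2 x z)) m) := by
    rw [← H389.GW_smul, ← H389.GW_smul, ← H389.GW_add]
    refine GW_mo fun n n' m => ?_
    have k0 := key n n' (2 * m)
    have k1 := key n n' (2 * m + 1)
    rw [if_pos trivial] at k0 k1
    unfold mh
    linarith
  have g1' := mul_le_mul_of_nonneg_left g1 hqt
  have g2' := mul_le_mul_of_nonneg_left g2 hqt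
  linarith

end kills

end

end Vale.Agent.P141.H736
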