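import Vale.Agent.P141.H457.NumBC
import Vale.Agent.P141.H581.TVCP
import Vale.Agent.P141.H636.TopBC
import Vale.Agent.P141.H736.LbcX

/-!
# P141, line (A), TI, the pair `(B~, C~)` at fixed `x₀`: the composition

`fix_BC` : `H457.wpair`, `H419.PairB.WPair.total`, the numbers as plain sums, the two parameters
chosen.
-/

set_option linter.unusedSectionVars false

namespace Vale.Agent.P141.H736

open Finset Matrix
open Vale.Agent.P075 (Ix val bd rad res phi exists_sq psd_isSymm psd_conj_symm trace_mul_nonneg)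
open Vale.Agent.P141.PL (iv ix mem_iv ix_ix)
open Vale.Agent.P141.PL.H103 Vale.Agent.P141.H103
open Vale.Agent.P141.H389 (mn TV)
open Vale.Agent.P141.H585.PairCh (phs dls)
open Vale.Agent.P141.H585.PairO (mh mh_nonneg gp)
open Vale.Agent.P141.H419.PairW (pq pg)
open Vale.Agent.P141.H419.PairB (WPair mvM mvD gnV)
open Vale.Agent.P141.H784 (av)
open Vale.Agent.P141.H581.TVCP (mB mB_nonneg)
open Vale.Agent.P141.H874 Vale.Agent.P141.H457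

noncomputable section

variable {κ : Type*} [Fintype κ] [DecidableEq κ]

variable {be : ℝ} {T e d : ℕ → ℤ → ℤ → Matrix κ κ ℝ}

open scoped Classical in
/-- **The pair at fixed `x₀`.** `E` : numbers of the second slot, `EB` : numbers of the first one. -/
theorem fix_BC (hb : 0 < be) {s q τ : ℝ} (hs : 0 < s) (hq0 : 0 ≤ q) (hτ0 : 0 ≤ τ) (hτ2 : τ ≤ 2)
    (hT : H419.Wt T e d) (hTτ : ∀ k x m, (τ • (1 : Matrix κ κ ℝ) - T k x m).PosSemidef)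
    {N : ℕ} {b c : ℕ → ℤ → ℤ → κ → ℝ} {Pb Pc : ℕ → ℤ → ℤ → Prop}
    (hPb : ∀ k < N, ∀ w m, ¬ Pb k w m → ∀ x ∈ iv k m, b (k + 1) x w = b k x w)
    (hPc : ∀ k < N, ∀ w m, ¬ Pc k w m → ∀ x ∈ iv k m, c (k + 1) x w = c k x w)
    (cap : ∀ k < N, ∀ n m, (q • (1 : Matrix (Ix k × κ) (Ix k × κ) ℝ) - CP (b k) k k n m).PosSemidef)
    (cap1 : ∀ k < N, ∀ n m,
      (q • (1 : Matrix (Ix k × κ) (Ix k × κ) ℝ) - CP (b (k + 1)) k k n m).PosSemidef)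
    (capN : ∀ n m, (q • (1 : Matrix (Ix N × κ) (Ix N × κ) ℝ) - CP (b N) N N n m).PosSemidef)
    {R₁ S₁ T₁ : ℤ} {cc : ℕ → ℤ} (hcc : PL.H588.Pl cc) {a E EB : ℝ} (ha : 308 ≤ a) (hE0 : 0 ≤ E)
    (hEB0 : 0 ≤ EB)
    -- the first slot
    (hB1 : mB N R₁ S₁ (b 0) ≤ EB)
    (hB2 : ∑ k ∈ Ico 0 N, mB N R₁ S₁ (rs (Pb k) k (b (k + 1))) ≤ EB)
    (hB3 : ∑ k ∈ Ico 0 N, GW N R₁ S₁ T₁ (k + 1) (cc (k + 1)) (fun n n' m => av (k + 1) n m fun x y =>
      b (k + 1) x y ⬝ᵥ Fv be T d k n' x *ᵥ b (k + 1) x y) ≤ EB)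
    (hB4 : ∑ k ∈ Ico 0 N, GW N R₁ S₁ T₁ (k + 1) (cc (k + 1)) (fun n n' m => av (k + 1) n m fun x y =>
      b (k + 1) x y ⬝ᵥ e k x n' *ᵥ b (k + 1) x y) ≤ EB)
    -- the second slot
    (hC1 : ∑ k ∈ Ico 0 N, ∑ x ∈ iv N S₁, ∑ z ∈ iv N T₁,
      c (k + 1) x z ⬝ᵥ Fv be T d k (ix (k + 1) z) x *ᵥ c (k + 1) x z ≤ E)
    (hC2 : ∑ k ∈ Ico 0 N, ∑ x ∈ iv N S₁, ∑ z ∈ iv N T₁,
      c (k + 1) x z ⬝ᵥ e k x (ix (k + 1) z) *ᵥ c (k + 1) x z ≤ E)
    (hC3 : ∑ k ∈ Ico 0 N, ∑ x ∈ iv N S₁, ∑ z ∈ iv N T₁,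
      (if ∃ w, ix (k + 1) w = cc (k + 1) - ix (k + 1) x - ix (k + 1) z ∧ Pb k w (ix k x) then
        wE be T k (c (k + 1)) x z else 0) ≤ E)
    (hC4 : ∑ k ∈ Ico 0 N, ∑ x ∈ iv N S₁, ∑ z ∈ iv N T₁,
      wE be T k (rs (Pc k) k (c (k + 1))) x z ≤ E)
    -- the numbers of the second family
    (hTV : TV 0 N T₁ S₁ (fun k a n m => PG be s T (c k) k a n m) ≤ a * (s * E))
    (hOM : ∑ k ∈ Ico 0 N, (4 : ℝ) ^ (k + 1) * ∑ m ∈ iv (N - (k + 1)) S₁,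
      ∑ n ∈ iv (N - (k + 1)) T₁, gp s (sk (k + 1) κ) (SD be T (k + 1) (k + 1) n m *
        CP (c (k + 1)) (k + 1) (k + 1) n m * SD be T (k + 1) (k + 1) n m) ≤ a * (s * E))
    (hOO : ∑ k ∈ Ico 0 N, (4 : ℝ) ^ (k + 1) * ∑ m ∈ iv (N - (k + 1)) S₁,
      ∑ n ∈ iv (N - (k + 1)) T₁, mh (fun h => dls s
        (SD be T k (k + 1) n h * CP (c (k + 1)) k k (2 * n) h * SD be T k (k + 1) n h)
        (SD be T k (k + 1) n h * CP (c (k + 1)) k k (2 * n + 1) h * SD be T k (k + 1) n h)) m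
      ≤ a * (s * E)) :
    ∑ k ∈ Ico 0 N, GW N R₁ S₁ T₁ (k + 1) (cc (k + 1)) (fun n n' m =>
        (CP (b (k + 1)) (k + 1) (k + 1) n m * (sk (k + 1) κ *
          PG be s T (c (k + 1)) (k + 1) (k + 1) n' m * sk (k + 1) κ)).trace)
      ≤ 18 * a * (√(s * E * (q * EB)) + q * E) := by
  have a0 : 0 ≤ a := by linarith
  have hp := hT.ps
  have W := wpair hb hs hq0 hτ0 hT hTτ hPb hPc cap cap1 capN
  have capA : ∀ k a, k ≤ a → a ≤ N → ∀ n m,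
      (q • (1 : Matrix (Ix k × κ) (Ix k × κ) ℝ) - CP (b k) k a n m).PosSemidef := by
    intro k a h1 h2 n m
    obtain ⟨l, rfl⟩ := Nat.exists_eq_add_of_le h1
    rcases Nat.lt_or_ge k N with h | h
    · exact CP_cap_up (cap k h) l n m
    · have e0 : k = N := by omega
      subst e0
      exact CP_cap_up capN l n m
  have capA1 : ∀ k a, k < N → k ≤ a → a ≤ N → ∀ n m,
      (q • (1 : Matrix (Ix k × κ) (Ix k × κ) ℝ) - CP (b (k + 1)) k a n m).PosSemidef := by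
    intro k a h0 h1 h2 n m
    obtain ⟨l, rfl⟩ := Nat.exists_eq_add_of_le h1
    exact CP_cap_up (cap1 k h0) l n m
  have hTP := H581.TVCP.TV_CP hq0 hPb capA capA1 hB1 hB2
  have hX := X_le (b := b) (c := c) (Pb := Pb) (Pc := Pc) hb hs hq0 hτ0 hp hTτ cap1 R₁ S₁ T₁ cc
  have zm : ∑ k ∈ Ico 0 N, (4 : ℝ) ^ (k + 1) * ∑ m ∈ iv (N - (k + 1)) S₁,
      ∑ n ∈ iv (N - (k + 1)) T₁, mh (fun h => mvM (ι := fun k => Ix k × κ)
        (fun k n h => SD be T k (k + 1) n h) (fun k n h => TD d k k n h)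
        (fun k n h => CP (c (k + 1)) k k (2 * n) h)
        (fun k n h => CP (c (k + 1)) k k (2 * n + 1) h) k n h) m ≤ 2 * E := by
    refine le_trans (le_of_eq ?_) (mul_le_mul_of_nonneg_left hC1 (by norm_num : (0 : ℝ) ≤ 2))
    rw [Finset.mul_sum]
    refine Finset.sum_congr rfl fun k hk => ?_
    rw [Finset.mem_Ico] at hk
    simp only [zm_av hb hp, ← Finset.mul_sum]
    rw [mul_left_comm, sum_av (show k + 1 ≤ N by omega) S₁ T₁
      (fun x z n => c (k + 1) x z ⬝ᵥ Fv be T d k n x *ᵥ c (k + 1) x z)]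
  have em : ∑ k ∈ Ico 0 N, (4 : ℝ) ^ (k + 1) * ∑ m ∈ iv (N - (k + 1)) S₁,
      ∑ n ∈ iv (N - (k + 1)) T₁, mh (fun h => mvD (ι := fun k => Ix k × κ)
        (fun k n h => TD e k k n h)
        (fun k n h => CP (c (k + 1)) k k (2 * n) h)
        (fun k n h => CP (c (k + 1)) k k (2 * n + 1) h) k n h) m ≤ 2 * E := by
    refine le_trans (le_of_eq ?_) (mul_le_mul_of_nonneg_left hC2 (by norm_num : (0 : ℝ) ≤ 2))
    rw [Finset.mul_sum]
    refine Finset.sum_congr rfl fun k hk => ?_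
    rw [Finset.mem_Ico] at hk
    simp only [em_av, ← Finset.mul_sum]
    rw [mul_left_comm, sum_av (show k + 1 ≤ N by omega) S₁ T₁
      (fun x z n => c (k + 1) x z ⬝ᵥ e k x n *ᵥ c (k + 1) x z)]
  have zb : ∑ k ∈ Ico 0 N, GW N R₁ S₁ T₁ (k + 1) (cc (k + 1)) (fun n n' m =>
      mh (fun h => (CP (b (k + 1)) k (k + 1) n h
        * (TD d k k n' h * ((SD be T k (k + 1) n' h)⁻¹ * (SD be T k (k + 1) n' h)⁻¹)
          * TD d k k n' h)).trace) m) ≤ EB := by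
    refine le_trans (le_of_eq ?_) hB3
    refine Finset.sum_congr rfl fun k _ => ?_
    simp only [zb_av hb hp]
  have eb : ∑ k ∈ Ico 0 N, GW N R₁ S₁ T₁ (k + 1) (cc (k + 1)) (fun n n' m =>
      mh (fun h => (CP (b (k + 1)) k (k + 1) n h * TD e k k n' h).trace) m) ≤ EB := by
    refine le_trans (le_of_eq ?_) hB4
    refine Finset.sum_congr rfl fun k _ => ?_
    simp only [eb_av]
  have tot := fun lam kap (hl : (0 : ℝ) < lam) (hk : (0 : ℝ) < kap) =>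
    W.total hs hq0 hτ0 hl hk (Nat.zero_le N) (R₁ := R₁) (S₁ := S₁) (T₁ := T₁) hcc hOM hOO zm em
      zb eb hX
  have hTP0 : 0 ≤ TV 0 N R₁ S₁ (fun k a n m => CP (b k) k a n m) :=
    H389.TV_nonneg fun k a n m => CP_symm _ _ _ _ _
  have r1 : 308 * (q * EB) ≤ a * (q * EB) := mul_le_mul_of_nonneg_right ha (mul_nonneg hq0 hEB0)
  have r2 : EB ≤ a * EB := by nlinarith
  have r3 : 2 * E ≤ a * E := by nlinarith
  have hqE : 0 ≤ q * E := mul_nonneg hq0 hE0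
  have r4 : q * τ * (E + E) ≤ a * (q * E) := by
    have h1 : q * τ * (E + E) = (2 * τ) * (q * E) := by ring
    rw [h1]
    exact mul_le_mul_of_nonneg_right (by linarith) hqE
  have r5 : ∀ {u v : ℝ}, u ≤ E → v ≤ E → q * τ * (u + v) ≤ q * τ * (E + E) := fun hu hv =>
    mul_le_mul_of_nonneg_left (add_le_add hu hv) (mul_nonneg hq0 hτ0)
  exact H636.Top.fix_end hs hq0 hτ0 hτ2 a0 hE0 hEB0 hTP0 tot (hTP.trans r1) hTV le_rfl le_rfl r2 r2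
    r3 r3 ((r5 hC3 hC4).trans r4)

end

end Vale.Agent.P141.H736
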