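import Vale.Agent.P141.H736.TfSum
import Vale.Agent.P141.PL.H855.Slots
import Vale.Agent.P141.PL.H315.NodeRole
import Vale.Agent.P141.PL.H571.Node

/-!
# P141, line W: static cost functionals, they pack over the stopping families

A `Cls` is a class of admissible data of one slot on a cell (a finite set of nodes below the cell,
the functions read by the nodes) which can be GLUED over disjoint cells of mixed scales, with a
constant.  `cost` is the supremum of the sums over the nodes below a cell, one slot is a fixed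
function `ψ`, the three other slots run over three classes.  Main theorem `cost_pack`.
-/

namespace Vale.Agent.P141.H736

open Finset
open Vale.Agent.P141.H315 Vale.Agent.P141.PL.H318
open Vale.Agent.P141.H347 (Fam)
open Vale.Agent.P141.PL.H571 (W abs_loc1_le loc1_smul)
open Vale.Agent.P141.PL.H620 (loc1 nn)
open Vale.Agent.P141.PL.H855 (wN TT wN_congr update_apply_node)
open Vale.Agent.P141.PL.H315 (le)

noncomputable section

open scoped Classical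

/-- a node -/
abbrev Nd : Type := ℕ × ℤ

variable {g : Grid ℤ}

/-- the nodes `𝒩` are below the cell `Q` of the scale `k` -/
def Blw (g : Grid ℤ) (k : ℕ) (Q : Finset ℤ) (𝒩 : Finset Nd) : Prop :=
  ∀ N ∈ 𝒩, 1 ≤ N.1 ∧ N.1 ≤ k ∧ W N.1 N.2 ⊆ g.cube N.1 (le N) ∧ le N ∈ Q

/-- **A class of admissible data of one slot**, with gluing over disjoint cells of mixed scales. -/
structure Cls (g : Grid ℤ) where
  ok : ℕ → Finset ℤ → Finset Nd → (Nd → ℤ → ℝ) → Prop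
  c : ℝ
  one_le : 1 ≤ c
  empty : ∀ k x, ok k (g.cube k x) ∅ 0
  bdd : ∀ k x, ∃ B : ℝ, ∀ 𝒩 A, Blw g k (g.cube k x) 𝒩 → ok k (g.cube k x) 𝒩 A →
    ∀ N ∈ 𝒩, ∀ y ∈ g.cube N.1 (le N), |A N y| ≤ B
  glue : ∀ j x (F : ℤ → Prop) (m : ℤ → ℕ), Fam g F m → (∀ z ∈ g.cube j x, F z → m z ≤ j) →
    ∀ (𝒩 : ℤ → Finset Nd) (A : ℤ → Nd → ℤ → ℝ),
    (∀ z, F z → ∀ y ∈ g.cube (m z) z, 𝒩 y = 𝒩 z ∧ A y = A z) →
    (∀ z ∈ g.cube j x, F z → Blw g (m z) (g.cube (m z) z) (𝒩 z) ∧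
      ok (m z) (g.cube (m z) z) (𝒩 z) (A z)) →
    ∀ 𝒩' : Finset Nd, (∀ N ∈ 𝒩', le N ∈ g.cube j x ∧ F (le N) ∧ N ∈ 𝒩 (le N)) →
      ∃ A', ok j (g.cube j x) 𝒩' A' ∧
        ∀ N ∈ 𝒩', ∀ y ∈ g.cube N.1 (le N), A' N y = c⁻¹ * A (le N) N y

/-- the sum over the nodes, the slot `i` is the function `ψ` -/
def val (o : ℤ) (i : Fin 4) (ψ : ℤ → ℝ) (𝒩 : Finset Nd) (A : Fin 4 → Nd → ℤ → ℝ) : ℝ :=
  TT o 𝒩 (Function.update A i fun _ => ψ)

/-- the values of the admissible data -/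
def vals (κ : Fin 4 → Cls g) (o : ℤ) (i : Fin 4) (ψ : ℤ → ℝ) (k : ℕ) (Q : Finset ℤ) : Set ℝ :=
  {r | ∃ 𝒩 A, Blw g k Q 𝒩 ∧ (∀ j, j ≠ i → (κ j).ok k Q 𝒩 (A j)) ∧ r = val o i ψ 𝒩 A}

/-- **The cost functional.** -/
def cost (κ : Fin 4 → Cls g) (o : ℤ) (i : Fin 4) (ψ : ℤ → ℝ) (k : ℕ) (Q : Finset ℤ) : ℝ :=
  sSup (vals κ o i ψ k Q)

theorem val_nonneg (o : ℤ) (i : Fin 4) (ψ : ℤ → ℝ) (𝒩 : Finset Nd) (A : Fin 4 → Nd → ℤ → ℝ) :
    0 ≤ val o i ψ 𝒩 A := sum_nonneg fun _ _ => abs_nonneg _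

theorem cost_nonneg (κ : Fin 4 → Cls g) (o : ℤ) (i : Fin 4) (ψ : ℤ → ℝ) (k : ℕ) (Q : Finset ℤ) :
    0 ≤ cost κ o i ψ k Q := by
  refine Real.sSup_nonneg ?_
  rintro r ⟨𝒩, A, _, _, rfl⟩
  exact val_nonneg _ _ _ _ _

theorem vals_nonempty (κ : Fin 4 → Cls g) (o : ℤ) (i : Fin 4) (ψ : ℤ → ℝ) (k : ℕ) (x : ℤ) :
    (vals κ o i ψ k (g.cube k x)).Nonempty :=
  ⟨_, ∅, fun _ => 0, fun N hN => absurd hN (notMem_empty N), fun j _ => (κ j).empty k x, rfl⟩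

/-- the nodes below a cell are finitely many -/
def nb (k : ℕ) (Q : Finset ℤ) : Finset Nd :=
  (Icc 1 k).biUnion fun l => Q.image fun y => (l, y / 2 ^ l + 16)

theorem mem_nb {k : ℕ} {Q : Finset ℤ} {𝒩 : Finset Nd} (h : Blw g k Q 𝒩) : 𝒩 ⊆ nb k Q := by
  intro N hN
  obtain ⟨h1, h2, _, h4⟩ := h N hN
  unfold nb
  rw [mem_biUnion]
  refine ⟨N.1, mem_Icc.2 ⟨h1, h2⟩, mem_image.2 ⟨le N, h4, ?_⟩⟩
  refine Prod.ext rfl ?_
  show le N / 2 ^ N.1 + 16 = N.2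
  unfold le
  rw [Int.mul_ediv_cancel_left _ (by positivity)]
  ring

theorem abs_wN_le {o : ℤ} (ho : o = 1 ∨ o = -1) {N : Nd} {f : Fin 4 → ℤ → ℝ} {B : ℝ} (hB : 0 ≤ B)
    (h : ∀ j, ∀ y ∈ W N.1 N.2, |f j y| ≤ B) : |wN o f N| ≤ 2 ^ N.1 * (4 ^ 5 * B ^ 4) := by
  unfold wN
  rw [abs_mul, abs_of_pos (by positivity : (0 : ℝ) < ((4 : ℝ) ^ N.1)⁻¹)]
  have h1 := abs_loc1_le (k := N.1) (v := N.2) ho f
  have hc : ((W N.1 N.2).card : ℝ) = 2 ^ N.1 * 32 := by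
    unfold W
    rw [Int.card_Ico]
    have : (2 ^ N.1 * (N.2 + 16) - 2 ^ N.1 * (N.2 - 16) : ℤ) = ((2 ^ N.1 * 32 : ℕ) : ℤ) := by
      push_cast; ring
    rw [this, Int.toNat_natCast]
    push_cast; ring
  have h2 : ∀ j, √(∑ y ∈ W N.1 N.2, |f j y| ^ 2) ≤ √(2 ^ N.1 * 32) * B := by
    intro j
    have h3 : ∑ y ∈ W N.1 N.2, |f j y| ^ 2 ≤ (2 ^ N.1 * 32) * B ^ 2 := by
      rw [← hc, ← nsmul_eq_mul]
      exact sum_le_card_nsmul _ _ _ fun y hy => pow_le_pow_left₀ (abs_nonneg _) (h j y hy) 2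
    refine (Real.sqrt_le_sqrt h3).trans (le_of_eq ?_)
    rw [Real.sqrt_mul (by positivity), Real.sqrt_sq hB]
  have h4 : ∏ j, √(∑ y ∈ W N.1 N.2, |f j y| ^ 2) ≤ (√(2 ^ N.1 * 32) * B) ^ 4 := by
    refine (prod_le_prod (fun j _ => Real.sqrt_nonneg _) fun j _ => h2 j).trans (le_of_eq ?_)
    rw [prod_const, card_univ, Fintype.card_fin]
  have h5 : (√((2 : ℝ) ^ N.1 * 32) * B) ^ 4 = (2 ^ N.1 * 32) ^ 2 * B ^ 4 := by
    have : √((2 : ℝ) ^ N.1 * 32) ^ 2 = 2 ^ N.1 * 32 := Real.sq_sqrt (by positivity)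
    calc (√((2 : ℝ) ^ N.1 * 32) * B) ^ 4 = (√((2 : ℝ) ^ N.1 * 32) ^ 2) ^ 2 * B ^ 4 := by ring
      _ = _ := by rw [this]
  calc ((4 : ℝ) ^ N.1)⁻¹ * |loc1 N.1 (nn o N.2 0 0) f|
      ≤ ((4 : ℝ) ^ N.1)⁻¹ * (2 ^ N.1 * ((2 ^ N.1 * 32) ^ 2 * B ^ 4)) := by
        refine mul_le_mul_of_nonneg_left (h1.trans ?_) (by positivity)
        rw [← h5]
        exact mul_le_mul_of_nonneg_left h4 (by positivity)
    _ = 2 ^ N.1 * (4 ^ 5 * B ^ 4) := by
        have : (4 : ℝ) ^ N.1 = 2 ^ N.1 * 2 ^ N.1 := by rw [← mul_pow]; norm_num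
        rw [this]
        field_simp
        ring

theorem vals_bdd (κ : Fin 4 → Cls g) {o : ℤ} (ho : o = 1 ∨ o = -1) (i : Fin 4) (ψ : ℤ → ℝ)
    (k : ℕ) (x : ℤ) : BddAbove (vals κ o i ψ k (g.cube k x)) := by
  choose B hB using fun j => (κ j).bdd k x
  set Q := g.cube k x with hQ
  -- one bound for all
  obtain ⟨D, hD0, hD1, hD2⟩ : ∃ D : ℝ, 0 ≤ D ∧ (∀ j, B j ≤ D) ∧ ∀ y ∈ Q, |ψ y| ≤ D := by
    refine ⟨∑ j, |B j| + ∑ y ∈ Q, |ψ y|, by positivity, fun j => ?_, fun y hy => ?_⟩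
    · have h1 := single_le_sum (f := fun j => |B j|) (fun _ _ => abs_nonneg _) (mem_univ j)
      have h2 : 0 ≤ ∑ y ∈ Q, |ψ y| := sum_nonneg fun _ _ => abs_nonneg _
      linarith [le_abs_self (B j)]
    · have h1 := single_le_sum (f := fun y => |ψ y|) (fun _ _ => abs_nonneg _) hy
      have h2 : 0 ≤ ∑ j, |B j| := sum_nonneg fun _ _ => abs_nonneg _
      linarith
  refine ⟨∑ N ∈ nb k Q, 2 ^ N.1 * (4 ^ 5 * D ^ 4), ?_⟩
  rintro r ⟨𝒩, A, h1, h2, rfl⟩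
  unfold val TT
  refine (sum_le_sum fun N hN => ?_).trans
    (sum_le_sum_of_subset_of_nonneg (mem_nb h1) fun _ _ _ => by positivity)
  refine abs_wN_le ho hD0 fun j y hy => ?_
  obtain ⟨h3, h4, h5, h6⟩ := h1 N hN
  by_cases hj : j = i
  · subst hj
    rw [Function.update_self]
    refine hD2 y ?_
    have h7 : g.cube N.1 (le N) ⊆ g.cube k (le N) := g.sub_le h4 _
    have h8 : g.cube k (le N) = g.cube k x := g.eq_of_mem k x _ h6
    rw [hQ, ← h8]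
    exact h7 (h5 hy)
  · rw [Function.update_of_ne hj]
    exact (hB j 𝒩 (A j) h1 (h2 j hj) N hN y (h5 hy)).trans (hD1 j)

/-- **Every admissible triple costs at most the cost.** -/
theorem val_le_cost (κ : Fin 4 → Cls g) {o : ℤ} (ho : o = 1 ∨ o = -1) (i : Fin 4) (ψ : ℤ → ℝ)
    {k : ℕ} {x : ℤ} {𝒩 : Finset Nd} {A : Fin 4 → Nd → ℤ → ℝ} (h1 : Blw g k (g.cube k x) 𝒩)
    (h2 : ∀ j, j ≠ i → (κ j).ok k (g.cube k x) 𝒩 (A j)) :
    val o i ψ 𝒩 A ≤ cost κ o i ψ k (g.cube k x) :=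
  le_csSup (vals_bdd κ ho i ψ k x) ⟨𝒩, A, h1, h2, rfl⟩

theorem exists_near (κ : Fin 4 → Cls g) (o : ℤ) (i : Fin 4) (ψ : ℤ → ℝ)
    (k : ℕ) (x : ℤ) {η : ℝ} (hη : 0 < η) : ∃ 𝒩 A, Blw g k (g.cube k x) 𝒩 ∧
      (∀ j, j ≠ i → (κ j).ok k (g.cube k x) 𝒩 (A j)) ∧
      cost κ o i ψ k (g.cube k x) - η < val o i ψ 𝒩 A := by
  obtain ⟨r, ⟨𝒩, A, h1, h2, rfl⟩, h3⟩ := exists_lt_of_lt_csSup (vals_nonempty κ o i ψ k x)
    (show cost κ o i ψ k (g.cube k x) - η < sSup (vals κ o i ψ k (g.cube k x)) by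
      unfold cost; linarith)
  exact ⟨𝒩, A, h1, h2, h3⟩

/-- the product of the constants of gluing of the companions -/
def ck (κ : Fin 4 → Cls g) (i : Fin 4) : ℝ := ∏ j ∈ univ.erase i, (κ j).c

theorem one_le_ck (κ : Fin 4 → Cls g) (i : Fin 4) : 1 ≤ ck κ i :=
  prod_induction _ (fun x => 1 ≤ x) (fun _ _ => one_le_mul_of_one_le_of_one_le) le_rfl
    fun j _ => (κ j).one_le

/-- the sum over the family of the normalised sums over the nodes of the cells -/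
theorem sum_fam {j : ℕ} {x : ℤ} {F : ℤ → Prop} {m : ℤ → ℕ} (hF : Fam g F m)
    (hm : ∀ z ∈ g.cube j x, F z → m z ≤ j) {𝒩 : ℤ → Finset Nd}
    (h𝒩 : ∀ z, F z → ∀ y ∈ g.cube (m z) z, 𝒩 y = 𝒩 z)
    (hb : ∀ z ∈ g.cube j x, F z → Blw g (m z) (g.cube (m z) z) (𝒩 z)) (v : Nd → ℝ) :
    ∑ z ∈ g.cube j x, (if F z then (∑ N ∈ 𝒩 z, v N) / (g.cube (m z) z).card else 0) =
      ∑ N ∈ (g.cube j x).biUnion fun z => if F z then 𝒩 z else ∅, v N := by
  set 𝒩' : Finset Nd := (g.cube j x).biUnion fun z => if F z then 𝒩 z else ∅ with h𝒩'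
  have hmem : ∀ z ∈ g.cube j x, F z → 𝒩 z ⊆ 𝒩' := by
    intro z hz hFz N hN
    rw [h𝒩', mem_biUnion]
    exact ⟨z, hz, by rw [if_pos hFz]; exact hN⟩
  have e1 : ∀ z ∈ g.cube j x, (if F z then (∑ N ∈ 𝒩 z, v N) / (g.cube (m z) z).card else 0) =
      ∑ N ∈ 𝒩', if F z ∧ N ∈ 𝒩 z then v N / (g.cube (m z) z).card else 0 := by
    intro z hz
    by_cases hFz : F z
    · rw [if_pos hFz, sum_div]
      have : ∑ N ∈ 𝒩', (if F z ∧ N ∈ 𝒩 z then v N / (g.cube (m z) z).card else 0) =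
          ∑ N ∈ 𝒩', if N ∈ 𝒩 z then v N / (g.cube (m z) z).card else 0 :=
        sum_congr rfl fun N _ => by simp only [hFz, true_and]
      rw [this, ← sum_filter, filter_mem_eq_inter, inter_eq_right.2 (hmem z hz hFz)]
    · rw [if_neg hFz]
      exact (sum_eq_zero fun N _ => by rw [if_neg fun h => hFz h.1]).symm
  rw [sum_congr rfl e1, sum_comm]
  refine sum_congr rfl fun N hN => ?_
  rw [h𝒩', mem_biUnion] at hN
  obtain ⟨z0, hz0, hN0⟩ := hN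
  by_cases hFz : F z0
  swap
  · rw [if_neg hFz] at hN0; exact absurd hN0 (notMem_empty N)
  rw [if_pos hFz] at hN0
  -- the set of the points is the cell of the node
  have hle : ∀ z ∈ g.cube j x, F z → N ∈ 𝒩 z → le N ∈ g.cube (m z) z :=
    fun z hz hFz hNz => (hb z hz hFz N hNz).2.2.2
  have hset : ∀ z ∈ g.cube j x, (F z ∧ N ∈ 𝒩 z) ↔ z ∈ g.cube (m z0) z0 := by
    intro z hz
    constructor
    · rintro ⟨hz1, hz2⟩
      have h1 := hle z hz hz1 hz2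
      have h2 := hle z0 hz0 hFz hN0
      have h3 := (hF z hz1 (le N) h1).2
      have h4 := (hF z0 hFz (le N) h2).2
      have h5 : m z = m z0 := by rw [← h3, ← h4]
      rw [← g.eq_of_mem (m z0) z0 (le N) h2, ← h5, g.eq_of_mem (m z) z (le N) h1]
      exact g.mem _ _
    · intro hz1
      have h1 := hF z0 hFz z hz1
      exact ⟨h1.1, by rw [h𝒩 z0 hFz z hz1]; exact hN0⟩
  have hsub : g.cube (m z0) z0 ⊆ g.cube j x := by
    rw [← g.eq_of_mem j x z0 hz0]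
    exact g.sub_le (hm z0 hz0 hFz) z0
  rw [← sum_filter]
  have hfil : (g.cube j x).filter (fun z => F z ∧ N ∈ 𝒩 z) = g.cube (m z0) z0 := by
    ext z
    rw [mem_filter]
    exact ⟨fun h => (hset z h.1).1 h.2, fun h => ⟨hsub h, (hset z (hsub h)).2 h⟩⟩
  rw [hfil]
  have e2 : ∀ z ∈ g.cube (m z0) z0, v N / ((g.cube (m z) z).card : ℝ) =
      v N / (g.cube (m z0) z0).card := by
    intro z hz
    rw [(hF z0 hFz z hz).2, g.eq_of_mem _ _ _ hz]
  rw [sum_congr rfl e2, sum_const, nsmul_eq_mul]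
  exact mul_div_cancel₀ _ (card_pos' _ _).ne'

/-- **The cost packs over the stopping families.** -/
theorem cost_pack (κ : Fin 4 → Cls g) {o : ℤ} (ho : o = 1 ∨ o = -1) (i : Fin 4) (ψ : ℤ → ℝ)
    (j : ℕ) (x : ℤ) (F : ℤ → Prop) (m : ℤ → ℕ) (hF : Fam g F m)
    (hm : ∀ z ∈ g.cube j x, F z → m z ≤ j) :
    ∑ z ∈ g.cube j x, (if F z then cost κ o i ψ (m z) (g.cube (m z) z) /
      (g.cube (m z) z).card else 0) ≤ ck κ i * cost κ o i ψ j (g.cube j x) := by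
  refine le_of_forall_pos_le_add fun ε hε => ?_
  have hcj := card_pos' (g := g) j x
  set η : ℝ := ε / (g.cube j x).card with hη
  have hη0 : 0 < η := div_pos hε hcj
  -- a choice of the data on the cells
  have hD : ∀ (k : ℕ) (Q : Finset ℤ), ∃ D : Finset Nd × (Fin 4 → Nd → ℤ → ℝ),
      (∃ y, Q = g.cube k y) → Blw g k Q D.1 ∧ (∀ l, l ≠ i → (κ l).ok k Q D.1 (D.2 l)) ∧
        cost κ o i ψ k Q - η < val o i ψ D.1 D.2 := by
    intro k Q
    by_cases h : ∃ y, Q = g.cube k y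
    · obtain ⟨y, rfl⟩ := h
      obtain ⟨𝒩, A, h1, h2, h3⟩ := exists_near κ o i ψ k y hη0
      exact ⟨(𝒩, A), fun _ => ⟨h1, h2, h3⟩⟩
    · exact ⟨(∅, fun _ => 0), fun h' => absurd h' h⟩
  choose D hD using hD
  set 𝒩 : ℤ → Finset Nd := fun z => (D (m z) (g.cube (m z) z)).1 with h𝒩
  set A : ℤ → Fin 4 → Nd → ℤ → ℝ := fun z => (D (m z) (g.cube (m z) z)).2 with hA
  have hDz : ∀ z, Blw g (m z) (g.cube (m z) z) (𝒩 z) ∧
      (∀ l, l ≠ i → (κ l).ok (m z) (g.cube (m z) z) (𝒩 z) (A z l)) ∧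
        cost κ o i ψ (m z) (g.cube (m z) z) - η < val o i ψ (𝒩 z) (A z) :=
    fun z => hD (m z) _ ⟨z, rfl⟩
  have hconst : ∀ z, F z → ∀ y ∈ g.cube (m z) z, 𝒩 y = 𝒩 z ∧ A y = A z := by
    intro z hz y hy
    have h1 := (hF z hz y hy).2
    simp only [h𝒩, hA, h1, g.eq_of_mem (m z) z y hy, and_self]
  set 𝒩' : Finset Nd := (g.cube j x).biUnion fun z => if F z then 𝒩 z else ∅ with h𝒩'
  have hN' : ∀ N ∈ 𝒩', le N ∈ g.cube j x ∧ F (le N) ∧ N ∈ 𝒩 (le N) := by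
    intro N hN
    rw [h𝒩', mem_biUnion] at hN
    obtain ⟨z0, hz0, hN0⟩ := hN
    by_cases hFz : F z0
    swap
    · rw [if_neg hFz] at hN0; exact absurd hN0 (notMem_empty N)
    rw [if_pos hFz] at hN0
    have h1 := ((hDz z0).1 N hN0).2.2.2
    have h2 := hF z0 hFz (le N) h1
    refine ⟨?_, h2.1, by rw [(hconst z0 hFz (le N) h1).1]; exact hN0⟩
    have : g.cube (m z0) z0 ⊆ g.cube j x := by
      rw [← g.eq_of_mem j x z0 hz0]
      exact g.sub_le (hm z0 hz0 hFz) z0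
    exact this h1
  -- the glued data
  have hgl : ∀ l : Fin 4, ∃ A' : Nd → ℤ → ℝ, l ≠ i → (κ l).ok j (g.cube j x) 𝒩' A' ∧
      ∀ N ∈ 𝒩', ∀ y ∈ g.cube N.1 (le N), A' N y = (κ l).c⁻¹ * A (le N) l N y := by
    intro l
    by_cases hl : l = i
    · exact ⟨0, fun h => absurd hl h⟩
    · obtain ⟨A', h1, h2⟩ := (κ l).glue j x F m hF hm 𝒩 (fun z => A z l)
        (fun z hz y hy => ⟨(hconst z hz y hy).1, by
          show A y l = A z l
          rw [(hconst z hz y hy).2]⟩)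
        (fun z _ _ => ⟨(hDz z).1, (hDz z).2.1 l hl⟩) 𝒩' hN'
      exact ⟨A', fun _ => ⟨h1, h2⟩⟩
  choose A' hA' using hgl
  have hB' : Blw g j (g.cube j x) 𝒩' := by
    intro N hN
    obtain ⟨h1, h2, h3⟩ := hN' N hN
    obtain ⟨h4, h5, h6, _⟩ := (hDz (le N)).1 N h3
    exact ⟨h4, h5.trans (hm _ h1 h2), h6, h1⟩
  have hval := val_le_cost κ ho i ψ hB' fun l hl => (hA' l hl).1
  -- the values of the nodes
  set v : Nd → ℝ := fun N => |wN o (Function.update (fun l => A (le N) l N) i ψ) N| with hv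
  have hvz : ∀ z ∈ g.cube j x, F z → val o i ψ (𝒩 z) (A z) = ∑ N ∈ 𝒩 z, v N := by
    intro z hz hFz
    unfold val TT
    refine sum_congr rfl fun N hN => ?_
    rw [update_apply_node]
    have h1 := ((hDz z).1 N hN).2.2.2
    have h2 := (hconst z hFz (le N) h1).2
    simp only [hv, h2]
  have hv' : val o i ψ 𝒩' A' = (ck κ i)⁻¹ * ∑ N ∈ 𝒩', v N := by
    unfold val TT
    rw [mul_sum]
    refine sum_congr rfl fun N hN => ?_
    rw [update_apply_node]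
    set a : Fin 4 → ℝ := fun l => if l = i then 1 else (κ l).c⁻¹ with ha
    have hpa : ∏ l, a l = (ck κ i)⁻¹ := by
      rw [← mul_prod_erase univ _ (mem_univ i)]
      unfold ck
      rw [← prod_inv_distrib]
      simp only [ha, if_true, one_mul]
      refine prod_congr rfl fun l hl => ?_
      rw [if_neg (ne_of_mem_erase hl)]
    have h1 : wN o (Function.update (fun l => A' l N) i ψ) N =
        wN o (fun l y => a l * Function.update (fun l => A (le N) l N) i ψ l y) N := by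
      refine wN_congr ho fun l y hy => ?_
      by_cases hl : l = i
      · subst hl
        simp only [Function.update_self, ha, if_true, one_mul]
      · have h3 := ((hDz (le N)).1 N (hN' N hN).2.2).2.2.1
        rw [Function.update_of_ne hl, Function.update_of_ne hl, (hA' l hl).2 N hN y (h3 hy)]
        simp only [ha, if_neg hl]
    rw [h1]
    unfold wN
    rw [loc1_smul, hpa, ← mul_assoc, mul_comm _ (ck κ i)⁻¹, mul_assoc, abs_mul,
      abs_of_pos (inv_pos.2 (zero_lt_one.trans_le (one_le_ck κ i)))]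
    rfl
  have hck : 0 < ck κ i := zero_lt_one.trans_le (one_le_ck κ i)
  have hsum : ∑ N ∈ 𝒩', v N ≤ ck κ i * cost κ o i ψ j (g.cube j x) := by
    rw [hv'] at hval
    rwa [inv_mul_le_iff₀ hck] at hval
  calc ∑ z ∈ g.cube j x, (if F z then cost κ o i ψ (m z) (g.cube (m z) z) /
        (g.cube (m z) z).card else 0)
      ≤ ∑ z ∈ g.cube j x, ((if F z then (∑ N ∈ 𝒩 z, v N) / (g.cube (m z) z).card else 0) + η) := by
        refine sum_le_sum fun z hz => ?_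
        by_cases hFz : F z
        · rw [if_pos hFz, if_pos hFz, ← hvz z hz hFz]
          have h1 := (hDz z).2.2
          have h2 : (1 : ℝ) ≤ (g.cube (m z) z).card := by
            exact_mod_cast Finset.card_pos.mpr ⟨z, g.mem (m z) z⟩
          have h3 : (0 : ℝ) < (g.cube (m z) z).card := by linarith
          rw [div_le_iff₀ h3, add_mul, div_mul_cancel₀ _ h3.ne']
          nlinarith
        · rw [if_neg hFz, if_neg hFz]
          linarith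
    _ = ∑ N ∈ 𝒩', v N + ε := by
        rw [sum_add_distrib, sum_fam hF hm (fun z hz y hy => (hconst z hz y hy).1)
          (fun z _ _ => (hDz z).1) v, sum_const, nsmul_eq_mul, hη]
        congr 1
        exact mul_div_cancel₀ _ hcj.ne'
    _ ≤ _ := by linarith

/-- the cost is subadditive in the function -/
theorem cost_add_le (κ : Fin 4 → Cls g) {o : ℤ} (ho : o = 1 ∨ o = -1) (i : Fin 4)
    (ψ ψ' : ℤ → ℝ) (k : ℕ) (x : ℤ) : cost κ o i (ψ + ψ') k (g.cube k x) ≤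
      cost κ o i ψ k (g.cube k x) + cost κ o i ψ' k (g.cube k x) := by
  refine csSup_le (vals_nonempty κ o i _ k x) ?_
  rintro r ⟨𝒩, A, h1, h2, rfl⟩
  refine le_trans ?_ (add_le_add (val_le_cost κ ho i ψ h1 h2) (val_le_cost κ ho i ψ' h1 h2))
  unfold val
  exact PL.H855.TT_update_add_le o 𝒩 A i (fun _ => ψ) fun _ => ψ'

/-- the cost is homogeneous -/
theorem val_smul (o : ℤ) (i : Fin 4) (c : ℝ) (ψ : ℤ → ℝ) (𝒩 : Finset Nd)
    (A : Fin 4 → Nd → ℤ → ℝ) : val o i (c • ψ) 𝒩 A = |c| * val o i ψ 𝒩 A := by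
  unfold val TT
  rw [mul_sum]
  refine sum_congr rfl fun N _ => ?_
  rw [update_apply_node, update_apply_node, PL.H855.wN_update_smul, abs_mul]

theorem val_sum_le {ν : Type*} (s : Finset ν) (o : ℤ) (i : Fin 4) (ψ : ν → ℤ → ℝ)
    (𝒩 : Finset Nd) (A : Fin 4 → Nd → ℤ → ℝ) :
    val o i (∑ a ∈ s, ψ a) 𝒩 A ≤ ∑ a ∈ s, val o i (ψ a) 𝒩 A := by
  have h := PL.H855.TT_update_sum_le s o 𝒩 A i fun a _ => ψ a
  unfold val
  refine le_trans (le_of_eq ?_) h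
  congr 2
  funext N
  rw [Finset.sum_apply]

theorem cost_smul_le (κ : Fin 4 → Cls g) {o : ℤ} (ho : o = 1 ∨ o = -1) (i : Fin 4)
    (c : ℝ) (ψ : ℤ → ℝ) (k : ℕ) (x : ℤ) : cost κ o i (c • ψ) k (g.cube k x) ≤
      |c| * cost κ o i ψ k (g.cube k x) := by
  refine csSup_le (vals_nonempty κ o i _ k x) ?_
  rintro r ⟨𝒩, A, h1, h2, rfl⟩
  rw [val_smul]
  exact mul_le_mul_of_nonneg_left (val_le_cost κ ho i ψ h1 h2) (abs_nonneg _)

end

end Vale.Agent.P141.H736
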