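import Vale.Agent.P141.PL.H588.Fun
import Vale.Agent.P141.PL.H804.Star

/-!
# P141, line W: cost of a change of the inputs in the functional `BF`

`BF` is the functional of `H588`.  The inputs at scale `k` are replaced on some squares of scale
`k`.  The functional does not lose more than the (saturated) energy of the OLD inputs on the
squares which change.
-/

namespace Vale.Agent.P141.H736

open Finset Matrix Vale.Agent.P075 Vale.Agent.P141.PL Vale.Agent.P141.PL.H588

noncomputable section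

open scoped Classical

/-! ### matrices -/

section mat

variable {n : Type*} [Fintype n] [DecidableEq n]

/-- convexity of the energy -/
theorem GX_convex {X Y : Matrix n n ℝ} (hX : X.PosSemidef) (hY : Y.PosSemidef) :
    GX X - GX Y ≤ (phi X * (X - Y)).trace := by
  have h1 := det_mul_le_exp (posDef_one_add hY).posSemidef (res_psd hX)
  have hp1 : 0 < (1 + Y).det := det_pos_one_add hY
  have hp2 : 0 < (res X).det := (res_posDef hX).det_pos
  have h2 := Real.log_le_log (mul_pos hp1 hp2) h1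
  rw [Real.log_mul hp1.ne' hp2.ne', Real.log_exp, log_det_res hX] at h2
  have e1 : ((1 + Y) * res X).trace = (res X).trace + (Y * res X).trace := by
    rw [Matrix.add_mul, Matrix.one_mul, trace_add]
  have e2 : (phi X * (X - Y)).trace = X.trace - Y.trace - (X * res X).trace
      + (Y * res X).trace := by
    rw [phi, Matrix.sub_mul, Matrix.one_mul, Matrix.mul_sub, trace_sub, trace_sub, trace_sub,
      trace_mul_comm (res X) X, trace_mul_comm (res X) Y]
    ring
  have e3 : (X * res X).trace = (1 : Matrix n n ℝ).trace - (res X).trace := by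
    rw [mul_res hX, trace_sub]
  rw [e1] at h2
  rw [e2, e3, GX, GX]
  have e4 : (1 : Matrix n n ℝ).trace = (Fintype.card n : ℝ) := trace_one
  have hl : ld Y = Real.log (1 + Y).det := rfl
  rw [e4]
  linarith

/-- `phi` is at most `1` and at most its argument -/
theorem phi_cap {X : Matrix n n ℝ} (hX : X.PosSemidef) {κ : ℝ}
    (h : 1 ≤ κ ∨ (κ • (1 : Matrix n n ℝ) - X).PosSemidef) :
    (κ • (1 : Matrix n n ℝ) - phi X).PosSemidef := by
  rcases h with h | h
  · have h1 := one_sub_phi_psd hX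
    have h2 : ((κ - 1) • (1 : Matrix n n ℝ)).PosSemidef := PosSemidef.one.smul (by linarith)
    have := h1.add h2
    convert this using 1
    module
  · have := h.add (H804.phi_le_self hX)
    convert this using 1
    abel

end mat

/-! ### blocks -/

/-- the Gram matrix only depends on the values on the block -/
theorem Xg_congr {a b : ℕ} {F F' : ℤ → ℤ → ℝ} {n m : ℤ}
    (h : ∀ x ∈ iv a n, ∀ y ∈ iv b m, F x y = F' x y) : Xg a b F n m = Xg a b F' n m := by
  have hx : ∀ i : Ix a, (2 ^ a * n + val a i : ℤ) ∈ iv a n := by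
    intro i
    have := val_lt a i
    rw [iv, mem_Ico]
    constructor
    · linarith [Int.natCast_nonneg (val a i)]
    · have : (val a i : ℤ) < 2 ^ a := by exact_mod_cast this
      linarith
  have hy : ∀ i : Ix b, (2 ^ b * m + val b i : ℤ) ∈ iv b m := by
    intro i
    have := val_lt b i
    rw [iv, mem_Ico]
    constructor
    · linarith [Int.natCast_nonneg (val b i)]
    · have : (val b i : ℤ) < 2 ^ b := by exact_mod_cast this
      linarith
  ext j j'
  rw [Xg_apply, Xg_apply]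
  congr 1
  refine sum_congr rfl fun i _ => ?_
  rw [h _ (hx i) _ (hy j), h _ (hx i) _ (hy j')]

/-- a coarse block is the mean of its fine blocks in the outer variable -/
theorem Xg_mean (b r : ℕ) (F : ℤ → ℤ → ℝ) (m : ℤ) : ∀ (k : ℕ) (n : ℤ),
    Xg (k + r) b F n m = ((2 : ℝ) ^ r)⁻¹ • ∑ n' ∈ iv r n, Xg k b F n' m := by
  induction r with
  | zero =>
    intro k n
    have e : ∀ z : ℤ, iv 0 z = {z} := by
      intro z
      ext x
      simp only [iv, mem_Ico, mem_singleton, pow_zero, one_mul]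
      omega
    rw [e, sum_singleton, pow_zero, inv_one, one_smul, Nat.add_zero]
  | succ r ih =>
    intro k n
    have e1 : k + (r + 1) = (k + 1) + r := by ring
    rw [e1, ih (k + 1) n]
    simp only [Xg_row]
    ext j j'
    rw [Matrix.smul_apply, Matrix.smul_apply, Matrix.sum_apply, Matrix.sum_apply, sum_iv_succ]
    simp only [Matrix.smul_apply, Matrix.add_apply, smul_eq_mul, ← mul_sum]
    rw [pow_succ, mul_inv]
    ring

/-- the `L²` sum over the square of scale `k` with indices `n`, `m` -/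
def sqb (k : ℕ) (n m : ℤ) (F : ℤ → ℤ → ℝ) : ℝ := ∑ y ∈ iv k m, ∑ x ∈ iv k n, F x y ^ 2

theorem sqb_nonneg (k : ℕ) (n m : ℤ) (F : ℤ → ℤ → ℝ) : 0 ≤ sqb k n m F :=
  sum_nonneg fun _ _ => sum_nonneg fun _ _ => sq_nonneg _

theorem sqb_eq (k : ℕ) (n m : ℤ) (F : ℤ → ℤ → ℝ) :
    sqb k n m F = 4 ^ k * (Xg k k F n m).trace := by
  rw [sqb, ← trace_Xg, ← mul_pow]
  norm_num

/-- the `L²` sum over the squares of scale `k` in a set `Q`, inside the root -/
def sqQ (N : ℕ) (R S : ℤ) (k : ℕ) (Q : ℤ → ℤ → Prop) (F : ℤ → ℤ → ℝ) : ℝ :=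
  ∑ m ∈ iv (N - k) S, ∑ n ∈ iv (N - k) R, if Q n m then sqb k n m F else 0

theorem sqQ_nonneg (N : ℕ) (R S : ℤ) (k : ℕ) (Q : ℤ → ℤ → Prop) (F : ℤ → ℤ → ℝ) :
    0 ≤ sqQ N R S k Q F := by
  refine sum_nonneg fun m _ => sum_nonneg fun n _ => ?_
  split_ifs
  · exact sqb_nonneg ..
  · exact le_rfl

/-- `F` and `F'` agree on the squares of scale `k` of the root which are not in `Q` -/
def Agree (N : ℕ) (R S : ℤ) (k : ℕ) (Q : ℤ → ℤ → Prop) (F F' : ℤ → ℤ → ℝ) : Prop :=
  ∀ n ∈ iv (N - k) R, ∀ m ∈ iv (N - k) S, ¬ Q n m → ∀ x ∈ iv k n, ∀ y ∈ iv k m, F x y = F' x y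

/-- the cap of `F` at scale `k`: `κ ≥ 1`, or all normalised Gram matrices are at most `κ` -/
def CapX (N : ℕ) (R S : ℤ) (k : ℕ) (κ : ℝ) (F : ℤ → ℤ → ℝ) : Prop :=
  0 ≤ κ ∧ (1 ≤ κ ∨ ∀ n ∈ iv (N - k) R, ∀ m ∈ iv (N - k) S,
    (κ • (1 : Matrix (Ix k) (Ix k) ℝ) - Xg k k F n m).PosSemidef)

theorem iv_sub {N k r : ℕ} (h : k + r ≤ N) {R n n' : ℤ} (hn : n ∈ iv (N - (k + r)) R)
    (hn' : n' ∈ iv r n) : n' ∈ iv (N - k) R := by
  rw [mem_iv] at hn hn' ⊢
  rw [← hn, ← hn', ix_ix]
  congr 1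
  omega

/-- **change of the energy with outer scale `k + r`** -/
theorem en_change {N k r : ℕ} (h : k + r ≤ N) (R S : ℤ) {Q : ℤ → ℤ → Prop}
    {F F' : ℤ → ℤ → ℝ} {κ : ℝ} (hQ : Agree N R S k Q F F') (hκ : CapX N R S k κ F) :
    en N R S (k + r) k F ≤ en N R S (k + r) k F' + κ * sqQ N R S k Q F := by
  have hpt : ∀ m ∈ iv (N - k) S, ∀ n ∈ iv (N - (k + r)) R,
      GX (Xg (k + r) k F n m) ≤ GX (Xg (k + r) k F' n m)
        + κ * (((2 : ℝ) ^ r)⁻¹ * ∑ n' ∈ iv r n, if Q n' m then (Xg k k F n' m).trace else 0) := by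
    intro m hm n hn
    have hX := Xg_psd (k + r) k F n m
    have hc := GX_convex hX (Xg_psd (k + r) k F' n m)
    -- the cap of the coarse block
    have hcap : (κ • (1 : Matrix (Ix k) (Ix k) ℝ) - phi (Xg (k + r) k F n m)).PosSemidef := by
      refine phi_cap hX ?_
      rcases hκ.2 with h1 | h1
      · exact Or.inl h1
      · refine Or.inr ?_
        have e : κ • (1 : Matrix (Ix k) (Ix k) ℝ) - Xg (k + r) k F n m
            = ((2 : ℝ) ^ r)⁻¹ • ∑ n' ∈ iv r n,
              (κ • (1 : Matrix (Ix k) (Ix k) ℝ) - Xg k k F n' m) := by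
          rw [Xg_mean, sum_sub_distrib, smul_sub, sum_const, card_iv, ← Nat.cast_smul_eq_nsmul ℝ,
            smul_smul]
          congr 1
          push_cast
          rw [inv_mul_cancel₀ (by positivity), one_smul]
        rw [e]
        refine PosSemidef.smul (posSemidef_sum _ fun n' hn' => h1 n' (iv_sub h hn hn') m hm)
          (by positivity)
    -- the difference of the coarse blocks
    set E : Matrix (Ix k) (Ix k) ℝ := ((2 : ℝ) ^ r)⁻¹ • ∑ n' ∈ iv r n,
      (if Q n' m then Xg k k F n' m else 0) with hE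
    have hE0 : E.PosSemidef := by
      refine PosSemidef.smul (posSemidef_sum _ fun n' _ => ?_) (by positivity)
      split_ifs
      · exact Xg_psd ..
      · exact PosSemidef.zero
    have hD : (E - (Xg (k + r) k F n m - Xg (k + r) k F' n m)).PosSemidef := by
      have e : E - (Xg (k + r) k F n m - Xg (k + r) k F' n m) = ((2 : ℝ) ^ r)⁻¹ • ∑ n' ∈ iv r n,
          (if Q n' m then Xg k k F' n' m else 0) := by
        rw [hE, Xg_mean, Xg_mean, ← smul_sub, ← smul_sub, ← sum_sub_distrib, ← sum_sub_distrib]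
        congr 1
        refine sum_congr rfl fun n' hn' => ?_
        split_ifs with hq
        · abel
        · rw [Xg_congr (hQ n' (iv_sub h hn hn') m hm hq)]
          simp
      rw [e]
      refine PosSemidef.smul (posSemidef_sum _ fun n' _ => ?_) (by positivity)
      split_ifs
      · exact Xg_psd ..
      · exact PosSemidef.zero
    have h1 : (phi (Xg (k + r) k F n m) * (Xg (k + r) k F n m - Xg (k + r) k F' n m)).trace
        ≤ (phi (Xg (k + r) k F n m) * E).trace := trace_mul_le_right (phi_psd hX) hD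
    have h2 : (phi (Xg (k + r) k F n m) * E).trace
        ≤ ((κ • (1 : Matrix (Ix k) (Ix k) ℝ)) * E).trace := trace_mul_le_left hE0 hcap
    have h3 : ((κ • (1 : Matrix (Ix k) (Ix k) ℝ)) * E).trace
        = κ * (((2 : ℝ) ^ r)⁻¹ * ∑ n' ∈ iv r n, if Q n' m then (Xg k k F n' m).trace else 0) := by
      rw [Matrix.smul_mul, Matrix.one_mul, trace_smul, hE, trace_smul, trace_sum, smul_eq_mul,
        smul_eq_mul]
      congr 2
      refine sum_congr rfl fun n' _ => ?_
      split_ifs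
      · rfl
      · exact trace_zero _ _
    linarith
  -- summation
  have hsum : ∑ m ∈ iv (N - k) S, ∑ n ∈ iv (N - (k + r)) R, GX (Xg (k + r) k F n m)
      ≤ (∑ m ∈ iv (N - k) S, ∑ n ∈ iv (N - (k + r)) R, GX (Xg (k + r) k F' n m))
        + κ * (((2 : ℝ) ^ r)⁻¹ * ∑ m ∈ iv (N - k) S, ∑ n ∈ iv (N - k) R,
          if Q n m then (Xg k k F n m).trace else 0) := by
    have e : ∀ m : ℤ, ∑ n ∈ iv (N - k) R, (if Q n m then (Xg k k F n m).trace else 0)
        = ∑ n ∈ iv (N - (k + r)) R, ∑ n' ∈ iv r n,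
          if Q n' m then (Xg k k F n' m).trace else 0 := by
      intro m
      have := H804.iv_sum (N := N - k) (k := r) (by omega) R
        (fun n => if Q n m then (Xg k k F n m).trace else 0)
      rw [← this]
      have e2 : N - k - r = N - (k + r) := by omega
      rw [e2]
    simp only [e, mul_sum]
    rw [← sum_add_distrib]
    refine sum_le_sum fun m hm => ?_
    rw [← sum_add_distrib]
    refine sum_le_sum fun n hn => ?_
    have := hpt m hm n hn
    simp only [mul_sum] at this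
    exact this
  have h2 := mul_le_mul_of_nonneg_left hsum (by positivity : (0 : ℝ) ≤ 2 ^ (k + r) * 2 ^ k)
  unfold en
  refine h2.trans (le_of_eq ?_)
  rw [mul_add]
  congr 1
  have e3 : sqQ N R S k Q F = 4 ^ k * ∑ m ∈ iv (N - k) S, ∑ n ∈ iv (N - k) R,
      if Q n m then (Xg k k F n m).trace else 0 := by
    rw [sqQ, mul_sum]
    refine sum_congr rfl fun m _ => ?_
    rw [mul_sum]
    refine sum_congr rfl fun n _ => ?_
    split_ifs
    · rw [sqb_eq]
    · simp
  rw [e3, pow_add]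
  have e4 : (4 : ℝ) ^ k = 2 ^ k * 2 ^ k := by rw [← mul_pow]; norm_num
  rw [e4]
  have : (2 : ℝ) ^ r ≠ 0 := by positivity
  field_simp

theorem geo_le (n : ℕ) : ∑ r ∈ range n, (3 / 4 : ℝ) ^ r ≤ 4 := by
  have h2 : ∀ n : ℕ, ∑ r ∈ range n, (3 / 4 : ℝ) ^ r = 4 - 4 * (3 / 4) ^ n := by
    intro n
    induction n with
    | zero => simp
    | succ n ih => rw [sum_range_succ, ih, pow_succ]; ring
  rw [h2]
  have : (0 : ℝ) ≤ (3 / 4) ^ n := by positivity
  linarith

/-- change of the weighted energies -/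
theorem Wt_change {N k : ℕ} (h : k ≤ N) (R S : ℤ) {Q : ℤ → ℤ → Prop}
    {F F' : ℤ → ℤ → ℝ} {κ : ℝ} (hQ : Agree N R S k Q F F') (hκ : CapX N R S k κ F) :
    Wt N R S k F ≤ Wt N R S k F' + 4 * (κ * sqQ N R S k Q F) := by
  unfold Wt
  have h0 : 0 ≤ κ * sqQ N R S k Q F := mul_nonneg hκ.1 (sqQ_nonneg ..)
  have h1 : ∑ r ∈ range (N - k + 1), (3 / 4 : ℝ) ^ r * en N R S (k + r) k F
      ≤ ∑ r ∈ range (N - k + 1), ((3 / 4 : ℝ) ^ r * en N R S (k + r) k F'
        + (3 / 4 : ℝ) ^ r * (κ * sqQ N R S k Q F)) := by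
    refine sum_le_sum fun r hr => ?_
    rw [← mul_add]
    have := mem_range.mp hr
    exact mul_le_mul_of_nonneg_left (en_change (by omega) R S hQ hκ) (by positivity)
  refine h1.trans ?_
  rw [sum_add_distrib, ← sum_mul]
  have := mul_le_mul_of_nonneg_right (geo_le (N - k + 1)) h0
  linarith

/-- mixed energy (at scale `k`, plane `n + m + n' = c`) of the boxes which change -/
def mix (N : ℕ) (R S T : ℤ) (k : ℕ) (c : ℤ) (Q Q' : ℤ → ℤ → Prop) (F H : ℤ → ℤ → ℝ) : ℝ :=
  (4 : ℝ) ^ k * ∑ m ∈ iv (N - k) S, ∑ n ∈ iv (N - k) R,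
    if c - m - n ∈ iv (N - k) T ∧ (Q n m ∨ Q' (c - m - n) m) then
      (phi (Xg k k F n m) * phi (Xg k k H (c - m - n) m)).trace else 0

theorem mix_nonneg (N : ℕ) (R S T : ℤ) (k : ℕ) (c : ℤ) (Q Q' : ℤ → ℤ → Prop)
    (F H : ℤ → ℤ → ℝ) : 0 ≤ mix N R S T k c Q Q' F H := by
  unfold mix
  refine mul_nonneg (by positivity) (sum_nonneg fun m _ => sum_nonneg fun n _ => ?_)
  split_ifs
  · exact mx_nonneg k k F H n (c - m - n) m
  · exact le_rfl

/-- change of the mixed energy -/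
theorem Mk_change (N : ℕ) (R S T : ℤ) (k : ℕ) (c : ℤ) {Q Q' : ℤ → ℤ → Prop}
    {F F' H H' : ℤ → ℤ → ℝ} (hQ : Agree N R S k Q F F') (hQ' : Agree N T S k Q' H H') :
    Mk N R S T k c F H ≤ Mk N R S T k c F' H' + mix N R S T k c Q Q' F H := by
  unfold Mk mix
  rw [← mul_add, ← sum_add_distrib]
  refine mul_le_mul_of_nonneg_left (sum_le_sum fun m hm => ?_) (by positivity)
  rw [← sum_add_distrib]
  refine sum_le_sum fun n hn => ?_
  by_cases hc : c - m - n ∈ iv (N - k) T
  · by_cases hq : Q n m ∨ Q' (c - m - n) m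
    · rw [if_pos hc, if_pos hc, if_pos ⟨hc, hq⟩]
      have := mx_nonneg k k F' H' n (c - m - n) m
      unfold mx at this
      linarith
    · rw [if_pos hc, if_pos hc, if_neg (fun h => hq h.2)]
      push Not at hq
      rw [Xg_congr (hQ n hn m hm hq.1), Xg_congr (hQ' _ hc m hm hq.2), add_zero]
  · rw [if_neg hc, if_neg hc, if_neg (fun h => hc h.1), add_zero]

/-- **Change of the functional.** -/
theorem BF_change {N k : ℕ} (h : k ≤ N) (R S T : ℤ) (c : ℕ → ℤ) {Q Q' : ℤ → ℤ → Prop}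
    {F F' H H' : ℤ → ℤ → ℝ} {κ κ' : ℝ} (hQ : Agree N R S k Q F F') (hQ' : Agree N T S k Q' H H')
    (hκ : CapX N R S k κ F) (hκ' : CapX N T S k κ' H) :
    BF N R S T c k (F, H) ≤ BF N R S T c k (F', H') + (2 * mix N R S T k (c k) Q Q' F H
      + 540 * (κ * sqQ N R S k Q F) + 540 * (κ' * sqQ N T S k Q' H)) := by
  have h1 := Mk_change N R S T k (c k) hQ hQ'
  have h2 := en_change (r := 0) (by omega) R S hQ hκ
  have h3 := en_change (r := 0) (by omega) T S hQ' hκ'
  have h4 := Wt_change h R S hQ hκ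
  have h5 := Wt_change h T S hQ' hκ'
  rw [Nat.add_zero] at h2 h3
  unfold BF
  simp only
  linarith

/-! ### the path form -/

/-- A path of inputs: `F k` is the input at scale `k`, `F k` and `F (k+1)` agree off the squares
`Q k` of scale `k`. -/
def Path (N : ℕ) (R S : ℤ) (Q : ℕ → ℤ → ℤ → Prop) (F : ℕ → ℤ → ℤ → ℝ) : Prop :=
  ∀ k, k < N → Agree N R S k (Q k) (F (k + 1)) (F k)

/-- **Path form of the pair estimate.** -/
theorem sum_mnk_le {N : ℕ} (R S T : ℤ) {c : ℕ → ℤ} (hc : Pl c) {Q Q' : ℕ → ℤ → ℤ → Prop}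
    {F H : ℕ → ℤ → ℤ → ℝ} {κ κ' : ℝ} (hF : Path N R S Q F) (hH : Path N T S Q' H)
    (hF0 : F 0 = 0) (hH0 : H 0 = 0) (hκ : ∀ k < N, CapX N R S k κ (F (k + 1)))
    (hκ' : ∀ k < N, CapX N T S k κ' (H (k + 1))) :
    ∑ k ∈ Icc 1 N, mnk N R S T k (c k) (F k) (H k)
      ≤ ∑ k ∈ range N, (2 * mix N R S T k (c k) (Q k) (Q' k) (F (k + 1)) (H (k + 1))
        + 540 * (κ * sqQ N R S k (Q k) (F (k + 1)))
        + 540 * (κ' * sqQ N T S k (Q' k) (H (k + 1)))) := by
  have key : ∀ n ≤ N, BF N R S T c n (F n, H n)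
      + ∑ k ∈ range n, mnk N R S T (k + 1) (c (k + 1)) (F (k + 1)) (H (k + 1))
      ≤ BF N R S T c 0 (F 0, H 0)
        + ∑ k ∈ range n, (2 * mix N R S T k (c k) (Q k) (Q' k) (F (k + 1)) (H (k + 1))
        + 540 * (κ * sqQ N R S k (Q k) (F (k + 1)))
        + 540 * (κ' * sqQ N T S k (Q' k) (H (k + 1)))) := by
    intro n
    induction n with
    | zero => intro _; simp
    | succ n ih =>
      intro hn
      have h1 := ih (by omega)
      have h2 := BF_step (N := N) (k := n) (by omega) R S T hc (F (n + 1), H (n + 1))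
      simp only at h2
      have h3 := BF_change (k := n) (by omega) R S T c (hF n (by omega)) (hH n (by omega))
        (hκ n (by omega)) (hκ' n (by omega))
      rw [sum_range_succ, sum_range_succ]
      linarith
  have h0 : BF N R S T c 0 (F 0, H 0) = 0 := by
    have h1 := BF_zero_le N R S T c (F 0, H 0)
    have h2 := BF_nonneg N R S T c 0 (F 0, H 0)
    have e : ∀ R S : ℤ, H588.sq N R S (0 : ℤ → ℤ → ℝ) = 0 := by
      intro R S; unfold H588.sq; simp
    rw [hF0, hH0] at *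
    simp only [e] at h1
    linarith
  have h1 := key N le_rfl
  have h2 := BF_nonneg N R S T c N (F N, H N)
  have e : ∑ k ∈ Icc 1 N, mnk N R S T k (c k) (F k) (H k)
      = ∑ k ∈ range N, mnk N R S T (k + 1) (c (k + 1)) (F (k + 1)) (H (k + 1)) := by
    rw [range_eq_Ico, sum_Ico_add' (fun k => mnk N R S T k (c k) (F k) (H k)) 0 N 1]
    rfl
  rw [e]
  linarith

/-! ### bounds of the mixed term -/

/-- general bound of the mixed term: every changed box is paid by a changed square -/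
theorem mix_le (N : ℕ) (R S T : ℤ) (k : ℕ) (c : ℤ) (Q Q' : ℤ → ℤ → Prop) (F H : ℤ → ℤ → ℝ)
    (f g : ℤ → ℤ → ℝ) (hf0 : ∀ n m, 0 ≤ f n m) (hg0 : ∀ n m, 0 ≤ g n m)
    (hf : ∀ m ∈ iv (N - k) S, ∀ n ∈ iv (N - k) R, c - m - n ∈ iv (N - k) T → Q n m →
      (phi (Xg k k F n m) * phi (Xg k k H (c - m - n) m)).trace ≤ f n m)
    (hg : ∀ m ∈ iv (N - k) S, ∀ n ∈ iv (N - k) R, c - m - n ∈ iv (N - k) T → Q' (c - m - n) m →
      (phi (Xg k k F n m) * phi (Xg k k H (c - m - n) m)).trace ≤ g (c - m - n) m) :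
    mix N R S T k c Q Q' F H
      ≤ 4 ^ k * (∑ m ∈ iv (N - k) S, ∑ n ∈ iv (N - k) R, if Q n m then f n m else 0)
        + 4 ^ k * ∑ m ∈ iv (N - k) S, ∑ n ∈ iv (N - k) T, if Q' n m then g n m else 0 := by
  unfold mix
  rw [← mul_add, ← sum_add_distrib]
  refine mul_le_mul_of_nonneg_left (sum_le_sum fun m hm => ?_) (by positivity)
  have h := sum_refl_le (N - k) R T (c - m) (fun n => if Q' n m then g n m else 0)
    (fun n => by split_ifs; exacts [hg0 n m, le_rfl])
  refine le_trans ?_ (add_le_add_right h _)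
  rw [← sum_add_distrib]
  refine sum_le_sum fun n hn => ?_
  by_cases hc : c - m - n ∈ iv (N - k) T
  · rw [if_pos hc]
    by_cases h1 : Q n m
    · rw [if_pos ⟨hc, Or.inl h1⟩, if_pos h1]
      have := hf m hm n hn hc h1
      split_ifs
      · have := hg0 (c - m - n) m
        linarith
      · linarith
    · rw [if_neg h1]
      by_cases h2 : Q' (c - m - n) m
      · rw [if_pos ⟨hc, Or.inr h2⟩, if_pos h2]
        have := hg m hm n hn hc h2
        linarith
      · rw [if_neg (fun h => h.2.elim h1 h2), if_neg h2, add_zero]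
  · rw [if_neg hc, if_neg (fun h => hc h.1)]
    split_ifs
    · have := hf0 n m
      linarith
    · simp

/-- `tr φ(X) φ(Y)` is at most both traces -/
theorem trace_phi_phi_le {n : Type*} [Fintype n] [DecidableEq n] {X Y : Matrix n n ℝ}
    (hX : X.PosSemidef) {κ : ℝ} (h : (κ • (1 : Matrix n n ℝ) - phi Y).PosSemidef) :
    (phi X * phi Y).trace ≤ κ * (phi X).trace := by
  have h1 := trace_mul_le_right (phi_psd hX) h
  rw [Matrix.mul_smul, Matrix.mul_one, trace_smul, smul_eq_mul] at h1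
  exact h1

theorem trace_phi_le {n : Type*} [Fintype n] [DecidableEq n] {X : Matrix n n ℝ}
    (hX : X.PosSemidef) : (phi X).trace ≤ X.trace := by
  have := (H804.phi_le_self hX).trace_nonneg
  rw [trace_sub] at this
  linarith

/-- the mixed term is at most the `L²` sums of the old inputs on the changed squares -/
theorem mix_le_sq (N : ℕ) (R S T : ℤ) (k : ℕ) (c : ℤ) (Q Q' : ℤ → ℤ → Prop)
    (F H : ℤ → ℤ → ℝ) :
    mix N R S T k c Q Q' F H ≤ sqQ N R S k Q F + sqQ N T S k Q' H := by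
  have h1 : ∀ X Y : Matrix (Ix k) (Ix k) ℝ, X.PosSemidef → Y.PosSemidef →
      (phi X * phi Y).trace ≤ X.trace := by
    intro X Y hX hY
    have := trace_phi_phi_le hX (κ := 1) (by rw [one_smul]; exact one_sub_phi_psd hY)
    have := trace_phi_le hX
    linarith
  refine (mix_le N R S T k c Q Q' F H (fun n m => (Xg k k F n m).trace)
    (fun n m => (Xg k k H n m).trace) (fun n m => (Xg_psd k k F n m).trace_nonneg)
    (fun n m => (Xg_psd k k H n m).trace_nonneg)
    (fun m _ n _ _ _ => h1 _ _ (Xg_psd ..) (Xg_psd ..)) (fun m _ n _ _ _ => ?_)).trans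
    (le_of_eq ?_)
  · rw [trace_mul_comm]
    exact h1 _ _ (Xg_psd ..) (Xg_psd ..)
  · have e : ∀ (R : ℤ) (Q : ℤ → ℤ → Prop) (F : ℤ → ℤ → ℝ), 4 ^ k * (∑ m ∈ iv (N - k) S,
        ∑ n ∈ iv (N - k) R, if Q n m then (Xg k k F n m).trace else 0) = sqQ N R S k Q F := by
      intro R Q F
      rw [sqQ, mul_sum]
      refine sum_congr rfl fun m _ => ?_
      rw [mul_sum]
      refine sum_congr rfl fun n _ => ?_
      split_ifs
      · rw [sqb_eq]
      · simp
    rw [e, e]

/-- area of the squares of scale `k` in `Q` -/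
def arQ (N : ℕ) (R S : ℤ) (k : ℕ) (Q : ℤ → ℤ → Prop) : ℝ :=
  4 ^ k * ∑ m ∈ iv (N - k) S, ∑ n ∈ iv (N - k) R, if Q n m then (1 : ℝ) else 0

/-- the mixed term with a common bound `b` of the box terms -/
theorem mix_le_area (N : ℕ) (R S T : ℤ) (k : ℕ) (c : ℤ) (Q Q' : ℤ → ℤ → Prop)
    (F H : ℤ → ℤ → ℝ) {b : ℝ} (hb0 : 0 ≤ b)
    (hb : ∀ m ∈ iv (N - k) S, ∀ n ∈ iv (N - k) R, c - m - n ∈ iv (N - k) T →
      (phi (Xg k k F n m) * phi (Xg k k H (c - m - n) m)).trace ≤ b) :
    mix N R S T k c Q Q' F H ≤ b * (arQ N R S k Q + arQ N T S k Q') := by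
  refine (mix_le N R S T k c Q Q' F H (fun _ _ => b) (fun _ _ => b) (fun _ _ => hb0)
    (fun _ _ => hb0) (fun m hm n hn hc _ => hb m hm n hn hc)
    (fun m hm n hn hc _ => hb m hm n hn hc)).trans (le_of_eq ?_)
  have e : ∀ (R : ℤ) (Q : ℤ → ℤ → Prop), (4 : ℝ) ^ k * (∑ m ∈ iv (N - k) S,
        ∑ n ∈ iv (N - k) R, if Q n m then b else 0) = b * arQ N R S k Q := by
    intro R Q
    rw [arQ, mul_left_comm]
    refine congrArg (fun t : ℝ => (4 : ℝ) ^ k * t) ?_
    rw [mul_sum]
    refine sum_congr rfl fun m _ => ?_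
    rw [mul_sum]
    refine sum_congr rfl fun n _ => ?_
    split_ifs <;> ring
  rw [e, e]
  ring

/-- Simplest form: no caps. -/
theorem sum_mnk_le_sq {N : ℕ} (R S T : ℤ) {c : ℕ → ℤ} (hc : Pl c) {Q Q' : ℕ → ℤ → ℤ → Prop}
    {F H : ℕ → ℤ → ℤ → ℝ} (hF : Path N R S Q F) (hH : Path N T S Q' H)
    (hF0 : F 0 = 0) (hH0 : H 0 = 0) :
    ∑ k ∈ Icc 1 N, mnk N R S T k (c k) (F k) (H k)
      ≤ 542 * ∑ k ∈ range N, (sqQ N R S k (Q k) (F (k + 1)) + sqQ N T S k (Q' k) (H (k + 1))) := by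
  refine (sum_mnk_le R S T hc hF hH hF0 hH0 (κ := 1) (κ' := 1)
    (fun k _ => ⟨zero_le_one, Or.inl le_rfl⟩) (fun k _ => ⟨zero_le_one, Or.inl le_rfl⟩)).trans ?_
  rw [mul_sum]
  refine sum_le_sum fun k _ => ?_
  have := mix_le_sq N R S T k (c k) (Q k) (Q' k) (F (k + 1)) (H (k + 1))
  linarith

end

end Vale.Agent.P141.H736
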