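import Vale.Agent.P141.PL.H318.RProc
import Vale.Agent.P141.H347.Cell1

/-!
# P141, line W: sum of two systems of tests, systems with packed weights

* `sumS S S'`: the tests of `S` and of `S'`, inheritance constant `max`; the births of the sum
  split in the two kinds;
* `PSys`: tests = fixed functions `ψ i`, used at the scales `k` with `live k i` (closed downwards),
  weights on the cubes which PACK over stopping families (mixed scales); `PSys.toC` is a `CSys`,
  `PSys.lw` its local weights;
* `sumLW`: the local weights of a sum.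
-/

namespace Vale.Agent.P141.H736

open Finset
open Vale.Agent.P141.H315 Vale.Agent.P141.PL.H318
open Vale.Agent.P141.H347 (Fam LW)

noncomputable section

open scoped Classical

variable {X ι κ : Type*} {g : Grid X}

/-! ### The sum of two systems -/

/-- **The sum of two systems of tests.** -/
def sumS (S : CSys g ι) (S' : CSys g κ) : CSys g (ι ⊕ κ) where
  a k := Sum.elim (S.a k) (S'.a k)
  W k Q := Sum.elim (S.W k Q) (S'.W k Q)
  W_nonneg := by
    rintro k Q (i | i)
    · exact S.W_nonneg k Q i
    · exact S'.W_nonneg k Q i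
  nondeg := by
    intro k x
    obtain ⟨β, hβ, h⟩ := S.nondeg k x
    obtain ⟨β', hβ', h'⟩ := S'.nondeg k x
    refine ⟨min β β', lt_min hβ hβ', ?_⟩
    rintro (i | i)
    · exact (mul_le_mul_of_nonneg_right (min_le_left _ _) (dot_self_nonneg _ _)).trans (h i)
    · exact (mul_le_mul_of_nonneg_right (min_le_right _ _) (dot_self_nonneg _ _)).trans (h' i)
  C := max S.C S'.C
  C_nonneg := S.C_nonneg.trans (le_max_left _ _)
  inherit := by
    rintro k l hkl x (i | i) G hG
    · exact (S.inherit k l hkl x i G fun y hy i' => hG y hy (Sum.inl i')).trans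
        (mul_le_mul_of_nonneg_right (le_max_left _ _) (S.W_nonneg _ _ _))
    · exact (S'.inherit k l hkl x i G fun y hy i' => hG y hy (Sum.inr i')).trans
        (mul_le_mul_of_nonneg_right (le_max_right _ _) (S'.W_nonneg _ _ _))

@[simp] theorem sumS_a_inl (S : CSys g ι) (S' : CSys g κ) (k : ℕ) (i : ι) :
    (sumS S S').a k (Sum.inl i) = S.a k i := rfl

@[simp] theorem sumS_a_inr (S : CSys g ι) (S' : CSys g κ) (k : ℕ) (i : κ) :
    (sumS S S').a k (Sum.inr i) = S'.a k i := rfl

@[simp] theorem sumS_W_inl (S : CSys g ι) (S' : CSys g κ) (k : ℕ) (Q : Finset X) (i : ι) :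
    (sumS S S').W k Q (Sum.inl i) = S.W k Q i := rfl

@[simp] theorem sumS_W_inr (S : CSys g ι) (S' : CSys g κ) (k : ℕ) (Q : Finset X) (i : κ) :
    (sumS S S').W k Q (Sum.inr i) = S'.W k Q i := rfl

/-- the part of the first kind -/
def lft (m : ι ⊕ κ →₀ ℝ) : ι →₀ ℝ := (Finsupp.sumFinsuppEquivProdFinsupp m).1

/-- the part of the second kind -/
def rgt (m : ι ⊕ κ →₀ ℝ) : κ →₀ ℝ := (Finsupp.sumFinsuppEquivProdFinsupp m).2

@[simp] theorem lft_apply (m : ι ⊕ κ →₀ ℝ) (i : ι) : lft m i = m (Sum.inl i) := rfl
@[simp] theorem rgt_apply (m : ι ⊕ κ →₀ ℝ) (i : κ) : rgt m i = m (Sum.inr i) := rfl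

/-- sums over the births split in the two kinds -/
theorem sum_split {M : Type*} [AddCommMonoid M] (m : ι ⊕ κ →₀ ℝ) (f : ι ⊕ κ → ℝ → M)
    (h0 : ∀ i, f i 0 = 0) :
    m.sum f = (lft m).sum (fun i c => f (Sum.inl i) c) + (rgt m).sum (fun i c => f (Sum.inr i) c) := by
  have e : m = Finsupp.sumElim (lft m) (rgt m) := by
    ext i
    rcases i with i | i <;> simp
  have h1 : ((lft m).sum (fun i c => f (Sum.inl i) c)) =
      ∑ i ∈ (lft m).support.map Function.Embedding.inl, f i (m i) := by
    rw [Finset.sum_map]; rfl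
  have h2 : ((rgt m).sum (fun i c => f (Sum.inr i) c)) =
      ∑ i ∈ (rgt m).support.map Function.Embedding.inr, f i (m i) := by
    rw [Finset.sum_map]; rfl
  rw [h1, h2, ← Finset.sum_union]
  · unfold Finsupp.sum
    refine Finset.sum_subset ?_ ?_
    · intro i hi
      rw [Finsupp.mem_support_iff] at hi
      rw [Finset.mem_union, Finset.mem_map, Finset.mem_map]
      rcases i with i | i
      · exact Or.inl ⟨i, by rw [Finsupp.mem_support_iff]; exact hi, rfl⟩
      · exact Or.inr ⟨i, by rw [Finsupp.mem_support_iff]; exact hi, rfl⟩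
    · intro i _ hi
      rw [Finsupp.notMem_support_iff] at hi
      rw [hi, h0]
  · rw [Finset.disjoint_left]
    intro i hi hi'
    rw [Finset.mem_map] at hi hi'
    obtain ⟨a, _, rfl⟩ := hi
    obtain ⟨b, _, h⟩ := hi'
    exact absurd h (by simp)

/-- the births of a sum -/
theorem cF_sum (S : CSys g ι) (S' : CSys g κ) (k : ℕ) (m : ι ⊕ κ →₀ ℝ) :
    cF (sumS S S') k m = cF S k (lft m) + cF S' k (rgt m) := by
  unfold cF bsum
  exact sum_split m (fun i c => c • (sumS S S').a k i) fun i => zero_smul _ _

/-- the weighted mass of a sum -/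
theorem cW_sum (S : CSys g ι) (S' : CSys g κ) (k : ℕ) (Q : Finset X) (m : ι ⊕ κ →₀ ℝ) :
    cW (sumS S S') k Q m = cW S k Q (lft m) + cW S' k Q (rgt m) := by
  unfold cW bcost
  exact sum_split m (fun i c => |c| * (sumS S S').W k Q i) fun i => by rw [abs_zero, zero_mul]

/-! ### Packed weights -/

/-- **A packed system**: fixed functions `ψ`, weights on the cubes which pack over the stopping
families, with a constant. -/
structure PSys (g : Grid X) (ι : Type*) where
  ψ : ι → X → ℝ
  /-- the scales at which the function is used -/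
  live : ℕ → ι → Prop
  live_mono : ∀ k l i, k ≤ l → live l i → live k i
  W : ℕ → Finset X → ι → ℝ
  W_nonneg : ∀ k Q i, 0 ≤ W k Q i
  nondeg : ∀ k x, ∃ β : ℝ, 0 < β ∧ ∀ i, β * dot (g.cube k x) (ψ i) (ψ i) ≤ W k (g.cube k x) i ^ 2
  C : ℝ
  one_le : 1 ≤ C
  pack : ∀ j x i (A : X → Prop) (m : X → ℕ), Fam g A m → (∀ z ∈ g.cube j x, A z → m z ≤ j) →
    ∑ z ∈ g.cube j x, (if A z then W (m z) (g.cube (m z) z) i / (g.cube (m z) z).card else 0) ≤
      C * W j (g.cube j x) i

theorem card_pos' (k : ℕ) (x : X) : (0 : ℝ) < (g.cube k x).card := by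
  exact_mod_cast Finset.card_pos.mpr ⟨x, g.mem k x⟩

/-- the sum over a cube of the averages over the smaller cubes -/
theorem dot_avg (G H : X → ℝ) {k l : ℕ} (hkl : k ≤ l) (x : X) :
    dot (g.cube l x) G H =
      ∑ z ∈ g.cube l x, dot (g.cube k z) G H / (g.cube k z).card := by
  have hle : ∀ (G H : X → ℝ), dot (g.cube l x) G H ≤
      ∑ z ∈ g.cube l x, dot (g.cube k z) G H / (g.cube k z).card := by
    intro G H
    refine g.sum_le_sum_of_cubes hkl x (fun z => G z * H z) _ fun y _ => le_of_eq ?_
    have h : ∀ z ∈ g.cube k y, dot (g.cube k z) G H / (g.cube k z).card =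
        dot (g.cube k y) G H / (g.cube k y).card := by
      intro z hz
      rw [g.eq_of_mem k y z hz]
    rw [Finset.sum_congr rfl h, Finset.sum_const, nsmul_eq_mul]
    have := card_pos' (g := g) k y
    rw [mul_div_cancel₀ _ this.ne']
    rfl
  refine le_antisymm (hle G H) ?_
  have h2 := hle (-G) H
  have e1 : ∀ Q : Finset X, dot Q (-G) H = - dot Q G H := by
    intro Q
    unfold dot
    rw [← Finset.sum_neg_distrib]
    exact Finset.sum_congr rfl fun z _ => by rw [Pi.neg_apply]; ring
  simp only [e1, neg_div, Finset.sum_neg_distrib] at h2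
  linarith

/-- the same with a mixed family -/
theorem dot_fam (G H : X → ℝ) {A : X → Prop} {m : X → ℕ} (hA : Fam g A m) {l : ℕ} {x : X}
    (hm : ∀ z ∈ g.cube l x, A z → m z ≤ l) :
    ∑ z ∈ g.cube l x, (if A z then G z * H z else 0) =
      ∑ z ∈ g.cube l x, (if A z then dot (g.cube (m z) z) G H / (g.cube (m z) z).card else 0) := by
  -- split by the scale
  have hsp : ∀ f : X → ℝ, ∑ z ∈ g.cube l x, (if A z then f z else 0) =
      ∑ k ∈ range (l + 1), ∑ z ∈ g.cube l x, if A z ∧ m z = k then f z else 0 := by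
    intro f
    rw [sum_comm]
    refine sum_congr rfl fun z hz => ?_
    by_cases hAz : A z
    · rw [if_pos hAz, sum_eq_single (m z)]
      · rw [if_pos ⟨hAz, rfl⟩]
      · intro k _ hk
        rw [if_neg fun h => hk h.2.symm]
      · intro h
        exact absurd (mem_range.2 (Nat.lt_succ_of_le (hm z hz hAz))) h
    · rw [if_neg hAz]
      exact (sum_eq_zero fun k _ => by rw [if_neg fun h => hAz h.1]).symm
  rw [hsp, hsp]
  refine sum_congr rfl fun k hk => ?_
  have hkl : k ≤ l := by rw [mem_range] at hk; omega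
  have h1 : ∑ z ∈ g.cube l x, (if A z ∧ m z = k then G z * H z else 0) =
      dot (g.cube l x) (fun z => if A z ∧ m z = k then G z else 0) H := by
    unfold dot
    refine sum_congr rfl fun z _ => ?_
    dsimp only
    split_ifs
    · rfl
    · rw [zero_mul]
  rw [h1, dot_avg _ H hkl x]
  refine sum_congr rfl fun z _ => ?_
  by_cases hz : A z ∧ m z = k
  · obtain ⟨hz1, rfl⟩ := hz
    rw [if_pos ⟨hz1, rfl⟩]
    congr 1
    refine dot_congr (fun y hy => ?_) fun _ _ => rfl
    rw [if_pos (hA z hz1 y hy)]
  · rw [if_neg hz]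
    have : dot (g.cube k z) (fun z => if A z ∧ m z = k then G z else 0) H = 0 := by
      unfold dot
      refine sum_eq_zero fun y hy => ?_
      dsimp only
      rw [if_neg, zero_mul]
      rintro ⟨hy1, hy2⟩
      apply hz
      subst hy2
      have hz' : z ∈ g.cube (m y) y := by
        rw [g.eq_of_mem (m y) z y hy]; exact g.mem _ _
      exact ⟨(hA y hy1 z hz').1, (hA y hy1 z hz').2⟩
    rw [this, zero_div]

variable (P : PSys g ι)

/-- a family of one scale -/
theorem fam_const (g : Grid X) (k : ℕ) : Fam g (fun _ => True) fun _ => k :=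
  fun _ _ _ _ => ⟨trivial, rfl⟩

/-- **MIXED GLUE**: a function which satisfies the tests on a disjoint family of cubes (mixed
scales) satisfies them, cut off outside the family, on the larger cubes. -/
theorem PSys.glue {j : ℕ} {x : X} {A : X → Prop} {m : X → ℕ} (hA : Fam g A m)
    (hm : ∀ z ∈ g.cube j x, A z → m z ≤ j) (G : X → ℝ) (i : ι)
    (h : ∀ z ∈ g.cube j x, A z →
      |dot (g.cube (m z) z) G (P.ψ i)| ≤ P.W (m z) (g.cube (m z) z) i) :
    |dot (g.cube j x) (fun z => if A z then G z else 0) (P.ψ i)| ≤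
      P.C * P.W j (g.cube j x) i := by
  have e1 : dot (g.cube j x) (fun z => if A z then G z else 0) (P.ψ i) =
      ∑ z ∈ g.cube j x, (if A z then G z * P.ψ i z else 0) := by
    unfold dot
    refine sum_congr rfl fun z _ => ?_
    dsimp only
    split_ifs
    · rfl
    · rw [zero_mul]
  rw [e1, dot_fam G (P.ψ i) hA hm]
  refine (abs_sum_le_sum_abs _ _).trans (le_trans (sum_le_sum fun z hz => ?_)
    (P.pack j x i A m hA hm))
  split_ifs with hz'
  · rw [abs_div, abs_of_pos (card_pos' (g := g) (m z) z)]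
    exact div_le_div_of_nonneg_right (h z hz hz') (card_pos' _ _).le
  · rw [abs_zero]

theorem dot_zero_right (Q : Finset X) (G : X → ℝ) : dot Q G (0 : X → ℝ) = 0 := by
  unfold dot
  exact sum_eq_zero fun _ _ => by simp

/-- the system of tests of a packed system -/
def PSys.toC : CSys g ι where
  a k i := if P.live k i then P.ψ i else 0
  W := P.W
  W_nonneg := P.W_nonneg
  nondeg := by
    intro k x
    obtain ⟨β, hβ, h⟩ := P.nondeg k x
    refine ⟨β, hβ, fun i => ?_⟩
    split_ifs
    · exact h i
    · rw [dot_zero_right, mul_zero]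
      exact sq_nonneg _
  C := P.C
  C_nonneg := zero_le_one.trans P.one_le
  inherit := by
    intro k l hkl x i G hG
    by_cases hl : P.live l i
    · have hk : P.live k i := P.live_mono k l i hkl hl
      have h := P.glue (fam_const g k) (j := l) (x := x) (fun _ _ _ => hkl) G i
        fun z hz _ => by simpa only [if_pos hk] using hG z hz i
      rw [if_pos hl]
      simpa using h
    · rw [if_neg hl, dot_zero_right, abs_zero]
      exact mul_nonneg (zero_le_one.trans P.one_le) (P.W_nonneg _ _ _)

theorem PSys.toC_a (k : ℕ) (i : ι) : P.toC.a k i = if P.live k i then P.ψ i else 0 := rfl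
@[simp] theorem PSys.toC_W (k : ℕ) (Q : Finset X) (i : ι) : P.toC.W k Q i = P.W k Q i := rfl

/-- the local weights of a packed system -/
def PSys.lw : LW P.toC where
  ω _ k x i := P.W k (g.cube k x) i / ((g.cube k x).card * P.C)
  nonneg _ k x i := div_nonneg (P.W_nonneg _ _ _)
    (mul_nonneg (Nat.cast_nonneg _) (zero_le_one.trans P.one_le))
  const _ k x y i hy := by rw [g.eq_of_mem k x y hy]
  pack := by
    intro j x i A m hA hm
    have hC : 0 < P.C := zero_lt_one.trans_le P.one_le
    have h := P.pack j x i A m hA hm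
    rw [← div_le_iff₀' hC, sum_div] at h
    refine le_trans (le_of_eq (sum_congr rfl fun z _ => ?_)) h
    split_ifs
    · rw [div_div]
    · rw [zero_div]

/-- the local weights of a sum -/
def sumLW {S : CSys g ι} {S' : CSys g κ} (w : LW S) (w' : LW S') : LW (sumS S S') where
  ω j k x := Sum.elim (w.ω j k x) (w'.ω j k x)
  nonneg := by
    rintro j k x (i | i)
    · exact w.nonneg _ _ _ _
    · exact w'.nonneg _ _ _ _
  const := by
    rintro j k x y (i | i) hy
    · exact w.const _ _ _ _ _ hy
    · exact w'.const _ _ _ _ _ hy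
  pack := by
    rintro j x (i | i) A m hA hm
    · exact w.pack j x i A m hA hm
    · exact w'.pack j x i A m hA hm

end

end Vale.Agent.P141.H736
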