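import Vale.Agent.P141.H736.TfSys

/-!
# P141, line W, scale-invariant version: the system of the generic tests without heights

Weight on a cell `Q` of the test `ψ i`:
`θ * cst (ψ i; Q) + φ * √(|Q| * ∑_Q (ψ i)²) + b i * |Q|` : cost + `L²` floor + constant density.
-/

namespace Vale.Agent.P141.H736

open Finset
open Vale.Agent.P141.H315 Vale.Agent.P141.PL.H318
open Vale.Agent.P141.H347 (Fam LW)

noncomputable section

open scoped Classical

variable {ι J : Type*} {g : Grid ℤ}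

/-- the unnormalised `L²` norm times the root of the measure -/
def l2 (Q : Finset ℤ) (f : ℤ → ℝ) : ℝ := √(Q.card * dot Q f f)

theorem l2_nonneg (Q : Finset ℤ) (f : ℤ → ℝ) : 0 ≤ l2 Q f := Real.sqrt_nonneg _

theorem l2_sq (Q : Finset ℤ) (f : ℤ → ℝ) : l2 Q f ^ 2 = Q.card * dot Q f f :=
  Real.sq_sqrt (mul_nonneg (Nat.cast_nonneg _) (dot_self_nonneg _ _))

/-- the `L²` floor packs with the constant `1` -/
theorem l2_pack (f : ℤ → ℝ) (j : ℕ) (x : ℤ) (F : ℤ → Prop) (m : ℤ → ℕ) (hF : Fam g F m)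
    (hm : ∀ z ∈ g.cube j x, F z → m z ≤ j) :
    ∑ z ∈ g.cube j x, (if F z then l2 (g.cube (m z) z) f / (g.cube (m z) z).card else 0) ≤
      l2 (g.cube j x) f := by
  set d : ℤ → ℝ := fun z => if F z then dot (g.cube (m z) z) f f / (g.cube (m z) z).card else 0
    with hd
  have hd0 : ∀ z, 0 ≤ d z := by
    intro z
    simp only [hd]
    split_ifs
    · exact div_nonneg (dot_self_nonneg _ _) (Nat.cast_nonneg _)
    · exact le_rfl
  have e1 : ∀ z ∈ g.cube j x, (if F z then l2 (g.cube (m z) z) f /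
      (g.cube (m z) z).card else 0) = √(d z) := by
    intro z _
    simp only [hd]
    split_ifs
    · have hc := card_pos' (g := g) (m z) z
      unfold l2
      rw [div_eq_iff hc.ne']
      have h1 : ((g.cube (m z) z).card : ℝ) * dot (g.cube (m z) z) f f =
          dot (g.cube (m z) z) f f / (g.cube (m z) z).card * ((g.cube (m z) z).card) ^ 2 := by
        field_simp
      rw [h1, Real.sqrt_mul (div_nonneg (dot_self_nonneg _ _) hc.le), Real.sqrt_sq hc.le]
    · rw [Real.sqrt_zero]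
  rw [sum_congr rfl e1]
  have h2 : ∑ z ∈ g.cube j x, d z ≤ dot (g.cube j x) f f := by
    simp only [hd]
    rw [← dot_fam f f hF hm]
    unfold dot
    refine sum_le_sum fun z _ => ?_
    split_ifs
    · exact le_rfl
    · exact mul_self_nonneg _
  unfold l2
  refine Real.le_sqrt_of_sq_le ?_
  have h3 := Finset.sum_mul_sq_le_sq_mul_sq (g.cube j x) (fun _ => (1 : ℝ)) (fun z => √(d z))
  simp only [one_mul, one_pow, sum_const, nsmul_eq_mul, mul_one] at h3
  refine h3.trans (mul_le_mul_of_nonneg_left ?_ (Nat.cast_nonneg _))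
  refine le_trans (le_of_eq (sum_congr rfl fun z _ => Real.sq_sqrt (hd0 z))) h2

theorem l2_smul (Q : Finset ℤ) (b : ℝ) (f : ℤ → ℝ) : l2 Q (b • f) = |b| * l2 Q f := by
  unfold l2
  have e : (Q.card : ℝ) * dot Q (b • f) (b • f) = b ^ 2 * (Q.card * dot Q f f) := by
    unfold dot
    simp only [Pi.smul_apply, smul_eq_mul]
    have : ∑ x ∈ Q, b * f x * (b * f x) = b ^ 2 * ∑ x ∈ Q, f x * f x := by
      rw [mul_sum]
      exact sum_congr rfl fun x _ => by ring
    rw [this]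
    ring
  rw [e, Real.sqrt_mul (sq_nonneg _), Real.sqrt_sq_eq_abs]

theorem l2_add_le (Q : Finset ℤ) (f h : ℤ → ℝ) : l2 Q (f + h) ≤ l2 Q f + l2 Q h := by
  have hCS : dot Q f h ≤ √(dot Q f f) * √(dot Q h h) := by
    have h1 := Finset.sum_mul_sq_le_sq_mul_sq Q f h
    rw [← Real.sqrt_mul (dot_self_nonneg _ _)]
    refine Real.le_sqrt_of_sq_le ?_
    unfold dot
    refine h1.trans (le_of_eq ?_)
    congr 1 <;> exact sum_congr rfl fun x _ => sq _
  have e : ∀ u : ℤ → ℝ, l2 Q u = √(Q.card : ℝ) * √(dot Q u u) := fun u =>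
    Real.sqrt_mul (Nat.cast_nonneg _) _
  rw [e, e, e, ← mul_add]
  refine mul_le_mul_of_nonneg_left ?_ (Real.sqrt_nonneg _)
  refine Real.sqrt_le_iff.mpr ⟨by positivity, ?_⟩
  have e2 : dot Q (f + h) (f + h) = dot Q f f + 2 * dot Q f h + dot Q h h := by
    unfold dot
    simp only [Pi.add_apply]
    rw [mul_sum, ← sum_add_distrib, ← sum_add_distrib]
    exact sum_congr rfl fun x _ => by ring
  rw [e2, add_sq, Real.sq_sqrt (dot_self_nonneg _ _), Real.sq_sqrt (dot_self_nonneg _ _)]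
  nlinarith

theorem l2_sum_le {κ : Type*} (Q : Finset ℤ) (s : Finset κ) (f : κ → ℤ → ℝ) :
    l2 Q (∑ i ∈ s, f i) ≤ ∑ i ∈ s, l2 Q (f i) := by
  induction s using Finset.induction_on with
  | empty =>
    rw [sum_empty, sum_empty]
    unfold l2 dot
    simp
  | insert a s ha ih =>
    rw [sum_insert ha, sum_insert ha]
    exact (l2_add_le _ _ _).trans (add_le_add le_rfl ih)

variable {r : Fin 4} [Fintype J] (c : CW g J r)

/-- **The system of the generic tests, scale-invariant version.** -/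
def costSysF (ψ : ι → ℤ → ℝ) (b : ι → ℝ) (hb : ∀ i, 0 ≤ b i) (top : ι → ℕ) (θ φ : ℝ)
    (hθ : 0 ≤ θ) (hφ : 0 < φ) : PSys g ι where
  ψ := ψ
  live k i := k ≤ top i
  live_mono _ _ _ h h' := h.trans h'
  W k Q i := θ * c.cst (ψ i) k Q + φ * l2 Q (ψ i) + b i * Q.card
  W_nonneg k Q i := by
    have := c.cst_nonneg (ψ i) k Q
    have := l2_nonneg Q (ψ i)
    have := hb i
    positivity
  nondeg k x := by
    refine ⟨φ ^ 2, by positivity, fun i => ?_⟩
    have hc := c.cst_nonneg (ψ i) k (g.cube k x)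
    have hbi := hb i
    have hcd : (1 : ℝ) ≤ (g.cube k x).card := by
      exact_mod_cast Finset.card_pos.mpr ⟨x, g.mem k x⟩
    have h0 := l2_nonneg (g.cube k x) (ψ i)
    have h1 : dot (g.cube k x) (ψ i) (ψ i) ≤ l2 (g.cube k x) (ψ i) ^ 2 := by
      rw [l2_sq]
      exact le_mul_of_one_le_left (dot_self_nonneg _ _) hcd
    have h2 : φ * l2 (g.cube k x) (ψ i) ≤ θ * c.cst (ψ i) k (g.cube k x) +
        φ * l2 (g.cube k x) (ψ i) + b i * (g.cube k x).card := by
      have h3 : 0 ≤ θ * c.cst (ψ i) k (g.cube k x) := mul_nonneg hθ hc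
      have h4 : 0 ≤ b i * ((g.cube k x).card : ℝ) := by positivity
      linarith
    calc φ ^ 2 * dot (g.cube k x) (ψ i) (ψ i) ≤ φ ^ 2 * l2 (g.cube k x) (ψ i) ^ 2 :=
          mul_le_mul_of_nonneg_left h1 (by positivity)
      _ = (φ * l2 (g.cube k x) (ψ i)) ^ 2 := by ring
      _ ≤ _ := pow_le_pow_left₀ (by positivity) h2 2
  C := c.C
  one_le := c.one_le
  pack j x i F m hF hm := by
    have hbi := hb i
    have e1 : ∀ z ∈ g.cube j x, (if F z then (θ * c.cst (ψ i) (m z) (g.cube (m z) z) +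
        φ * l2 (g.cube (m z) z) (ψ i) + b i * (g.cube (m z) z).card) /
          (g.cube (m z) z).card else 0) =
        θ * (if F z then c.cst (ψ i) (m z) (g.cube (m z) z) / (g.cube (m z) z).card else 0) +
        φ * (if F z then l2 (g.cube (m z) z) (ψ i) / (g.cube (m z) z).card else 0) +
          (if F z then b i else 0) := by
      intro z _
      split_ifs
      · rw [add_div, add_div, mul_div_assoc, mul_div_assoc, mul_div_assoc,
          div_self (card_pos' _ _).ne', mul_one]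
      · simp
    rw [sum_congr rfl e1, sum_add_distrib, sum_add_distrib, ← mul_sum, ← mul_sum]
    have h1 := mul_le_mul_of_nonneg_left (c.cst_pack (ψ i) j x F m hF hm) hθ
    have h2 := mul_le_mul_of_nonneg_left (l2_pack (ψ i) j x F m hF hm) hφ.le
    have h3 := sum_fam_const_le (g := g) (j := j) (x := x) (F := F) hbi
    have h4 : 0 ≤ φ * l2 (g.cube j x) (ψ i) + b i * ((g.cube j x).card : ℝ) := by
      have := l2_nonneg (g.cube j x) (ψ i)
      positivity
    have h5 := mul_le_mul_of_nonneg_right c.one_le h4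
    nlinarith

variable {ψ : ι → ℤ → ℝ} {b : ι → ℝ} {hb : ∀ i, 0 ≤ b i} {top : ι → ℕ} {θ φ : ℝ}
  {hθ : 0 ≤ θ} {hφ : 0 < φ}

theorem costSysF_W (k : ℕ) (Q : Finset ℤ) (i : ι) :
    (costSysF c ψ b hb top θ φ hθ hφ).W k Q i =
      θ * c.cst (ψ i) k Q + φ * l2 Q (ψ i) + b i * Q.card := rfl

/-- the three parts of the weight -/
theorem parts_le_W (k : ℕ) (Q : Finset ℤ) (i : ι) :
    θ * c.cst (ψ i) k Q ≤ (costSysF c ψ b hb top θ φ hθ hφ).W k Q i ∧
    φ * l2 Q (ψ i) ≤ (costSysF c ψ b hb top θ φ hθ hφ).W k Q i ∧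
    b i * Q.card ≤ (costSysF c ψ b hb top θ φ hθ hφ).W k Q i := by
  rw [costSysF_W]
  have h1 : 0 ≤ θ * c.cst (ψ i) k Q := mul_nonneg hθ (c.cst_nonneg (ψ i) k Q)
  have h2 : 0 ≤ φ * l2 Q (ψ i) := mul_nonneg hφ.le (l2_nonneg _ _)
  have h3 : 0 ≤ b i * (Q.card : ℝ) := mul_nonneg (hb i) (Nat.cast_nonneg _)
  exact ⟨by linarith, by linarith, by linarith⟩

/-- the weight dominates the costs -/
theorem cost_le_WF (hθ' : 0 < θ) (a : J) (k : ℕ) (Q : Finset ℤ) (i : ι) :
    cost (c.κ a) (c.o a) r (ψ i) k Q ≤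
      c.nrm a / θ * (costSysF c ψ b hb top θ φ hθ hφ).W k Q i := by
  have h1 := c.cost_le a (ψ i) k Q
  have h2 := (parts_le_W (ψ := ψ) (hb := hb) (hθ := hθ) (hφ := hφ) (top := top) c k Q i).1
  calc cost (c.κ a) (c.o a) r (ψ i) k Q ≤ c.nrm a * c.cst (ψ i) k Q := h1
    _ = c.nrm a / θ * (θ * c.cst (ψ i) k Q) := by field_simp
    _ ≤ _ := mul_le_mul_of_nonneg_left h2 (div_nonneg (c.nrm_pos a).le hθ)

/-- the `L²` norm of a test on any cell is at most `φ⁻¹` times the weight -/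
theorem l2_le_WF (k : ℕ) (Q : Finset ℤ) (i : ι) :
    l2 Q (ψ i) ≤ φ⁻¹ * (costSysF c ψ b hb top θ φ hθ hφ).W k Q i := by
  have h2 := (parts_le_W (ψ := ψ) (hb := hb) (hθ := hθ) (hφ := hφ) (top := top) c k Q i).2.1
  rw [le_inv_mul_iff₀ hφ]
  exact h2

/-- the `L²` norm of the births (born anywhere) on a cell: the mass in the local weights -/
theorem l2_cF_le (k k' : ℕ) (Q : Finset ℤ) (m : ι →₀ ℝ) :
    l2 Q (cF (costSysF c ψ b hb top θ φ hθ hφ).toC k m) ≤
      φ⁻¹ * m.sum fun i y => |y| * (costSysF c ψ b hb top θ φ hθ hφ).W k' Q i := by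
  unfold cF bsum Finsupp.sum
  refine (l2_sum_le Q m.support _).trans ?_
  rw [mul_sum]
  refine sum_le_sum fun i _ => ?_
  rw [l2_smul, mul_left_comm]
  refine mul_le_mul_of_nonneg_left ?_ (abs_nonneg _)
  refine le_trans ?_ (l2_le_WF (ψ := ψ) (hb := hb) (hθ := hθ) (hφ := hφ) (top := top) c k' Q i)
  rw [PSys.toC_a]
  split_ifs
  · exact le_rfl
  · refine le_trans (le_of_eq ?_) (l2_nonneg Q (ψ i))
    unfold l2 dot
    simp

/-- **The cost of the generic births** (born anywhere), tested on an admissible triple of the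
class `a` on the cell `g.cube k' x`: the mass in the local weights of the cell. -/
theorem val_births_leF (hθ' : 0 < θ) (a : J) (k k' : ℕ) (x : ℤ) (m : ι →₀ ℝ)
    {𝒩 : Finset Nd} {A : Fin 4 → Nd → ℤ → ℝ} (h1 : Blw g k' (g.cube k' x) 𝒩)
    (h2 : ∀ j, j ≠ r → (c.κ a j).ok k' (g.cube k' x) 𝒩 (A j)) :
    val (c.o a) r (cF (costSysF c ψ b hb top θ φ hθ hφ).toC k m) 𝒩 A ≤
      c.nrm a / θ *
        m.sum fun i y => |y| * (costSysF c ψ b hb top θ φ hθ hφ).W k' (g.cube k' x) i := by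
  refine (val_cF_le _ _ k m 𝒩 A).trans ?_
  unfold Finsupp.sum
  rw [mul_sum]
  refine sum_le_sum fun i _ => ?_
  rw [mul_left_comm]
  refine mul_le_mul_of_nonneg_left ?_ (abs_nonneg _)
  have h3 : val (c.o a) r (ψ i) 𝒩 A ≤
      c.nrm a / θ * (costSysF c ψ b hb top θ φ hθ hφ).W k' (g.cube k' x) i :=
    (val_le_cost (c.κ a) (c.ho a) r (ψ i) h1 h2).trans (cost_le_WF c hθ' a k' _ i)
  refine le_trans ?_ h3
  rw [PSys.toC_a]
  split_ifs
  · exact le_rfl
  · refine le_trans (le_of_eq ?_) (val_nonneg (c.o a) r (ψ i) 𝒩 A)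
    have := val_smul (c.o a) r 0 (ψ i) 𝒩 A
    rwa [zero_smul, abs_zero, zero_mul] at this

end

end Vale.Agent.P141.H736
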