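import Vale.Agent.P141.H736.TfCls
import Vale.Agent.P141.H922.PairSys

/-!
# P141, line W, scale-invariant version: mixed gluing of the pair system in the form `Mixed`

`mixed_sysP`, `mixed_sysPT`; the class of the static companions of the total system.
-/

namespace Vale.Agent.P141.H736

open Finset
open Vale.Agent.P141.H315 Vale.Agent.P141.PL.H318
open Vale.Agent.P141.PL.H95 (gr)
open Vale.Agent.P141.H922 (sysP sysPT CgP CgP_nonneg two_le_CgP gluePs_dot)

noncomputable section

open scoped Classical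

variable {ι : Type*} {c0 : ℕ} {σ : ℤ} {c : ℤ × ℤ × ℤ} (hc : csz c ≤ 2 ^ c0) {δ : ℝ} (hδ : 0 < δ)

theorem mixed_sysP : Mixed (sysP c0 σ c hc δ hδ) CgP := by
  intro j x A m hA hm G hG i
  refine gluePs_dot c0 σ c hc δ hδ (l := j) (x0 := x) (m := m) (A := A) ?_ hm (F := G) hG i
  intro z _ y hz hy
  exact hA z hz y (mem_gs.2 hy)

theorem one_le_CgP : (1 : ℝ) ≤ CgP := one_le_two.trans two_le_CgP

/-- the constant of the total system -/
theorem mixed_sysPT (P : PSys (gr c0 σ) ι) : Mixed (sysPT c0 σ c hc δ hδ P) (max CgP P.C) :=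
  mixed_sum (mixed_sysP hc hδ) P.mixed

/-- the class of the static companions which satisfy the tests of the total system -/
def stcPT (P : PSys (gr c0 σ) ι) (E : ℝ) (hE : 0 ≤ E) : Cls (gr c0 σ) :=
  stc (sysPT c0 σ c hc δ hδ P) (max CgP P.C) E (one_le_CgP.trans (le_max_left _ _))
    (mixed_sysPT hc hδ P) hE

/-- the class of the static companions which satisfy the tests of the pair system -/
def stcP (c0 : ℕ) (σ : ℤ) (c : ℤ × ℤ × ℤ) (hc : csz c ≤ 2 ^ c0) (δ : ℝ) (hδ : 0 < δ)
    (E : ℝ) (hE : 0 ≤ E) : Cls (gr c0 σ) :=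
  stc (sysP c0 σ c hc δ hδ) CgP E one_le_CgP (mixed_sysP hc hδ) hE

end

end Vale.Agent.P141.H736
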