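import Vale.Agent.P141.H736.TfSysF
import Vale.Agent.P141.H922.PairW
import Vale.Agent.P141.H922.Floor

/-!
# P141, line W, scale-invariant version: the family of the generic tests, all finite ranks

Index = a scale `l`, a face cube `q` of the scale `l`, a list of triples of edge functions;
`psiG = 4 ^ (-l) * ∑ push of the atoms on the cube`.  The weight of the system `genF`:
`θ * cst + φ * l2 + φ' * (∑ pw3 of the atoms on the cube q) * |Q|`.
-/

namespace Vale.Agent.P141.H736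

open Finset
open Vale.Agent.P141.H315 Vale.Agent.P141.PL.H318
open Vale.Agent.P141.H347 (Fam LW)
open Vale.Agent.P141.PL (el)
open Vale.Agent.P141.PL.H315 (le cube3 wt atm Tri gz card_cube3)
open Vale.Agent.P141.PL.H95 (gr)
open Vale.Agent.P141.H922 (pw3 pw3_nonneg)

noncomputable section

open scoped Classical

/-- the indices of the generic tests: scale, point of the cube, atoms -/
abbrev Fg : Type := ℕ × (ℤ × ℤ × ℤ) × List Tri

/-- the function on the face -/
def ffg (i : Fg) (y : ℤ × ℤ × ℤ) : ℝ := (i.2.2.map fun u => atm u y).sum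

/-- the normalised push-forward -/
def psg (c : ℤ × ℤ × ℤ) (i : Fg) : ℤ → ℝ :=
  (4 ^ i.1 : ℝ)⁻¹ • (i.2.2.map fun u => a1 c i.1 (i.2.1, u)).sum

/-- the mass of the scalar representation -/
def scg (i : Fg) : ℝ := (i.2.2.map fun u => pw3 (cube3 i.1 i.2.1) u).sum

theorem scg_nonneg (i : Fg) : 0 ≤ scg i := by
  unfold scg
  refine List.sum_nonneg ?_
  intro x hx
  rw [List.mem_map] at hx
  obtain ⟨u, _, rfl⟩ := hx
  exact pw3_nonneg _ _

theorem dot_list_sum (Q : Finset ℤ) (G : ℤ → ℝ) (l : List Tri) (f : Tri → ℤ → ℝ) :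
    dot Q G (l.map f).sum = (l.map fun u => dot Q G (f u)).sum := by
  induction l with
  | nil => simp [dot]
  | cons a l ih =>
    rw [List.map_cons, List.sum_cons, List.map_cons, List.sum_cons, ← ih]
    unfold dot
    rw [← sum_add_distrib]
    exact sum_congr rfl fun s _ => by rw [Pi.add_apply]; ring

/-- pairing with a generic test -/
theorem dot_psg (c : ℤ × ℤ × ℤ) (i : Fg) (Q : Finset ℤ) (G : ℤ → ℝ) :
    dot Q G (psg c i) = (4 ^ i.1 : ℝ)⁻¹ *
      ∑ y ∈ cube3 i.1 i.2.1, if el c y ∈ Q then G (el c y) * ffg i y else 0 := by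
  obtain ⟨l, q, us⟩ := i
  have h0 : dot Q G (psg c (l, q, us)) =
      (4 ^ l : ℝ)⁻¹ * dot Q G (us.map fun u => a1 c l (q, u)).sum := by
    unfold dot psg
    rw [mul_sum]
    refine sum_congr rfl fun s _ => ?_
    rw [Pi.smul_apply, smul_eq_mul]
    ring
  rw [h0, dot_list_sum]
  dsimp only
  congr 1
  induction us with
  | nil => simp [ffg]
  | cons a us ih =>
    rw [List.map_cons, List.sum_cons]
    have h1 := ih (by
      unfold dot psg
      rw [mul_sum]
      refine sum_congr rfl fun s _ => ?_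
      rw [Pi.smul_apply, smul_eq_mul]
      ring)
    rw [h1, dot_a1, ← sum_add_distrib]
    refine sum_congr rfl fun y _ => ?_
    unfold ffg
    dsimp only
    rw [List.map_cons, List.sum_cons]
    split_ifs
    · ring
    · ring

/-- **The generic test on a face cube**: the cube sees at most two cells. -/
theorem cube_geg {c0 : ℕ} {σ : ℤ} {c : ℤ × ℤ × ℤ} (hc : csz c ≤ 2 ^ c0) {k : ℕ} {G : ℤ → ℝ}
    {A : ℤ → Prop} (hA : ∀ s s', ixs c0 σ k s' = ixs c0 σ k s → (A s' ↔ A s)) (i : Fg)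
    (hi : i.1 = k) {B : ℝ} (hB : 0 ≤ B)
    (hG : ∀ s, A s → |dot ((gr c0 σ).cube k s) G (psg c i)| ≤ B) :
    |∑ y ∈ cube3 k i.2.1, (if A (el c y) then G (el c y) else 0) * ffg i y| ≤ 4 ^ k * (2 * B) := by
  subst hi
  obtain ⟨m, hm⟩ := two_cells_el (c0 := c0) (σ := σ) hc i.1 i.2.1
  -- one cell
  have key : ∀ m' : ℤ, |∑ y ∈ cube3 i.1 i.2.1, (if ixs c0 σ i.1 (el c y) = m' then
      (if A (el c y) then G (el c y) else 0) * ffg i y else 0)| ≤ 4 ^ i.1 * B := by
    intro m'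
    by_cases hex : ∃ s, ixs c0 σ i.1 s = m' ∧ A s
    · obtain ⟨s, hs, hAs⟩ := hex
      have h1 := hG s hAs
      rw [dot_psg, abs_mul, abs_of_pos (by positivity : (0 : ℝ) < (4 ^ i.1 : ℝ)⁻¹),
        inv_mul_le_iff₀ (by positivity)] at h1
      refine le_trans (le_of_eq ?_) h1
      congr 1
      refine Finset.sum_congr rfl fun y _ => ?_
      by_cases hy : ixs c0 σ i.1 (el c y) = m'
      · have h2 : el c y ∈ (gr c0 σ).cube i.1 s := mem_gs.mpr (by rw [hy, hs])
        have h3 : A (el c y) := (hA s (el c y) (by rw [hy, hs])).mpr hAs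
        rw [if_pos hy, if_pos h2, if_pos h3]
      · have h2 : el c y ∉ (gr c0 σ).cube i.1 s := fun h => hy (by rw [mem_gs.mp h, hs])
        rw [if_neg hy, if_neg h2]
    · have h1 : ∑ y ∈ cube3 i.1 i.2.1, (if ixs c0 σ i.1 (el c y) = m' then
          (if A (el c y) then G (el c y) else 0) * ffg i y else 0) = 0 := by
        refine Finset.sum_eq_zero fun y _ => ?_
        by_cases hy : ixs c0 σ i.1 (el c y) = m'
        · have h3 : ¬ A (el c y) := fun h => hex ⟨el c y, hy, h⟩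
          rw [if_pos hy, if_neg h3, zero_mul]
        · rw [if_neg hy]
      rw [h1, abs_zero]; positivity
  have hsplit : ∑ y ∈ cube3 i.1 i.2.1, (if A (el c y) then G (el c y) else 0) * ffg i y =
      (∑ y ∈ cube3 i.1 i.2.1, (if ixs c0 σ i.1 (el c y) = m then
        (if A (el c y) then G (el c y) else 0) * ffg i y else 0)) +
      (∑ y ∈ cube3 i.1 i.2.1, (if ixs c0 σ i.1 (el c y) = m + 1 then
        (if A (el c y) then G (el c y) else 0) * ffg i y else 0)) := by
    rw [← Finset.sum_add_distrib]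
    refine Finset.sum_congr rfl fun y hy => ?_
    rcases hm y hy with h | h
    · have h' : ixs c0 σ i.1 (el c y) ≠ m + 1 := by omega
      rw [if_pos (c := ixs c0 σ i.1 (el c y) = m) h,
        if_neg (c := ixs c0 σ i.1 (el c y) = m + 1) h', add_zero]
    · have h' : ixs c0 σ i.1 (el c y) ≠ m := by omega
      rw [if_neg (c := ixs c0 σ i.1 (el c y) = m) h',
        if_pos (c := ixs c0 σ i.1 (el c y) = m + 1) h, zero_add]
  rw [hsplit]
  refine (abs_add_le _ _).trans ?_
  have := key m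
  have := key (m + 1)
  linarith

/-! ### The system -/

variable {J : Type*} [Fintype J] {g : Grid ℤ} {r : Fin 4}

/-- **The system of the generic tests**, pushes of functions of finite rank. -/
def genF (c : CW g J r) (d : ℤ × ℤ × ℤ) (θ φ φ' : ℝ) (hθ : 0 ≤ θ) (hφ : 0 < φ) (hφ' : 0 ≤ φ') :
    PSys g Fg :=
  costSysF c (psg d) (fun i => φ' * scg i) (fun i => mul_nonneg hφ' (scg_nonneg i))
    (fun i => i.1) θ φ hθ hφ

theorem genF_W (c : CW g J r) (d : ℤ × ℤ × ℤ) (θ φ φ' : ℝ) (hθ : 0 ≤ θ) (hφ : 0 < φ)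
    (hφ' : 0 ≤ φ') (k : ℕ) (Q : Finset ℤ) (i : Fg) : (genF c d θ φ φ' hθ hφ hφ').W k Q i =
      θ * c.cst (psg d i) k Q + φ * l2 Q (psg d i) + φ' * scg i * Q.card := rfl

theorem genF_a (c : CW g J r) (d : ℤ × ℤ × ℤ) (θ φ φ' : ℝ) (hθ : 0 ≤ θ) (hφ : 0 < φ)
    (hφ' : 0 ≤ φ') (k : ℕ) (i : Fg) : (genF c d θ φ φ' hθ hφ hφ').toC.a k i =
      if k ≤ i.1 then psg d i else 0 := by
  rw [PSys.toC_a]
  by_cases h : k ≤ i.1
  · rw [if_pos h, if_pos (show (genF c d θ φ φ' hθ hφ hφ').live k i from h)]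
    rfl
  · rw [if_neg h, if_neg (show ¬ (genF c d θ φ φ' hθ hφ hφ').live k i from h)]

/-- the scalar mass of the births is at most `φ'⁻¹` times the weighted mass density -/
theorem scg_mass_le (c : CW g J r) (d : ℤ × ℤ × ℤ) (θ φ φ' : ℝ) (hθ : 0 ≤ θ) (hφ : 0 < φ)
    (hφ' : 0 < φ') (k : ℕ) (Q : Finset ℤ) (m : Fg →₀ ℝ) :
    (m.sum fun i x => |x| * scg i) * Q.card ≤
      φ'⁻¹ * cW (genF c d θ φ φ' hθ hφ hφ'.le).toC k Q m := by
  unfold cW bcost Finsupp.sum
  rw [mul_sum, sum_mul]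
  refine sum_le_sum fun i _ => ?_
  have h2 : (genF c d θ φ φ' hθ hφ hφ'.le).toC.W k Q i =
    θ * c.cst (psg d i) k Q + φ * l2 Q (psg d i) + φ' * scg i * Q.card := rfl
  have h3 : φ' * scg i * Q.card ≤ (genF c d θ φ φ' hθ hφ hφ'.le).toC.W k Q i := by
    rw [h2]
    have h4 : 0 ≤ θ * c.cst (psg d i) k Q := mul_nonneg hθ (c.cst_nonneg _ _ _)
    have h5 : 0 ≤ φ * l2 Q (psg d i) := mul_nonneg hφ.le (l2_nonneg _ _)
    linarith
  rw [le_inv_mul_iff₀ hφ']
  calc φ' * (|m i| * scg i * (Q.card : ℝ)) = |m i| * (φ' * scg i * Q.card) := by ring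
    _ ≤ _ := mul_le_mul_of_nonneg_left h3 (abs_nonneg _)

end

end Vale.Agent.P141.H736
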