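import Vale.Agent.P141.H103.PlaneW
import Vale.Agent.P141.H958.PairsE

/-!
# P141, line (A), E2: the plane functional of averaged matrix families along paths

`P k`: family at middle scale `k` of the function of time `k`; `P' k`: of the function of time
`k + 1`.  The two families agree on the squares of scale `k` which are not in `Q k`.  The charges
are sums over the affected squares: own energies, energies on rectangles, energies of the partner
at the reflected squares.  Nothing is said about the origin of the families.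
-/

namespace Vale.Agent.P141.H736

open Finset Matrix Vale.Agent.P075 Vale.Agent.P141.PL Vale.Agent.P141.H103
open Vale.Agent.P141.H958 (Aff mem_Aff sum_Aff cs_w trace_mul_le_sqrt trace_mul_self_nonneg rfs
  four_eq)

noncomputable section

open scoped Classical

/-! ### One scale -/

section change

variable {ι : Type*} [Fintype ι] [DecidableEq ι] {N k : ℕ}

omit [Fintype ι] [DecidableEq ι] in
/-- a coarse outer cell is the mean of the fine ones -/
theorem outM_mean {P : ℕ → ℤ → ℤ → Matrix ι ι ℝ} (hO : OutM N k P) (m : ℤ) (r : ℕ) :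
    ∀ a, k ≤ a → a + r ≤ N → ∀ n,
      P (a + r) n m = ((2 : ℝ) ^ r)⁻¹ • ∑ n' ∈ iv r n, P a n' m := by
  induction r with
  | zero =>
    intro a _ _ n
    have e : ∀ z : ℤ, iv 0 z = {z} := by
      intro z
      ext x
      simp only [iv, mem_Ico, mem_singleton, pow_zero, one_mul]
      omega
    rw [e, sum_singleton, pow_zero, inv_one, one_smul, Nat.add_zero]
  | succ r ih =>
    intro a ha haN n
    have e1 : a + (r + 1) = (a + 1) + r := by ring
    rw [e1, ih (a + 1) (by omega) (by omega) n]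
    simp only [hO a ha (by omega)]
    ext j j'
    rw [Matrix.smul_apply, Matrix.smul_apply, Matrix.sum_apply, Matrix.sum_apply,
      H588.sum_iv_succ]
    simp only [Matrix.smul_apply, Matrix.add_apply, smul_eq_mul, ← mul_sum]
    rw [pow_succ, mul_inv]
    ring

/-- energy of a cell -/
def en2 (P : ℕ → ℤ → ℤ → Matrix ι ι ℝ) (a : ℕ) (n m : ℤ) : ℝ := (P a n m * P a n m).trace

omit [DecidableEq ι] in
theorem en2_nonneg {P : ℕ → ℤ → ℤ → Matrix ι ι ℝ} (hP : ∀ a n m, (P a n m).PosSemidef)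
    (a : ℕ) (n m : ℤ) : 0 ≤ en2 P a n m := trace_mul_self_nonneg (hP a n m)

/-- charge of the own energy with outer scale `k + r` -/
def chW (N : ℕ) (R S : ℤ) (k r : ℕ) (Q : ℤ → ℤ → Prop) (P : ℕ → ℤ → ℤ → Matrix ι ι ℝ) : ℝ :=
  4 ^ k * ∑ m ∈ iv (N - k) S, ∑ n ∈ iv (N - k) R,
    if Q n m then √(en2 P (k + r) (ix r n) m) * √(en2 P k n m) else 0

omit [DecidableEq ι] in
/-- **Change of the own energies.** -/
theorem EW_change {r : ℕ} (h : k + r ≤ N) (R S : ℤ) {Q : ℤ → ℤ → Prop}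
    {P P' : ℕ → ℤ → ℤ → Matrix ι ι ℝ} (oP : OutM N k P) (oP' : OutM N k P')
    (pP : ∀ a n m, (P a n m).PosSemidef) (pP' : ∀ a n m, (P' a n m).PosSemidef)
    (hQ : ∀ n ∈ iv (N - k) R, ∀ m ∈ iv (N - k) S, ¬ Q n m → P' k n m = P k n m) :
    EW N R S k P' (k + r) ≤ EW N R S k P (k + r) + 2 * chW N R S k r Q P' := by
  have hpt : ∀ m ∈ iv (N - k) S, ∀ n ∈ iv (N - (k + r)) R,
      en2 P' (k + r) n m ≤ en2 P (k + r) n m
        + 2 * (((2 : ℝ) ^ r)⁻¹ * ∑ n' ∈ iv r n,
          if Q n' m then √(en2 P' (k + r) n m) * √(en2 P' k n' m) else 0) := by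
    intro m hm n hn
    have hX := pP' (k + r) n m
    have hY := pP (k + r) n m
    set X := P' (k + r) n m with hXd
    set Y := P (k + r) n m with hYd
    have h1 : (X * X).trace - (Y * Y).trace ≤ 2 * (X * (X - Y)).trace := by
      have h := trace_sq_nonneg (B := X - Y)
        (by rw [transpose_sub, psd_isSymm hX, psd_isSymm hY])
      have c := trace_mul_comm Y X
      simp only [Matrix.sub_mul, Matrix.mul_sub, trace_sub] at h ⊢
      rw [c] at h
      linarith
    have h2 : (X * (X - Y)).trace ≤ ((2 : ℝ) ^ r)⁻¹ * ∑ n' ∈ iv r n,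
        if Q n' m then √(en2 P' (k + r) n m) * √(en2 P' k n' m) else 0 := by
      have e : X - Y = ((2 : ℝ) ^ r)⁻¹ • ∑ n' ∈ iv r n, (P' k n' m - P k n' m) := by
        rw [hXd, hYd, outM_mean oP' m r k le_rfl h, outM_mean oP m r k le_rfl h, ← smul_sub,
          ← sum_sub_distrib]
      rw [e, Matrix.mul_smul, trace_smul, smul_eq_mul, Matrix.mul_sum, trace_sum]
      refine mul_le_mul_of_nonneg_left (sum_le_sum fun n' hn' => ?_) (by positivity)
      split_ifs with hq
      · rw [Matrix.mul_sub, trace_sub]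
        have q1 := trace_mul_nonneg hX (pP k n' m)
        have q2 := trace_mul_le_sqrt hX (pP' k n' m)
        have q3 : √(en2 P' (k + r) n m) * √(en2 P' k n' m) =
          √(X * X).trace * √(P' k n' m * P' k n' m).trace := rfl
        linarith
      · rw [hQ n' (iv_sub h hn hn') m hm hq, sub_self, Matrix.mul_zero, trace_zero]
    have e1 : en2 P' (k + r) n m = (X * X).trace := rfl
    have e2 : en2 P (k + r) n m = (Y * Y).trace := rfl
    rw [e2]
    linarith
  -- summation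
  have hsum : ∑ m ∈ iv (N - k) S, ∑ n ∈ iv (N - (k + r)) R, en2 P' (k + r) n m
      ≤ (∑ m ∈ iv (N - k) S, ∑ n ∈ iv (N - (k + r)) R, en2 P (k + r) n m)
        + 2 * (((2 : ℝ) ^ r)⁻¹ * ∑ m ∈ iv (N - k) S, ∑ n ∈ iv (N - k) R,
          if Q n m then √(en2 P' (k + r) (ix r n) m) * √(en2 P' k n m) else 0) := by
    have e : ∀ m : ℤ, ∑ n ∈ iv (N - k) R,
        (if Q n m then √(en2 P' (k + r) (ix r n) m) * √(en2 P' k n m) else 0)
        = ∑ n ∈ iv (N - (k + r)) R, ∑ n' ∈ iv r n,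
          if Q n' m then √(en2 P' (k + r) n m) * √(en2 P' k n' m) else 0 := by
      intro m
      have := H804.iv_sum (N := N - k) (k := r) (by omega) R
        (fun n => if Q n m then √(en2 P' (k + r) (ix r n) m) * √(en2 P' k n m) else 0)
      rw [← this]
      have e2 : N - k - r = N - (k + r) := by omega
      rw [e2]
      refine sum_congr rfl fun n _ => sum_congr rfl fun n' hn' => ?_
      rw [mem_iv.1 hn']
    simp only [e, mul_sum]
    rw [← sum_add_distrib]
    refine sum_le_sum fun m hm => ?_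
    rw [← sum_add_distrib]
    refine sum_le_sum fun n hn => ?_
    have := hpt m hm n hn
    simp only [mul_sum] at this
    exact this
  have h2 := mul_le_mul_of_nonneg_left hsum (by positivity : (0 : ℝ) ≤ 2 ^ (k + r) * 2 ^ k)
  have e0 : ∀ P : ℕ → ℤ → ℤ → Matrix ι ι ℝ, EW N R S k P (k + r) =
    2 ^ (k + r) * 2 ^ k * ∑ m ∈ iv (N - k) S, ∑ n ∈ iv (N - (k + r)) R, en2 P (k + r) n m :=
    fun P => rfl
  rw [e0, e0]
  refine h2.trans (le_of_eq ?_)
  unfold chW
  rw [mul_add]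
  congr 1
  rw [pow_add]
  have e4 : (4 : ℝ) ^ k = 2 ^ k * 2 ^ k := by rw [← mul_pow]; norm_num
  rw [e4]
  have : (2 : ℝ) ^ r ≠ 0 := by positivity
  field_simp

/-- the plane functional on the changed boxes -/
def miW (N : ℕ) (R S T : ℤ) (k : ℕ) (c : ℤ) (Q Q' : ℤ → ℤ → Prop)
    (p q : ℤ → ℤ → Matrix ι ι ℝ) : ℝ :=
  (4 : ℝ) ^ k * ∑ m ∈ iv (N - k) S, ∑ n ∈ iv (N - k) R,
    if c - m - n ∈ iv (N - k) T ∧ (Q n m ∨ Q' (c - m - n) m) then
      (p n m * q (c - m - n) m).trace else 0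

omit [DecidableEq ι] in
/-- **Change of the plane functional.** -/
theorem MW_change (R S T : ℤ) (c : ℤ) {Q Q' : ℤ → ℤ → Prop}
    {p p' q q' : ℤ → ℤ → Matrix ι ι ℝ} (pp : ∀ n m, (p n m).PosSemidef)
    (pq : ∀ n m, (q n m).PosSemidef)
    (hQ : ∀ n ∈ iv (N - k) R, ∀ m ∈ iv (N - k) S, ¬ Q n m → p' n m = p n m)
    (hQ' : ∀ n ∈ iv (N - k) T, ∀ m ∈ iv (N - k) S, ¬ Q' n m → q' n m = q n m) :
    MW N R S T k c p' q' ≤ MW N R S T k c p q + miW N R S T k c Q Q' p' q' := by
  unfold MW miW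
  rw [← mul_add, ← sum_add_distrib]
  refine mul_le_mul_of_nonneg_left (sum_le_sum fun m hm => ?_) (by positivity)
  rw [← sum_add_distrib]
  refine sum_le_sum fun n hn => ?_
  by_cases hc : c - m - n ∈ iv (N - k) T
  · by_cases hq : Q n m ∨ Q' (c - m - n) m
    · rw [if_pos hc, if_pos hc, if_pos ⟨hc, hq⟩]
      have := trace_mul_nonneg (pp n m) (pq (c - m - n) m)
      linarith
    · rw [if_pos hc, if_pos hc, if_neg (fun h => hq h.2)]
      push Not at hq
      rw [hQ n hn m hm hq.1, hQ' _ hc m hm hq.2, add_zero]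
  · rw [if_neg hc, if_neg hc, if_neg (fun h => hc h.1), add_zero]

/-- charge of the affected squares of `P` against `Q` -/
def crW (N : ℕ) (R S T : ℤ) (k : ℕ) (c : ℤ) (Q : ℤ → ℤ → Prop)
    (p q : ℤ → ℤ → Matrix ι ι ℝ) : ℝ :=
  (4 : ℝ) ^ k * ∑ m ∈ iv (N - k) S, ∑ n ∈ iv (N - k) R,
    if Q n m then (if c - m - n ∈ iv (N - k) T then
      √(p n m * p n m).trace * √(q (c - m - n) m * q (c - m - n) m).trace else 0) else 0

omit [DecidableEq ι] in
theorem crW_inner_nonneg (N : ℕ) (T : ℤ) (k : ℕ) (c : ℤ) (p q : ℤ → ℤ → Matrix ι ι ℝ)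
    (n m : ℤ) : 0 ≤ (if c - m - n ∈ iv (N - k) T then
      √(p n m * p n m).trace * √(q (c - m - n) m * q (c - m - n) m).trace else 0) := by
  split_ifs
  · positivity
  · exact le_rfl

omit [DecidableEq ι] in
/-- the changed boxes, split -/
theorem miW_le (R S T : ℤ) (c : ℤ) (Q Q' : ℤ → ℤ → Prop)
    {p q : ℤ → ℤ → Matrix ι ι ℝ} (pp : ∀ n m, (p n m).PosSemidef)
    (pq : ∀ n m, (q n m).PosSemidef) :
    miW N R S T k c Q Q' p q ≤ crW N R S T k c Q p q + crW N T S R k c Q' q p := by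
  unfold miW crW
  rw [← mul_add, ← sum_add_distrib]
  refine mul_le_mul_of_nonneg_left (sum_le_sum fun m _ => ?_) (by positivity)
  -- reflection of the second sum
  have key := H588.sum_refl_le (N - k) R T (c - m)
    (fun n => if Q' n m then (if c - m - n ∈ iv (N - k) R then
      √(q n m * q n m).trace * √(p (c - m - n) m * p (c - m - n) m).trace else 0) else 0)
    (fun n => by
      split_ifs
      · positivity
      · exact le_rfl
      · exact le_rfl)
  refine le_trans ?_ (add_le_add_right key _)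
  rw [← sum_add_distrib]
  refine sum_le_sum fun n hn => ?_
  have e : c - m - (c - m - n) = n := by ring
  by_cases hc : c - m - n ∈ iv (N - k) T
  · have hcs := trace_mul_le_sqrt (pp n m) (pq (c - m - n) m)
    simp only [if_pos hc, e, if_pos hn]
    have h0 : 0 ≤ √(p n m * p n m).trace * √(q (c - m - n) m * q (c - m - n) m).trace := by
      positivity
    by_cases hq : Q n m
    · rw [if_pos ⟨hc, Or.inl hq⟩, if_pos hq]
      have : 0 ≤ (if Q' (c - m - n) m then √(q (c - m - n) m * q (c - m - n) m).trace *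
        √(p n m * p n m).trace else 0) := by
        split_ifs
        · positivity
        · exact le_rfl
      linarith
    · by_cases hq' : Q' (c - m - n) m
      · rw [if_pos ⟨hc, Or.inr hq'⟩, if_neg hq, if_pos hq', zero_add]
        linarith
      · rw [if_neg (fun h => h.2.elim hq hq'), if_neg hq, if_neg hq', add_zero]
  · simp only [if_neg hc, ite_self, add_zero]
    rw [if_neg (fun h => hc h.1)]

end change

/-! ### All scales -/

section path

variable {ι : ℕ → Type*} [∀ k, Fintype (ι k)] [∀ k, DecidableEq (ι k)] {N : ℕ}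

/-- own energy of the affected squares -/
def ownW (N : ℕ) (R S : ℤ) (Q : ℕ → ℤ → ℤ → Prop)
    (P : ∀ k, ℕ → ℤ → ℤ → Matrix (ι k) (ι k) ℝ) : ℝ :=
  ∑ i ∈ Aff N R S Q, (4 : ℝ) ^ i.1 * en2 (P i.1) i.1 i.2.1 i.2.2

/-- energy of the rectangles (outer scale `k + r`, middle scale `k`) over the affected squares -/
def rectW (N : ℕ) (R S : ℤ) (Q : ℕ → ℤ → ℤ → Prop) (r : ℕ)
    (P : ∀ k, ℕ → ℤ → ℤ → Matrix (ι k) (ι k) ℝ) : ℝ :=
  ∑ i ∈ (Aff N R S Q).filter (fun i => i.1 + r ≤ N),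
    (4 : ℝ) ^ i.1 * en2 (P i.1) (i.1 + r) (ix r i.2.1) i.2.2

/-- energy of the partner (root `T`) at the reflected affected squares (root `R`) -/
def reflW (N : ℕ) (R S T : ℤ) (c : ℕ → ℤ) (Q : ℕ → ℤ → ℤ → Prop)
    (P : ∀ k, ℕ → ℤ → ℤ → Matrix (ι k) (ι k) ℝ) : ℝ :=
  ∑ i ∈ rfs N R S T c Q, (4 : ℝ) ^ i.1 * en2 (P i.1) i.1 (c i.1 - i.2.2 - i.2.1) i.2.2

omit [∀ k, DecidableEq (ι k)] in
/-- the mixed charges -/
theorem sum_crW_le {R S T : ℤ} {c : ℕ → ℤ} {Q : ℕ → ℤ → ℤ → Prop}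
    {P X : ∀ k, ℕ → ℤ → ℤ → Matrix (ι k) (ι k) ℝ} (pP : ∀ k a n m, (P k a n m).PosSemidef)
    (pX : ∀ k a n m, (X k a n m).PosSemidef) {O U : ℝ} (hO : ownW N R S Q P ≤ O)
    (hU : reflW N R S T c Q X ≤ U) :
    ∑ k ∈ range N, crW N R S T k (c k) (Q k) (P k k) (X k k) ≤ √O * √U := by
  have hA : ∑ i ∈ rfs N R S T c Q, (4 : ℝ) ^ i.1 * en2 (P i.1) i.1 i.2.1 i.2.2 ≤ O :=
    (sum_le_sum_of_subset_of_nonneg (filter_subset _ _) fun _ _ _ =>
      mul_nonneg (by positivity) (en2_nonneg (pP _) ..)).trans hO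
  have hcs := cs_w _ (w := fun i : ℕ × ℤ × ℤ => (4 : ℝ) ^ i.1)
    (a := fun i => en2 (P i.1) i.1 i.2.1 i.2.2)
    (b := fun i => en2 (X i.1) i.1 (c i.1 - i.2.2 - i.2.1) i.2.2)
    (fun i _ => by positivity) (fun i _ => en2_nonneg (pP _) ..)
    (fun i _ => en2_nonneg (pX _) ..) hA hU
  refine le_trans (le_of_eq ?_) hcs
  unfold rfs
  rw [sum_filter, sum_Aff]
  refine sum_congr rfl fun k _ => ?_
  unfold crW
  rw [mul_sum]
  refine sum_congr rfl fun m _ => ?_
  rw [mul_sum]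
  refine sum_congr rfl fun n _ => ?_
  by_cases hq : Q k n m
  · rw [if_pos hq, if_pos hq]
    by_cases ht : c k - m - n ∈ iv (N - k) T
    · rw [if_pos ht, if_pos ht]
      rfl
    · rw [if_neg ht, if_neg ht, mul_zero]
  · rw [if_neg hq, if_neg hq, mul_zero]

omit [∀ k, DecidableEq (ι k)] in
/-- the charges of the own energies, one `r` -/
theorem sum_chW_le {R S : ℤ} {Q : ℕ → ℤ → ℤ → Prop} {r : ℕ}
    {P : ∀ k, ℕ → ℤ → ℤ → Matrix (ι k) (ι k) ℝ} (pP : ∀ k a n m, (P k a n m).PosSemidef)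
    {O U : ℝ} (hO : ownW N R S Q P ≤ O) (hU : rectW N R S Q r P ≤ U) :
    ∑ k ∈ range N, (if k + r ≤ N then chW N R S k r (Q k) (P k) else 0) ≤ √U * √O := by
  have hA : ∑ i ∈ (Aff N R S Q).filter (fun i => i.1 + r ≤ N),
      (4 : ℝ) ^ i.1 * en2 (P i.1) i.1 i.2.1 i.2.2 ≤ O :=
    (sum_le_sum_of_subset_of_nonneg (filter_subset _ _) fun _ _ _ =>
      mul_nonneg (by positivity) (en2_nonneg (pP _) ..)).trans hO
  have hcs := cs_w _ (w := fun i : ℕ × ℤ × ℤ => (4 : ℝ) ^ i.1)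
    (a := fun i => en2 (P i.1) (i.1 + r) (ix r i.2.1) i.2.2)
    (b := fun i => en2 (P i.1) i.1 i.2.1 i.2.2)
    (fun i _ => by positivity) (fun i _ => en2_nonneg (pP _) ..)
    (fun i _ => en2_nonneg (pP _) ..) hU hA
  refine le_trans (le_of_eq ?_) hcs
  rw [sum_filter, sum_Aff]
  refine sum_congr rfl fun k _ => ?_
  by_cases hk : k + r ≤ N
  · rw [if_pos hk]
    unfold chW
    rw [mul_sum]
    refine sum_congr rfl fun m _ => ?_
    rw [mul_sum]
    refine sum_congr rfl fun n _ => ?_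
    by_cases hq : Q k n m
    · rw [if_pos hq, if_pos hq, if_pos hk]
    · rw [if_neg hq, if_neg hq, mul_zero]
  · rw [if_neg hk]
    symm
    refine sum_eq_zero fun m _ => sum_eq_zero fun n _ => ?_
    dsimp only
    rw [if_neg hk, ite_self]

/-- the sum over the outer offsets -/
def sr (N : ℕ) (f : ℕ → ℝ) : ℝ := ∑ r ∈ range (N + 1), (3 / 4 : ℝ) ^ r * f r

omit [∀ k, DecidableEq (ι k)] in
/-- **Sum of the gains along two paths which end at zero.** -/
theorem gapP {R S T : ℤ} {c : ℕ → ℤ} (hc : H588.Pl c)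
    {P P' X X' : ∀ k, ℕ → ℤ → ℤ → Matrix (ι k) (ι k) ℝ} {Q Q' : ℕ → ℤ → ℤ → Prop}
    {g : ℕ → ℤ → ℤ → ℤ → ℝ} {dE dF : ℕ → ℕ → ℝ}
    (oP : ∀ k, k ≤ N → OutM N k (P k)) (oX : ∀ k, k ≤ N → OutM N k (X k))
    (oP' : ∀ k, k < N → OutM N k (P' k)) (oX' : ∀ k, k < N → OutM N k (X' k))
    (pP : ∀ k a n m, (P k a n m).PosSemidef) (pX : ∀ k a n m, (X k a n m).PosSemidef)
    (pP' : ∀ k a n m, (P' k a n m).PosSemidef) (pX' : ∀ k a n m, (X' k a n m).PosSemidef)
    (aP : ∀ k < N, ∀ n ∈ iv (N - k) R, ∀ m ∈ iv (N - k) S, ¬ Q k n m → P' k k n m = P k k n m)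
    (aX : ∀ k < N, ∀ n ∈ iv (N - k) T, ∀ m ∈ iv (N - k) S, ¬ Q' k n m → X' k k n m = X k k n m)
    (zP : EW N R S 0 (P 0) 0 = 0) (zX : EW N T S 0 (X 0) 0 = 0)
    (mid : ∀ k, k < N → ∀ n n' m,
      (P (k + 1) (k + 1) n m * X (k + 1) (k + 1) n' m).trace + g k n n' m
      ≤ (1 / 2) * ((P' k (k + 1) n (2 * m) * X' k (k + 1) n' (2 * m)).trace
        + (P' k (k + 1) n (2 * m + 1) * X' k (k + 1) n' (2 * m + 1)).trace))
    (hE : ∀ k, k < N → ∀ a, k + 1 ≤ a → a ≤ N →
      EW N R S (k + 1) (P (k + 1)) a ≤ EW N R S k (P' k) a + dE k a)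
    (hF : ∀ k, k < N → ∀ a, k + 1 ≤ a → a ≤ N →
      EW N T S (k + 1) (X (k + 1)) a ≤ EW N T S k (X' k) a + dF k a)
    {OP OX UP UX : ℝ} {VP VX : ℕ → ℝ} (h1 : ownW N R S Q P' ≤ OP) (h2 : ownW N T S Q' X' ≤ OX)
    (h3 : reflW N T S R c Q' P' ≤ UP) (h4 : reflW N R S T c Q X' ≤ UX)
    (h5 : ∀ r ≤ N, rectW N R S Q r P' ≤ VP r) (h6 : ∀ r ≤ N, rectW N T S Q' r X' ≤ VX r) :
    ∑ k ∈ range N, GW N R S T (k + 1) (c (k + 1)) (g k)
      ≤ √OP * √UX + √OX * √UP + 18 * (sr N (fun r => √(VP r) * √OP)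
        + sr N (fun r => √(VX r) * √OX))
        + 9 * ∑ k ∈ range N, (WW N (k + 1) (dE k) + WW N (k + 1) (dF k)) := by
  set x : ℕ → ℝ := fun k => miW N R S T k (c k) (Q k) (Q' k) (P' k k) (X' k k)
    + 18 * (sr N (fun r => if k + r ≤ N then chW N R S k r (Q k) (P' k) else 0)
      + sr N (fun r => if k + r ≤ N then chW N T S k r (Q' k) (X' k) else 0)) with hx
  -- change of the weighted energies
  have hW : ∀ {R S : ℤ} {k : ℕ} {Q : ℤ → ℤ → Prop} {P P' : ℕ → ℤ → ℤ → Matrix (ι k) (ι k) ℝ},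
      k < N → OutM N k P → OutM N k P' → (∀ a n m, (P a n m).PosSemidef) →
      (∀ a n m, (P' a n m).PosSemidef) →
      (∀ n ∈ iv (N - k) R, ∀ m ∈ iv (N - k) S, ¬ Q n m → P' k n m = P k n m) →
      WW N k (EW N R S k P') ≤ WW N k (EW N R S k P)
        + 2 * sr N (fun r => if k + r ≤ N then chW N R S k r Q P' else 0) := by
    intro R S k Q P P' hk o1 o2 p1 p2 hag
    have e1 : ∀ f : ℕ → ℝ, WW N k f = sr N (fun r => if k + r ≤ N then f (k + r) else 0) := by
      intro f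
      unfold WW sr
      have e : range (N - k + 1) = (range (N + 1)).filter (fun r => k + r ≤ N) := by
        ext r
        rw [mem_filter, mem_range, mem_range]
        omega
      rw [e, sum_filter]
      refine sum_congr rfl fun r _ => ?_
      dsimp only
      by_cases hr : k + r ≤ N
      · rw [if_pos hr, if_pos hr]
      · rw [if_neg hr, if_neg hr, mul_zero]
    rw [e1, e1]
    unfold sr
    rw [mul_sum, ← sum_add_distrib]
    refine sum_le_sum fun r _ => ?_
    dsimp only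
    by_cases hr : k + r ≤ N
    · rw [if_pos hr, if_pos hr, if_pos hr]
      have h := EW_change hr R S o1 o2 p1 p2 hag
      have h34 : (0 : ℝ) ≤ (3 / 4 : ℝ) ^ r := by positivity
      nlinarith [mul_le_mul_of_nonneg_left h h34]
    · rw [if_neg hr, if_neg hr, if_neg hr]
      simp
  have ht := totalW (k₀ := 0) (Nat.zero_le N) hc (P := P) (P' := P') (Q := X) (Q' := X') (g := g)
    (dE := dE) (dF := dF) (x := x) (R := R) (S := S) (T := T)
    (fun k _ h => oP k h) (fun k _ h => oX k h) (fun k _ h => oP' k h) (fun k _ h => oX' k h)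
    (fun k a n m => psd_isSymm (pP k a n m)) (fun k a n m => psd_isSymm (pX k a n m))
    (fun k a n m => psd_isSymm (pP' k a n m)) (fun k a n m => psd_isSymm (pX' k a n m))
    (fun k _ h => mid k h) (fun k _ h => hE k h) (fun k _ h => hF k h)
    (fun k _ h => by
      have q1 := MW_change (N := N) (k := k) R S T (c k) (fun n m => pP k k n m)
        (fun n m => pX k k n m) (aP k h) (aX k h)
      have q2 := hW h (oP k h.le) (oP' k h) (pP k) (pP' k) (aP k h)
      have q3 := hW h (oX k h.le) (oX' k h) (pX k) (pX' k) (aX k h)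
      rw [hx]
      dsimp only
      linarith)
  rw [zP, zX, add_zero, mul_zero, zero_add] at ht
  have er : ∀ f : ℕ → ℝ, ∑ k ∈ Ico 0 N, f k = ∑ k ∈ range N, f k := fun f => by
    rw [range_eq_Ico]
  rw [er, er, er] at ht
  refine ht.trans ?_
  have hxs : ∑ k ∈ range N, x k ≤ √OP * √UX + √OX * √UP
      + 18 * (sr N (fun r => √(VP r) * √OP) + sr N (fun r => √(VX r) * √OX)) := by
    have hmi : ∑ k ∈ range N, miW N R S T k (c k) (Q k) (Q' k) (P' k k) (X' k k)
        ≤ √OP * √UX + √OX * √UP := by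
      refine le_trans ?_ (add_le_add (sum_crW_le (N := N) pP' pX' h1 h4)
        (sum_crW_le (N := N) pX' pP' h2 h3))
      rw [← sum_add_distrib]
      exact sum_le_sum fun k _ => miW_le R S T (c k) (Q k) (Q' k) (fun n m => pP' k k n m)
        (fun n m => pX' k k n m)
    have hch : ∀ {R S : ℤ} {Q : ℕ → ℤ → ℤ → Prop}
        {P' : ∀ k, ℕ → ℤ → ℤ → Matrix (ι k) (ι k) ℝ} {O : ℝ} {V : ℕ → ℝ},
        (∀ k a n m, (P' k a n m).PosSemidef) → ownW N R S Q P' ≤ O →
        (∀ r ≤ N, rectW N R S Q r P' ≤ V r) →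
        ∑ k ∈ range N, sr N (fun r => if k + r ≤ N then chW N R S k r (Q k) (P' k) else 0)
          ≤ sr N (fun r => √(V r) * √O) := by
      intro R S Q P' O V p hO hV
      unfold sr
      rw [sum_comm]
      refine sum_le_sum fun r hr => ?_
      rw [← mul_sum]
      refine mul_le_mul_of_nonneg_left ?_ (by positivity)
      exact sum_chW_le p hO (hV r (by have := mem_range.1 hr; omega))
    have c1 := hch pP' h1 h5
    have c2 := hch pX' h2 h6
    rw [hx]
    dsimp only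
    rw [sum_add_distrib, ← mul_sum, sum_add_distrib]
    linarith
  linarith

end path

end

end Vale.Agent.P141.H736
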