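import Vale.Agent.P141.H170.Theta
import Vale.Agent.P141.H958.Cor

/-!
# P141, line W: interface between the pair estimates and the adapted ML

`Inp` collects the data of a moving input: path which changes on squares, cap `s`, energy with
discards `D`, local energy `e`, area of the changed squares `E`.

* `ft`: final terms, for every centre one of three choices, pair sums at the caps;
* `pay`: payment, one input of small energy, only this input is raised.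
-/

namespace Vale.Agent.P141.H736

open Finset Matrix Vale.Agent.P075 Vale.Agent.P141.PL Vale.Agent.P141.PL.H588
open Vale.Agent.P141.PL.H804 Vale.Agent.P141.H958 Vale.Agent.P141.H170

noncomputable section

open scoped Classical

/-! ### symmetry of the pair sums -/

theorem mnk_symm (N : ℕ) (R S T : ℤ) (k : ℕ) (c : ℤ) (F H : ℤ → ℤ → ℝ) :
    mnk N R S T k c F H = mnk N T S R k c H F := by
  unfold mnk
  congr 1
  refine sum_congr rfl fun m _ => ?_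
  rw [← sum_filter, ← sum_filter]
  refine sum_bij' (fun n _ => c - m - n) (fun n _ => c - m - n) ?_ ?_ ?_ ?_ ?_
  · intro n hn
    rw [mem_filter] at hn ⊢
    refine ⟨hn.2, ?_⟩
    rw [show c - m - (c - m - n) = n by ring]
    exact hn.1
  · intro n hn
    rw [mem_filter] at hn ⊢
    refine ⟨hn.2, ?_⟩
    rw [show c - m - (c - m - n) = n by ring]
    exact hn.1
  · intro n _; ring
  · intro n _; ring
  · intro n _
    rw [show c - m - (c - m - n) = n by ring]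
    set X := phi (Xg k k F n m)
    set Y := phi (Xg k k H (c - m - n) m)
    calc (X * (hd k * Y * hd k)).trace = (hd k * Y * hd k * X).trace := trace_mul_comm _ _
      _ = (Y * (hd k * X * hd k)).trace := by
        rw [Matrix.mul_assoc (hd k * Y), Matrix.mul_assoc (hd k), trace_mul_comm (hd k),
          Matrix.mul_assoc, Matrix.mul_assoc]

theorem prs_symm (N : ℕ) (R S T : ℤ) (c : ℕ → ℤ) (F H : ℕ → ℤ → ℤ → ℝ) :
    prs N R S T c F H = prs N T S R c H F :=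
  sum_congr rfl fun k _ => mnk_symm N R S T k (c k) (F k) (H k)

/-! ### the data of an input -/

/-- **Data of a moving input**, outer root `R`, middle root `S`. -/
structure Inp (N : ℕ) (R S : ℤ) (Q : ℕ → ℤ → ℤ → Prop) (F : ℕ → ℤ → ℤ → ℝ)
    (s D e E : ℝ) : Prop where
  path : Path N R S Q F
  zero : F 0 = 0
  s_pos : 0 < s
  e_nonneg : 0 ≤ e
  cap : ∀ k < N, ∀ n ∈ iv (N - k) R, ∀ m ∈ iv (N - k) S, Cap k n m s (F (k + 1))
  D_le : pwr N R S Q F ≤ D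
  e_le : ∀ k < N, ∀ n ∈ iv (N - k) R, ∀ m ∈ iv (N - k) S, sqb k n m (F (k + 1)) ≤ 4 ^ k * e
  E_le : evt N R S Q ≤ E

theorem arQ_swap (N : ℕ) (R S : ℤ) (k : ℕ) (Q : ℤ → ℤ → Prop) :
    arQ N R S k Q = arQ N S R k (fun n m => Q m n) := by
  unfold arQ
  rw [sum_comm]

theorem arQ_nonneg (N : ℕ) (R S : ℤ) (k : ℕ) (Q : ℤ → ℤ → Prop) : 0 ≤ arQ N R S k Q := by
  unfold arQ
  refine mul_nonneg (by positivity) (sum_nonneg fun m _ => sum_nonneg fun n _ => ?_)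
  split_ifs <;> norm_num

theorem evt_nonneg (N : ℕ) (R S : ℤ) (Q : ℕ → ℤ → ℤ → Prop) : 0 ≤ evt N R S Q :=
  sum_nonneg fun _ _ => arQ_nonneg ..

theorem evt_swap (N : ℕ) (R S : ℤ) (Q : ℕ → ℤ → ℤ → Prop) :
    evt N S R (fl Q) = evt N R S Q :=
  sum_congr rfl fun k _ => (arQ_swap N R S k (Q k)).symm

section

variable {N : ℕ} {R S T : ℤ} {c : ℕ → ℤ} {Q Q' : ℕ → ℤ → ℤ → Prop} {F H : ℕ → ℤ → ℤ → ℝ}
  {s D e E s' D' e' E' : ℝ}

theorem Inp.swap (h : Inp N R S Q F s D e E) : Inp N S R (fl Q) (sp F) s D e E where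
  path := path_swap h.path
  zero := by
    funext x y
    simp [sp, h.zero]
  s_pos := h.s_pos
  e_nonneg := h.e_nonneg
  cap := fun k hk n hn m hm => cap_swap (h.cap k hk m hm n hn)
  D_le := by rw [pwr_swap]; exact h.D_le
  e_le := fun k hk n hn m hm => by
    have h1 := h.e_le k hk m hm n hn
    rw [sqb_swap] at h1
    exact h1
  E_le := by rw [evt_swap]; exact h.E_le

theorem Inp.D_nonneg (h : Inp N R S Q F s D e E) : 0 ≤ D := (pwr_nonneg ..).trans h.D_le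

theorem Inp.E_nonneg (h : Inp N R S Q F s D e E) : 0 ≤ E := (evt_nonneg ..).trans h.E_le

theorem Inp.cap1 (h : Inp N R S Q F s D e E) : Cap1 N R S (wp (s ^ 2)⁻¹ F) := by
  intro k hk n hn m hm
  have h1 := cap_one h.s_pos (h.cap k hk n hn m hm)
  have e1 : Xg k k (wp (s ^ 2)⁻¹ F (k + 1)) n m
      = gramC ((s ^ 2)⁻¹ * (4 ^ k)⁻¹) (bl k (F (k + 1)) n m) :=
    Xg_gramC k (by positivity) (F (k + 1)) n m
  rw [e1]
  exact h1

theorem Inp.nb (h : Inp N R S Q F s D e E) {μ : ℝ} (hμ : 0 ≤ μ) : Nb N R S (μ * e) (wp μ F) := by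
  intro k hk n hn m hm
  have h1 := h.e_le k hk n hn m hm
  have h2 := sqb_eq k n m (fun x y => √μ * F (k + 1) x y)
  rw [sqb_smul hμ] at h2
  have e1 : wp μ F (k + 1) = fun x y => √μ * F (k + 1) x y := rfl
  rw [e1]
  have h4 : (0 : ℝ) < 4 ^ k := by positivity
  refine le_of_mul_le_mul_left ?_ h4
  rw [← h2]
  calc μ * sqb k n m (F (k + 1)) ≤ μ * (4 ^ k * e) := mul_le_mul_of_nonneg_left h1 hμ
    _ = 4 ^ k * (μ * e) := by ring

/-- the bound of the pair sum at the caps, in terms of the weighted numbers -/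
def pn (SX nX EX SY nY EY : ℝ) : ℝ :=
  2 * (min SX (nY * EX) + min SY (nX * EY)) + 1080 * √(SX * SY)

/-- **Pair sum at the caps.** -/
theorem pair_le (hc : Pl c) (hF : Inp N R S Q F s D e E) (hH : Inp N T S Q' H s' D' e' E') :
    prs N R S T c (wp (s ^ 2)⁻¹ F) (wp (s' ^ 2)⁻¹ H) ≤
      pn ((s ^ 2)⁻¹ * D) ((s ^ 2)⁻¹ * e) E ((s' ^ 2)⁻¹ * D') ((s' ^ 2)⁻¹ * e') E' := by
  have p1 : (0 : ℝ) ≤ (s ^ 2)⁻¹ := by positivity
  have p2 : (0 : ℝ) ≤ (s' ^ 2)⁻¹ := by positivity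
  have he := hF.e_nonneg
  have he' := hH.e_nonneg
  have h := prs_geo_min hc (path_wp (s ^ 2)⁻¹ hF.path) (path_wp (s' ^ 2)⁻¹ hH.path)
    (wp_zero _ hF.zero) (wp_zero _ hH.zero) hF.cap1 hH.cap1
    (ν := (s ^ 2)⁻¹ * e) (ν' := (s' ^ 2)⁻¹ * e')
    (mul_nonneg p1 he) (mul_nonneg p2 he') (hF.nb p1) (hH.nb p2)
  rw [pwr_wp p1, pwr_wp p2] at h
  refine h.trans ?_
  unfold pn
  have a1 : (s ^ 2)⁻¹ * pwr N R S Q F ≤ (s ^ 2)⁻¹ * D := mul_le_mul_of_nonneg_left hF.D_le p1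
  have a2 : (s' ^ 2)⁻¹ * pwr N T S Q' H ≤ (s' ^ 2)⁻¹ * D' :=
    mul_le_mul_of_nonneg_left hH.D_le p2
  have b1 : (s' ^ 2)⁻¹ * e' * evt N R S Q ≤ (s' ^ 2)⁻¹ * e' * E :=
    mul_le_mul_of_nonneg_left hF.E_le (mul_nonneg p2 he')
  have b2 : (s ^ 2)⁻¹ * e * evt N T S Q' ≤ (s ^ 2)⁻¹ * e * E' :=
    mul_le_mul_of_nonneg_left hH.E_le (mul_nonneg p1 he)
  have c1 := min_le_min a1 b1
  have c2 := min_le_min a2 b2
  have c3 : √((s ^ 2)⁻¹ * pwr N R S Q F * ((s' ^ 2)⁻¹ * pwr N T S Q' H))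
      ≤ √((s ^ 2)⁻¹ * D * ((s' ^ 2)⁻¹ * D')) :=
    Real.sqrt_le_sqrt (mul_le_mul a1 a2 (mul_nonneg p2 (pwr_nonneg ..))
      (mul_nonneg p1 hF.D_nonneg))
  linarith

/-- **Pair sum, first input at the level `a`**, second input at its cap. -/
theorem pair_one (hc : Pl c) (hF : Inp N R S Q F s D e E) (hH : Inp N T S Q' H s' D' e' E')
    (a : ℕ) {θ : ℝ} (hθ : 0 < θ) (hθ1 : θ ≤ 1) :
    prs N R S T c (wp (lv s a) F) (wp (s' ^ 2)⁻¹ H) ≤
      2 * (min (lv s a * D) ((s' ^ 2)⁻¹ * e' * E) + min ((s' ^ 2)⁻¹ * D') (lv s a * e * E'))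
        + 540 * (θ⁻¹ * (lv s a * D) + θ * ((s' ^ 2)⁻¹ * D')) := by
  have p1 : (0 : ℝ) ≤ lv s a := (lv_pos hF.s_pos a).le
  have p2 : (0 : ℝ) ≤ (s' ^ 2)⁻¹ := by positivity
  have he := hF.e_nonneg
  have he' := hH.e_nonneg
  have h := prs_one_min hc (path_wp (lv s a) hF.path) (path_wp (s' ^ 2)⁻¹ hH.path)
    (wp_zero _ hF.zero) (wp_zero _ hH.zero) hH.cap1 hθ hθ1
    (ν := lv s a * e) (ν' := (s' ^ 2)⁻¹ * e')
    (mul_nonneg p1 he) (mul_nonneg p2 he') (hF.nb p1) (hH.nb p2)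
  rw [pwr_wp p1, pwr_wp p2] at h
  refine h.trans ?_
  have a1 : lv s a * pwr N R S Q F ≤ lv s a * D := mul_le_mul_of_nonneg_left hF.D_le p1
  have a2 : (s' ^ 2)⁻¹ * pwr N T S Q' H ≤ (s' ^ 2)⁻¹ * D' :=
    mul_le_mul_of_nonneg_left hH.D_le p2
  have b1 : (s' ^ 2)⁻¹ * e' * evt N R S Q ≤ (s' ^ 2)⁻¹ * e' * E :=
    mul_le_mul_of_nonneg_left hF.E_le (mul_nonneg p2 he')
  have b2 : lv s a * e * evt N T S Q' ≤ lv s a * e * E' :=
    mul_le_mul_of_nonneg_left hH.E_le (mul_nonneg p1 he)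
  have c1 := min_le_min a1 b1
  have c2 := min_le_min a2 b2
  have c3 : θ⁻¹ * (lv s a * pwr N R S Q F) ≤ θ⁻¹ * (lv s a * D) :=
    mul_le_mul_of_nonneg_left a1 (by positivity)
  have c4 : θ * ((s' ^ 2)⁻¹ * pwr N T S Q' H) ≤ θ * ((s' ^ 2)⁻¹ * D') :=
    mul_le_mul_of_nonneg_left a2 hθ.le
  linarith

/-- the pair estimate at arbitrary levels -/
theorem pair_lev (hc : Pl c) (hF : Inp N R S Q F s D e E) (hH : Inp N T S Q' H s' D' e' E')
    (a b : ℕ) : prs N R S T c (wp (lv s a) F) (wp (lv s' b) H) ≤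
      542 * (lv s a * D + lv s' b * D') := by
  have p1 : (0 : ℝ) ≤ lv s a := (lv_pos hF.s_pos a).le
  have p2 : (0 : ℝ) ≤ lv s' b := (lv_pos hH.s_pos b).le
  have h := prs_le hc hF.path hH.path hF.zero hH.zero p1 p2
  have a1 : lv s a * pwr N R S Q F ≤ lv s a * D := mul_le_mul_of_nonneg_left hF.D_le p1
  have a2 : lv s' b * pwr N T S Q' H ≤ lv s' b * D' := mul_le_mul_of_nonneg_left hH.D_le p2
  linarith

end

/-! ### final terms -/

/-- The three choices for the cost `T` of a centre: `w` is the product of the three caps, `SY`, `SZ`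
the weighted energies of the two others, `fY`, `fZ` the pair sums at the caps. -/
def Opt (L : ℕ) (w SY SZ fY fZ T : ℝ) : Prop :=
  3 * (w * √(SY * SZ)) ≤ T ∨ L * (w * √(fY * SZ)) ≤ T ∨ L * (w * √(fZ * SY)) ≤ T

/-- the weighted energy -/
def wE (s D : ℝ) : ℝ := 2 * 542 * ((s ^ 2)⁻¹ * D)

/-- the pair sum at the caps of two inputs -/
def pc2 (s D e E s' D' e' E' : ℝ) : ℝ :=
  pn ((s ^ 2)⁻¹ * D) ((s ^ 2)⁻¹ * e) E ((s' ^ 2)⁻¹ * D') ((s' ^ 2)⁻¹ * e') E'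

theorem pn_symm (a b c d e f : ℝ) : pn a b c d e f = pn d e f a b c := by
  unfold pn
  rw [mul_comm a d]
  ring

theorem pc2_symm (s D e E s' D' e' E' : ℝ) :
    pc2 s D e E s' D' e' E' = pc2 s' D' e' E' s D e E := pn_symm ..

section

variable {N : ℕ} {R : Pt} {c : ℕ → ℤ} {A B C : ℕ → ℤ → ℤ → ℝ}
  {σ : ℕ → Finset Pt} {QA QB QC : ℕ → ℤ → ℤ → Prop}
  {sA DA eA EA sB DB eB EB sC DC eC EC : ℝ}

/-- **Final terms.** -/
theorem ft (hc : Pl c) (hσ : ∀ k ∈ Icc 1 N, σ k ⊆ bx3 N R k (c k))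
    (hA : Inp N R.1 R.2.1 QA A sA DA eA EA) (hB : Inp N R.2.1 R.2.2 QB B sB DB eB EB)
    (hC : Inp N R.1 R.2.2 QC C sC DC eC EC)
    (capA : ∀ k ∈ Icc 1 N, ∀ m ∈ σ k, Cap k m.1 m.2.1 sA (A k))
    (capB : ∀ k ∈ Icc 1 N, ∀ m ∈ σ k, Cap k m.2.1 m.2.2 sB (B k))
    (capC : ∀ k ∈ Icc 1 N, ∀ m ∈ σ k, Cap k m.1 m.2.2 sC (C k)) (L : ℕ) {TA TB TC : ℝ}
    (oA : Opt L (sA * sB * sC) (wE sB DB) (wE sC DC) (pc2 sA DA eA EA sB DB eB EB)
      (pc2 sA DA eA EA sC DC eC EC) TA)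
    (oB : Opt L (sA * sB * sC) (wE sA DA) (wE sC DC) (pc2 sB DB eB EB sA DA eA EA)
      (pc2 sB DB eB EB sC DC eC EC) TB)
    (oC : Opt L (sA * sB * sC) (wE sA DA) (wE sB DB) (pc2 sC DC eC EC sA DA eA EA)
      (pc2 sC DC eC EC sB DB eB EB) TC) :
    ∑ k ∈ Icc 1 N, (2 ^ k : ℝ)⁻¹ * ∑ m ∈ σ k, |tri k m (A k) (B k) (C k)| ≤
      6 * (TA + TB + TC) + 26016 * (st3 sA sB sC DA DB DC * (2 ^ L)⁻¹) := by
  have pA := hA.s_pos
  have pB := hB.s_pos
  have pC := hC.s_pos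
  have dA := hA.D_nonneg
  have dB := hB.D_nonneg
  have dC := hC.D_nonneg
  set f01 := pc2 sA DA eA EA sB DB eB EB with h01
  set f02 := pc2 sA DA eA EA sC DC eC EC with h02
  set f12 := pc2 sB DB eB EB sC DC eC EC with h12
  rw [pc2_symm sB DB eB EB sA DA eA EA, ← h01] at oB
  rw [pc2_symm sC DC eC EC sA DA eA EA, ← h02, pc2_symm sC DC eC EC sB DB eB EB, ← h12] at oC
  have k01 : prs N R.1 R.2.1 R.2.2 c (wp (sA ^ 2)⁻¹ A) (wp (sB ^ 2)⁻¹ (sp B)) ≤ f01 :=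
    pair_le hc hA hB.swap
  have k12 : prs N R.2.1 R.2.2 R.1 c (wp (sB ^ 2)⁻¹ B) (wp (sC ^ 2)⁻¹ C) ≤ f12 :=
    pair_le hc hB hC
  have k02 : prs N R.2.1 R.1 R.2.2 c (wp (sA ^ 2)⁻¹ (sp A)) (wp (sC ^ 2)⁻¹ (sp C)) ≤ f02 :=
    pair_le hc hA.swap hC.swap
  have n01 : 0 ≤ f01 := (prs_nonneg ..).trans k01
  have n12 : 0 ≤ f12 := (prs_nonneg ..).trans k12
  have n02 : 0 ≤ f02 := (prs_nonneg ..).trans k02
  have nA : 0 ≤ wE sA DA := by unfold wE; positivity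
  have nB : 0 ≤ wE sB DB := by unfold wE; positivity
  have nC : 0 ≤ wE sC DC := by unfold wE; positivity
  have four : ∀ a : ℕ, (0 : ℝ) ≤ 4 ^ (a - 1) := fun a => by positivity
  have w0 : ∀ c : ℝ, 0 ≤ (c ^ 2)⁻¹ := fun c => by positivity
  have key := ml_adapt hσ pA pB pC capA capB capC (κ := 542) (by norm_num) dA dB dC
    (fun a b => pair_lev hc hA hB.swap a b) (fun b e => pair_lev hc hB hC b e)
    (fun a e => by
      have := pair_lev hc hA.swap hC.swap a e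
      linarith)
    (gab := fun a => 4 ^ (a - 1) * f01) (gba := fun a => 4 ^ (a - 1) * f01)
    (gac := fun a => 4 ^ (a - 1) * f02) (gca := fun a => 4 ^ (a - 1) * f02)
    (gbc := fun a => 4 ^ (a - 1) * f12) (gcb := fun a => 4 ^ (a - 1) * f12)
    (fun a => (prs_scale_left N _ _ _ c A (sp B) (w0 sB) sA a).trans
      (mul_le_mul_of_nonneg_left k01 (four a)))
    (fun b => (prs_scale_right N _ _ _ c A (sp B) (w0 sA) sB b).trans
      (mul_le_mul_of_nonneg_left k01 (four b)))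
    (fun b => (prs_scale_left N _ _ _ c B C (w0 sC) sB b).trans
      (mul_le_mul_of_nonneg_left k12 (four b)))
    (fun e => (prs_scale_right N _ _ _ c B C (w0 sB) sC e).trans
      (mul_le_mul_of_nonneg_left k12 (four e)))
    (fun a => (prs_scale_left N _ _ _ c (sp A) (sp C) (w0 sC) sA a).trans
      (mul_le_mul_of_nonneg_left k02 (four a)))
    (fun e => (prs_scale_right N _ _ _ c (sp A) (sp C) (w0 sA) sC e).trans
      (mul_le_mul_of_nonneg_left k02 (four e))) L L L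
  have ewE : ∀ s D : ℝ, 2 * 542 * ((s ^ 2)⁻¹ * D) = wE s D := fun _ _ => rfl
  simp only [ewE] at key
  have mn : ∀ (f x : ℝ) (a : ℕ), 0 ≤ f → 0 ≤ x → 0 ≤ min (4 ^ (a - 1) * f) x :=
    fun f x a hf hx => le_min (mul_nonneg (four a) hf) hx
  have vs : ∀ {cX cY cZ fY fZ SY SZ T : ℝ}, 0 ≤ cX → 0 ≤ cY → 0 ≤ cZ → 0 ≤ fY → 0 ≤ fZ →
      0 ≤ SY → 0 ≤ SZ → Opt L (cX * cY * cZ) SY SZ fY fZ T →
      ∑ a ∈ range L, vx cX cY cZ (min (4 ^ (a - 1) * fY) SY) (min (4 ^ (a - 1) * fZ) SZ) a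
        ≤ T := by
    intro cX cY cZ fY fZ SY SZ T h1 h2 h3 h4 h5 h6 h7 o
    rcases o with o | o | o
    · exact (vsum_geo (x := fun a => min (4 ^ (a - 1) * fY) SY)
        (y := fun a => min (4 ^ (a - 1) * fZ) SZ) h1 h2 h3 (fun a => mn _ _ a h5 h7) h6
        (fun a => min_le_right _ _) (fun a => min_le_right _ _) L).trans o
    · exact (vsum_log (x := fun a => min (4 ^ (a - 1) * fY) SY)
        (y := fun a => min (4 ^ (a - 1) * fZ) SZ) h1 h2 h3 (fun a => mn _ _ a h5 h7) h4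
        (fun a => min_le_left _ _) (fun a => min_le_right _ _) L).trans o
    · exact (vsum_log' (x := fun a => min (4 ^ (a - 1) * fY) SY)
        (y := fun a => min (4 ^ (a - 1) * fZ) SZ) h1 h2 h3 (fun a => mn _ _ a h4 h6) h5
        (fun a => min_le_right _ _) (fun a => min_le_left _ _) L).trans o
  have bA := vs pA.le pB.le pC.le n01 n02 nB nC oA
  have bB : ∑ a ∈ range L, vx sB sC sA (min (4 ^ (a - 1) * f12) (wE sC DC))
      (min (4 ^ (a - 1) * f01) (wE sA DA)) a ≤ TB := by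
    refine vs pB.le pC.le pA.le n12 n01 nC nA ?_
    have e1 : sB * sC * sA = sA * sB * sC := by ring
    rw [e1]
    rcases oB with o | o | o
    · exact Or.inl (by rwa [mul_comm (wE sC DC)])
    · exact Or.inr (Or.inr o)
    · exact Or.inr (Or.inl o)
  have bC : ∑ a ∈ range L, vx sC sA sB (min (4 ^ (a - 1) * f02) (wE sA DA))
      (min (4 ^ (a - 1) * f12) (wE sB DB)) a ≤ TC := by
    refine vs pC.le pA.le pB.le n02 n12 nA nB ?_
    have e1 : sC * sA * sB = sA * sB * sC := by ring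
    rw [e1]
    exact oC
  refine key.trans ?_
  have e2 : 48 * 542 * st3 (sA * (2 ^ L)⁻¹) (sB * (2 ^ L)⁻¹) (sC * (2 ^ L)⁻¹) DA DB DC
      = 26016 * (st3 sA sB sC DA DB DC * (2 ^ L)⁻¹) := by
    unfold st3
    ring
  rw [e2]
  linarith

/-! ### payments -/

/-- raising the input `Y` of small energy against `X`: the bound of the pair sum -/
theorem pay_num {sX sY DX DY eY eX EX EY e K g : ℝ} (a : ℕ) (hsX : 0 < sX) (hsY : 0 < sY)
    (he : 0 < e) (hK : 0 ≤ K) (hDX : DX ≤ K) (hDY : DY ≤ e * K) (hEX : EX ≤ K) (hEX0 : 0 ≤ EX)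
    (heY : eY ≤ e) (hg : ∀ θ : ℝ, 0 < θ → θ ≤ 1 → g ≤
      2 * (min (lv sY a * DY) ((sX ^ 2)⁻¹ * eX * EY) + min ((sX ^ 2)⁻¹ * DX) (lv sY a * eY * EX))
        + 540 * (θ⁻¹ * (lv sY a * DY) + θ * ((sX ^ 2)⁻¹ * DX))) :
    min g (wE sX DX) ≤ 1084 * (√(lv sY a * e) * K / sX) := by
  have hlv := lv_pos hsY a
  have hx : 0 < lv sY a * e := mul_pos hlv he
  set r := √(lv sY a * e) with hr
  have hr0 : 0 < r := Real.sqrt_pos.2 hx
  have hrr : r * r = lv sY a * e := Real.mul_self_sqrt hx.le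
  have hDX' : (sX ^ 2)⁻¹ * DX ≤ (sX ^ 2)⁻¹ * K := mul_le_mul_of_nonneg_left hDX (by positivity)
  rcases le_total (r * sX) 1 with h | h
  · refine (min_le_left _ _).trans ?_
    have h1 := hg (r * sX) (by positivity) h
    have h2 : lv sY a * DY ≤ r * r * K := by
      calc lv sY a * DY ≤ lv sY a * (e * K) := mul_le_mul_of_nonneg_left hDY hlv.le
        _ = r * r * K := by rw [hrr]; ring
    have h3 : lv sY a * eY * EX ≤ r * r * K := by
      calc lv sY a * eY * EX ≤ lv sY a * e * EX :=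
            mul_le_mul_of_nonneg_right (mul_le_mul_of_nonneg_left heY hlv.le) hEX0
        _ ≤ lv sY a * e * K := mul_le_mul_of_nonneg_left hEX hx.le
        _ = r * r * K := by rw [hrr]
    have h4 : r * r * K ≤ r * K / sX := by
      rw [le_div_iff₀ hsX]
      have : r * K * (r * sX) ≤ r * K * 1 :=
        mul_le_mul_of_nonneg_left h (by positivity)
      nlinarith
    have h5 : (r * sX)⁻¹ * (lv sY a * DY) ≤ r * K / sX := by
      refine (mul_le_mul_of_nonneg_left h2 (by positivity)).trans (le_of_eq ?_)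
      field_simp
    have h6 : r * sX * ((sX ^ 2)⁻¹ * DX) ≤ r * K / sX := by
      refine (mul_le_mul_of_nonneg_left hDX' (by positivity)).trans (le_of_eq ?_)
      field_simp
    have h7 : min (lv sY a * DY) ((sX ^ 2)⁻¹ * eX * EY) ≤ r * K / sX :=
      (min_le_left _ _).trans (h2.trans h4)
    have h8 : min ((sX ^ 2)⁻¹ * DX) (lv sY a * eY * EX) ≤ r * K / sX :=
      (min_le_right _ _).trans (h3.trans h4)
    linarith
  · refine (min_le_right _ _).trans ?_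
    unfold wE
    have h1 : (sX ^ 2)⁻¹ * K ≤ r * K / sX := by
      rw [le_div_iff₀ hsX]
      have e1 : (sX ^ 2)⁻¹ * K * sX = K / sX := by field_simp
      rw [e1, div_le_iff₀ hsX]
      have : K * 1 ≤ K * (r * sX) := mul_le_mul_of_nonneg_left h hK
      nlinarith
    linarith

/-- the cost of one level -/
theorem pay_vx {sX sY sZ e K t x y : ℝ} (a : ℕ) (hsX : 0 < sX) (hsY : 0 < sY) (hsZ : 0 < sZ)
    (he : 0 < e) (hK : 0 ≤ K) (htX : sX ≤ t) (htZ : sZ ≤ t)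
    (hy0 : 0 ≤ y) (hx : x ≤ 1084 * (√(lv sY a * e) * K / sX))
    (hy : y ≤ 1084 * (√(lv sY a * e) * K / sZ)) :
    vx sY sX sZ x y a ≤ 1084 * (t * (√e * K)) := by
  have hlv := lv_pos hsY a
  have ht : 0 < t := hsX.trans_le htX
  set r := √(lv sY a * e) with hr
  have hr0 : 0 ≤ r := Real.sqrt_nonneg _
  have elv : √(lv sY a) = 2 ^ (a - 1) / sY := by
    rw [lv_eq]
    have h4 : (4 : ℝ) ^ (a - 1) * (sY ^ 2)⁻¹ = (2 ^ (a - 1) / sY) ^ 2 := by
      rw [div_pow, ← pow_mul, mul_comm (a - 1) 2, pow_mul]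
      norm_num
      ring
    rw [h4, Real.sqrt_sq (by positivity)]
  have er : r = 2 ^ (a - 1) / sY * √e := by rw [hr, Real.sqrt_mul hlv.le, elv]
  have h1 : √(x * y) ≤ 1084 * (r * K) / √(sX * sZ) := by
    rw [le_div_iff₀ (Real.sqrt_pos.2 (by positivity)), ← Real.sqrt_mul' _ (by positivity)]
    refine Real.sqrt_le_iff.2 ⟨by positivity, ?_⟩
    calc x * y * (sX * sZ) ≤ (1084 * (r * K / sX)) * (1084 * (r * K / sZ)) * (sX * sZ) :=
          mul_le_mul_of_nonneg_right (mul_le_mul hx hy hy0 (by positivity)) (by positivity)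
      _ = (1084 * (r * K)) ^ 2 := by field_simp
  have h2 : sX * sZ / √(sX * sZ) ≤ t := by
    rw [Real.div_sqrt]
    refine Real.sqrt_le_iff.2 ⟨ht.le, ?_⟩
    rw [pow_two]
    exact mul_le_mul htX htZ hsZ.le ht.le
  unfold vx
  calc sY / 2 ^ (a - 1) * sX * sZ * √(x * y)
      ≤ sY / 2 ^ (a - 1) * sX * sZ * (1084 * (r * K) / √(sX * sZ)) :=
        mul_le_mul_of_nonneg_left h1 (by positivity)
    _ = 1084 * (sX * sZ / √(sX * sZ) * (√e * K)) := by
        rw [er]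
        have : (2 : ℝ) ^ (a - 1) ≠ 0 := by positivity
        field_simp
    _ ≤ 1084 * (t * (√e * K)) := by
        have : 0 ≤ √e * K := mul_nonneg (Real.sqrt_nonneg _) hK
        nlinarith [mul_le_mul_of_nonneg_right h2 this]

theorem two_pow_inv_le {L : ℕ} {e : ℝ} (h : ((4 : ℝ) ^ L)⁻¹ ≤ e) : ((2 : ℝ) ^ L)⁻¹ ≤ √e := by
  refine Real.le_sqrt_of_sq_le (le_trans (le_of_eq ?_) h)
  rw [inv_pow, ← pow_mul, mul_comm L 2, pow_mul]
  norm_num

theorem sqrt_two_le {x y e K : ℝ} (he : 0 ≤ e) (hK : 0 ≤ K) (hy0 : 0 ≤ y)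
    (hx : x ≤ K) (hy : y ≤ e * K) : √(x * y) ≤ √e * K := by
  refine Real.sqrt_le_iff.2 ⟨mul_nonneg (Real.sqrt_nonneg _) hK, ?_⟩
  rw [mul_pow, Real.sq_sqrt he]
  calc x * y ≤ K * (e * K) := mul_le_mul hx hy hy0 hK
    _ = e * K ^ 2 := by ring

/-- **Payment, the input of small energy is `A`.** -/
theorem pay_A (hc : Pl c) (hσ : ∀ k ∈ Icc 1 N, σ k ⊆ bx3 N R k (c k))
    (hA : Inp N R.1 R.2.1 QA A sA DA eA EA) (hB : Inp N R.2.1 R.2.2 QB B sB DB eB EB)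
    (hC : Inp N R.1 R.2.2 QC C sC DC eC EC)
    (capA : ∀ k ∈ Icc 1 N, ∀ m ∈ σ k, Cap k m.1 m.2.1 sA (A k))
    (capB : ∀ k ∈ Icc 1 N, ∀ m ∈ σ k, Cap k m.2.1 m.2.2 sB (B k))
    (capC : ∀ k ∈ Icc 1 N, ∀ m ∈ σ k, Cap k m.1 m.2.2 sC (C k)) {t e K : ℝ} (L : ℕ)
    (he : ((4 : ℝ) ^ L)⁻¹ ≤ e) (tA : sA ≤ t) (tB : sB ≤ t) (tC : sC ≤ t)
    (kA : DA ≤ e * K) (kA' : eA ≤ e) (kB : DB ≤ K) (kB' : EB ≤ K) (kC : DC ≤ K) (kC' : EC ≤ K) :
    ∑ k ∈ Icc 1 N, (2 ^ k : ℝ)⁻¹ * ∑ m ∈ σ k, |tri k m (A k) (B k) (C k)| ≤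
      (6504 * L + 78048) * (t * (√e * K)) := by
  have pA := hA.s_pos
  have pB := hB.s_pos
  have pC := hC.s_pos
  have dA := hA.D_nonneg
  have dB := hB.D_nonneg
  have dC := hC.D_nonneg
  have he0 : 0 < e := lt_of_lt_of_le (by positivity) he
  have hK : 0 ≤ K := dB.trans kB
  have ht : 0 ≤ t := pA.le.trans tA
  have key := ml_adapt hσ pA pB pC capA capB capC (κ := 542) (by norm_num) dA dB dC
    (fun a b => pair_lev hc hA hB.swap a b) (fun b e => pair_lev hc hB hC b e)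
    (fun a e => by
      have := pair_lev hc hA.swap hC.swap a e
      linarith)
    (fun _ => le_rfl) (fun _ => le_rfl) (fun _ => le_rfl) (fun _ => le_rfl) (fun _ => le_rfl)
    (fun _ => le_rfl) L 0 0
  simp only [range_zero, sum_empty, add_zero, pow_zero, inv_one, mul_one] at key
  have ewE : ∀ s D : ℝ, 2 * 542 * ((s ^ 2)⁻¹ * D) = wE s D := fun _ _ => rfl
  simp only [ewE] at key
  have h1 : ∀ a ∈ range L, vx sA sB sC
      (min (prs N R.1 R.2.1 R.2.2 c (wp (lv sA a) A) (wp (sB ^ 2)⁻¹ (sp B))) (wE sB DB))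
      (min (prs N R.2.1 R.1 R.2.2 c (wp (lv sA a) (sp A)) (wp (sC ^ 2)⁻¹ (sp C))) (wE sC DC)) a
      ≤ 1084 * (t * (√e * K)) := by
    intro a _
    refine pay_vx a pB pA pC he0 hK tB tC (le_min (prs_nonneg ..) (by unfold wE; positivity))
      ?_ ?_
    · exact pay_num a pB pA he0 hK kB kA kB' hB.E_nonneg kA'
        (fun θ h0 h1 => pair_one hc hA hB.swap a h0 h1)
    · exact pay_num a pC pA he0 hK kC kA kC' hC.E_nonneg kA'
        (fun θ h0 h1 => pair_one hc hA.swap hC.swap a h0 h1)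
  have h2 := sum_le_sum h1
  rw [sum_const, card_range, nsmul_eq_mul] at h2
  have h3 : st3 (sA * (2 ^ L)⁻¹) sB sC DA DB DC ≤ 3 * (t * (√e * K)) := by
    unfold st3
    have hq := two_pow_inv_le he
    have se : 0 ≤ √e := Real.sqrt_nonneg _
    have a1 : sA * (2 ^ L)⁻¹ * √(DB * DC) ≤ t * (√e * K) := by
      have : √(DB * DC) ≤ K := by
        refine Real.sqrt_le_iff.2 ⟨hK, ?_⟩
        rw [pow_two]; exact mul_le_mul kB kC dC hK
      calc sA * (2 ^ L)⁻¹ * √(DB * DC) ≤ t * √e * K :=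
            mul_le_mul (mul_le_mul tA hq (by positivity) ht) this (Real.sqrt_nonneg _)
              (by positivity)
        _ = t * (√e * K) := by ring
    have a2 : sB * √(DC * DA) ≤ t * (√e * K) :=
      mul_le_mul tB (sqrt_two_le he0.le hK dA kC kA) (Real.sqrt_nonneg _) ht
    have a3 : sC * √(DA * DB) ≤ t * (√e * K) := by
      rw [mul_comm DA DB]
      exact mul_le_mul tC (sqrt_two_le he0.le hK dA kB kA) (Real.sqrt_nonneg _) ht
    linarith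
  refine key.trans ?_
  nlinarith

/-- **Payment, the input of small energy is `B`.** -/
theorem pay_B (hc : Pl c) (hσ : ∀ k ∈ Icc 1 N, σ k ⊆ bx3 N R k (c k))
    (hA : Inp N R.1 R.2.1 QA A sA DA eA EA) (hB : Inp N R.2.1 R.2.2 QB B sB DB eB EB)
    (hC : Inp N R.1 R.2.2 QC C sC DC eC EC)
    (capA : ∀ k ∈ Icc 1 N, ∀ m ∈ σ k, Cap k m.1 m.2.1 sA (A k))
    (capB : ∀ k ∈ Icc 1 N, ∀ m ∈ σ k, Cap k m.2.1 m.2.2 sB (B k))
    (capC : ∀ k ∈ Icc 1 N, ∀ m ∈ σ k, Cap k m.1 m.2.2 sC (C k)) {t e K : ℝ} (L : ℕ)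
    (he : ((4 : ℝ) ^ L)⁻¹ ≤ e) (tA : sA ≤ t) (tB : sB ≤ t) (tC : sC ≤ t)
    (kB : DB ≤ e * K) (kB' : eB ≤ e) (kA : DA ≤ K) (kA' : EA ≤ K) (kC : DC ≤ K) (kC' : EC ≤ K) :
    ∑ k ∈ Icc 1 N, (2 ^ k : ℝ)⁻¹ * ∑ m ∈ σ k, |tri k m (A k) (B k) (C k)| ≤
      (6504 * L + 78048) * (t * (√e * K)) := by
  have pA := hA.s_pos
  have pB := hB.s_pos
  have pC := hC.s_pos
  have dA := hA.D_nonneg
  have dB := hB.D_nonneg
  have dC := hC.D_nonneg
  have he0 : 0 < e := lt_of_lt_of_le (by positivity) he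
  have hK : 0 ≤ K := dA.trans kA
  have ht : 0 ≤ t := pA.le.trans tA
  have key := ml_adapt hσ pA pB pC capA capB capC (κ := 542) (by norm_num) dA dB dC
    (fun a b => pair_lev hc hA hB.swap a b) (fun b e => pair_lev hc hB hC b e)
    (fun a e => by
      have := pair_lev hc hA.swap hC.swap a e
      linarith)
    (fun _ => le_rfl) (fun _ => le_rfl) (fun _ => le_rfl) (fun _ => le_rfl) (fun _ => le_rfl)
    (fun _ => le_rfl) 0 L 0
  simp only [range_zero, sum_empty, zero_add, add_zero, pow_zero, inv_one, mul_one] at key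
  have ewE : ∀ s D : ℝ, 2 * 542 * ((s ^ 2)⁻¹ * D) = wE s D := fun _ _ => rfl
  simp only [ewE] at key
  have h1 : ∀ b ∈ range L, vx sB sC sA
      (min (prs N R.2.1 R.2.2 R.1 c (wp (lv sB b) B) (wp (sC ^ 2)⁻¹ C)) (wE sC DC))
      (min (prs N R.1 R.2.1 R.2.2 c (wp (sA ^ 2)⁻¹ A) (wp (lv sB b) (sp B))) (wE sA DA)) b
      ≤ 1084 * (t * (√e * K)) := by
    intro b _
    refine pay_vx b pC pB pA he0 hK tC tA (le_min (prs_nonneg ..) (by unfold wE; positivity))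
      ?_ ?_
    · exact pay_num b pC pB he0 hK kC kB kC' hC.E_nonneg kB'
        (fun θ h0 h1 => pair_one hc hB hC b h0 h1)
    · exact pay_num b pA pB he0 hK kA kB kA' hA.E_nonneg kB' (fun θ h0 h1 =>
        (prs_symm ..).le.trans (pair_one hc hB.swap hA b h0 h1))
  have h2 := sum_le_sum h1
  rw [sum_const, card_range, nsmul_eq_mul] at h2
  have h3 : st3 sA (sB * (2 ^ L)⁻¹) sC DA DB DC ≤ 3 * (t * (√e * K)) := by
    unfold st3
    have hq := two_pow_inv_le he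
    have se : 0 ≤ √e := Real.sqrt_nonneg _
    have a1 : sB * (2 ^ L)⁻¹ * √(DC * DA) ≤ t * (√e * K) := by
      have : √(DC * DA) ≤ K := by
        refine Real.sqrt_le_iff.2 ⟨hK, ?_⟩
        rw [pow_two]; exact mul_le_mul kC kA dA hK
      calc sB * (2 ^ L)⁻¹ * √(DC * DA) ≤ t * √e * K :=
            mul_le_mul (mul_le_mul tB hq (by positivity) ht) this (Real.sqrt_nonneg _)
              (by positivity)
        _ = t * (√e * K) := by ring
    have a2 : sA * √(DB * DC) ≤ t * (√e * K) := by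
      rw [mul_comm DB DC]
      exact mul_le_mul tA (sqrt_two_le he0.le hK dB kC kB) (Real.sqrt_nonneg _) ht
    have a3 : sC * √(DA * DB) ≤ t * (√e * K) :=
      mul_le_mul tC (sqrt_two_le he0.le hK dB kA kB) (Real.sqrt_nonneg _) ht
    linarith
  refine key.trans ?_
  nlinarith

/-- **Payment, the input of small energy is `C`.** -/
theorem pay_C (hc : Pl c) (hσ : ∀ k ∈ Icc 1 N, σ k ⊆ bx3 N R k (c k))
    (hA : Inp N R.1 R.2.1 QA A sA DA eA EA) (hB : Inp N R.2.1 R.2.2 QB B sB DB eB EB)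
    (hC : Inp N R.1 R.2.2 QC C sC DC eC EC)
    (capA : ∀ k ∈ Icc 1 N, ∀ m ∈ σ k, Cap k m.1 m.2.1 sA (A k))
    (capB : ∀ k ∈ Icc 1 N, ∀ m ∈ σ k, Cap k m.2.1 m.2.2 sB (B k))
    (capC : ∀ k ∈ Icc 1 N, ∀ m ∈ σ k, Cap k m.1 m.2.2 sC (C k)) {t e K : ℝ} (L : ℕ)
    (he : ((4 : ℝ) ^ L)⁻¹ ≤ e) (tA : sA ≤ t) (tB : sB ≤ t) (tC : sC ≤ t)
    (kC : DC ≤ e * K) (kC' : eC ≤ e) (kA : DA ≤ K) (kA' : EA ≤ K) (kB : DB ≤ K) (kB' : EB ≤ K) :
    ∑ k ∈ Icc 1 N, (2 ^ k : ℝ)⁻¹ * ∑ m ∈ σ k, |tri k m (A k) (B k) (C k)| ≤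
      (6504 * L + 78048) * (t * (√e * K)) := by
  have pA := hA.s_pos
  have pB := hB.s_pos
  have pC := hC.s_pos
  have dA := hA.D_nonneg
  have dB := hB.D_nonneg
  have dC := hC.D_nonneg
  have he0 : 0 < e := lt_of_lt_of_le (by positivity) he
  have hK : 0 ≤ K := dA.trans kA
  have ht : 0 ≤ t := pA.le.trans tA
  have key := ml_adapt hσ pA pB pC capA capB capC (κ := 542) (by norm_num) dA dB dC
    (fun a b => pair_lev hc hA hB.swap a b) (fun b e => pair_lev hc hB hC b e)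
    (fun a e => by
      have := pair_lev hc hA.swap hC.swap a e
      linarith)
    (fun _ => le_rfl) (fun _ => le_rfl) (fun _ => le_rfl) (fun _ => le_rfl) (fun _ => le_rfl)
    (fun _ => le_rfl) 0 0 L
  simp only [range_zero, sum_empty, zero_add, add_zero, pow_zero, inv_one, mul_one] at key
  have ewE : ∀ s D : ℝ, 2 * 542 * ((s ^ 2)⁻¹ * D) = wE s D := fun _ _ => rfl
  simp only [ewE] at key
  have h1 : ∀ b ∈ range L, vx sC sA sB
      (min (prs N R.2.1 R.1 R.2.2 c (wp (sA ^ 2)⁻¹ (sp A)) (wp (lv sC b) (sp C))) (wE sA DA))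
      (min (prs N R.2.1 R.2.2 R.1 c (wp (sB ^ 2)⁻¹ B) (wp (lv sC b) C)) (wE sB DB)) b
      ≤ 1084 * (t * (√e * K)) := by
    intro b _
    refine pay_vx b pA pC pB he0 hK tA tB (le_min (prs_nonneg ..) (by unfold wE; positivity))
      ?_ ?_
    · exact pay_num b pA pC he0 hK kA kC kA' hA.E_nonneg kC' (fun θ h0 h1 =>
        (prs_symm ..).le.trans (pair_one hc hC.swap hA.swap b h0 h1))
    · exact pay_num b pB pC he0 hK kB kC kB' hB.E_nonneg kC' (fun θ h0 h1 =>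
        (prs_symm ..).le.trans (pair_one hc hC hB b h0 h1))
  have h2 := sum_le_sum h1
  rw [sum_const, card_range, nsmul_eq_mul] at h2
  have h3 : st3 sA sB (sC * (2 ^ L)⁻¹) DA DB DC ≤ 3 * (t * (√e * K)) := by
    unfold st3
    have hq := two_pow_inv_le he
    have se : 0 ≤ √e := Real.sqrt_nonneg _
    have a1 : sC * (2 ^ L)⁻¹ * √(DA * DB) ≤ t * (√e * K) := by
      have : √(DA * DB) ≤ K := by
        refine Real.sqrt_le_iff.2 ⟨hK, ?_⟩
        rw [pow_two]; exact mul_le_mul kA kB dB hK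
      calc sC * (2 ^ L)⁻¹ * √(DA * DB) ≤ t * √e * K :=
            mul_le_mul (mul_le_mul tC hq (by positivity) ht) this (Real.sqrt_nonneg _)
              (by positivity)
        _ = t * (√e * K) := by ring
    have a2 : sA * √(DB * DC) ≤ t * (√e * K) :=
      mul_le_mul tA (sqrt_two_le he0.le hK dC kB kC) (Real.sqrt_nonneg _) ht
    have a3 : sB * √(DC * DA) ≤ t * (√e * K) := by
      rw [mul_comm DC DA]
      exact mul_le_mul tB (sqrt_two_le he0.le hK dC kA kC) (Real.sqrt_nonneg _) ht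
    linarith
  refine key.trans ?_
  nlinarith

/-- **Payment with two inputs of small energy**, no condition on the events; at most one of the three
inputs has large energy. -/
theorem pay_star (hc : Pl c) (hσ : ∀ k ∈ Icc 1 N, σ k ⊆ bx3 N R k (c k))
    (hA : Inp N R.1 R.2.1 QA A sA DA eA EA) (hB : Inp N R.2.1 R.2.2 QB B sB DB eB EB)
    (hC : Inp N R.1 R.2.2 QC C sC DC eC EC)
    (capA : ∀ k ∈ Icc 1 N, ∀ m ∈ σ k, Cap k m.1 m.2.1 sA (A k))
    (capB : ∀ k ∈ Icc 1 N, ∀ m ∈ σ k, Cap k m.2.1 m.2.2 sB (B k))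
    (capC : ∀ k ∈ Icc 1 N, ∀ m ∈ σ k, Cap k m.1 m.2.2 sC (C k)) {t e K : ℝ}
    (he : 0 ≤ e) (tA : sA ≤ t) (tB : sB ≤ t) (tC : sC ≤ t)
    (kA : DA ≤ K) (kB : DB ≤ K) (kC : DC ≤ K)
    (h2 : (DA ≤ e * K ∧ DB ≤ e * K) ∨ (DB ≤ e * K ∧ DC ≤ e * K) ∨ (DA ≤ e * K ∧ DC ≤ e * K)) :
    ∑ k ∈ Icc 1 N, (2 ^ k : ℝ)⁻¹ * ∑ m ∈ σ k, |tri k m (A k) (B k) (C k)| ≤
      78048 * (t * (√e * K)) := by
  have dA := hA.D_nonneg
  have dB := hB.D_nonneg
  have dC := hC.D_nonneg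
  have hK : 0 ≤ K := dA.trans kA
  have ht : 0 ≤ t := hA.s_pos.le.trans tA
  have hprod : ∀ {x y : ℝ}, 0 ≤ x → 0 ≤ y → x ≤ K → y ≤ K → (x ≤ e * K ∨ y ≤ e * K) →
      √(x * y) ≤ √e * K := by
    intro x y hx0 hy0 hx hy h
    rcases h with h | h
    · rw [mul_comm x y]
      exact sqrt_two_le he hK hx0 hy h
    · exact sqrt_two_le he hK hy0 hx h
  have hAB : DA ≤ e * K ∨ DB ≤ e * K := by tauto
  have hBC : DB ≤ e * K ∨ DC ≤ e * K := by tauto
  have hCA : DC ≤ e * K ∨ DA ≤ e * K := by tauto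
  have key := starB hc hσ hA.s_pos hB.s_pos hC.s_pos capA capB capC hA.path hB.path hC.path
    hA.zero hB.zero hC.zero
  have h3 : st3 sA sB sC (pwr N R.1 R.2.1 QA A) (pwr N R.2.1 R.2.2 QB B)
      (pwr N R.1 R.2.2 QC C) ≤ 3 * (t * (√e * K)) := by
    unfold st3
    have pw : ∀ {x y x' y' : ℝ}, 0 ≤ x → 0 ≤ y → x ≤ x' → y ≤ y' → √(x * y) ≤ √(x' * y') :=
      fun hx hy h h' => Real.sqrt_le_sqrt (mul_le_mul h h' hy (hx.trans h))
    have a1 : sA * √(pwr N R.2.1 R.2.2 QB B * pwr N R.1 R.2.2 QC C) ≤ t * (√e * K) :=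
      mul_le_mul tA ((pw (pwr_nonneg ..) (pwr_nonneg ..) hB.D_le hC.D_le).trans
        (hprod dB dC kB kC hBC)) (Real.sqrt_nonneg _) ht
    have a2 : sB * √(pwr N R.1 R.2.2 QC C * pwr N R.1 R.2.1 QA A) ≤ t * (√e * K) :=
      mul_le_mul tB ((pw (pwr_nonneg ..) (pwr_nonneg ..) hC.D_le hA.D_le).trans
        (hprod dC dA kC kA hCA)) (Real.sqrt_nonneg _) ht
    have a3 : sC * √(pwr N R.1 R.2.1 QA A * pwr N R.2.1 R.2.2 QB B) ≤ t * (√e * K) :=
      mul_le_mul tC ((pw (pwr_nonneg ..) (pwr_nonneg ..) hA.D_le hB.D_le).trans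
        (hprod dA dB kA kB hAB)) (Real.sqrt_nonneg _) ht
    linarith
  linarith

end

end

end Vale.Agent.P141.H736
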