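import Vale.Agent.P141.H736.TfCost
import Vale.Agent.P141.H782.Glue

/-!
# P141, line W: mixed gluing of systems of tests, the classes of static companions

* `Mixed S C`: functions which satisfy the tests of `S` on disjoint cells of mixed scales satisfy
  them on the larger cells with the constant `C`; `mixed_sys1` (782's glue), `PSys.mixed`,
  `mixed_sum`, `mixed_none`;
* `stc S C E`: the class of the static functions which satisfy the tests of `S` and have local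
  energy `≤ E` on all the cells between the nodes and the top cell.
-/

namespace Vale.Agent.P141.H736

open Finset
open Vale.Agent.P141.H315 Vale.Agent.P141.PL.H318
open Vale.Agent.P141.H347 (Fam)
open Vale.Agent.P141.PL.H315 (le cube3 wt)
open Vale.Agent.P141.PL.H95 (gr)

noncomputable section

open scoped Classical

variable {X ι κ : Type*} {g : Grid X}

/-- **Mixed gluing.** -/
def Mixed (S : CSys g ι) (C : ℝ) : Prop :=
  ∀ (j : ℕ) (x : X) (A : X → Prop) (m : X → ℕ), Fam g A m → (∀ z ∈ g.cube j x, A z → m z ≤ j) →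
    ∀ G : X → ℝ, (∀ z ∈ g.cube j x, A z →
      ∀ i, |dot (g.cube (m z) z) G (S.a (m z) i)| ≤ S.W (m z) (g.cube (m z) z) i) →
    ∀ i, |dot (g.cube j x) (fun z => if A z then G z else 0) (S.a j i)| ≤
      C * S.W j (g.cube j x) i

theorem PSys.mixed (P : PSys g ι) : Mixed P.toC P.C := by
  intro j x A m hA hm G h i
  rw [P.toC_a]
  by_cases hl : P.live j i
  · rw [if_pos hl]
    refine P.glue hA hm G i fun z hz hz' => ?_
    have := h z hz hz' i
    rwa [P.toC_a, if_pos (P.live_mono _ _ i (hm z hz hz') hl)] at this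
  · rw [if_neg hl, dot_zero_right, abs_zero]
    exact mul_nonneg (zero_le_one.trans P.one_le) (P.W_nonneg _ _ _)

theorem Mixed.mono {S : CSys g ι} {C C' : ℝ} (h : Mixed S C) (hC : C ≤ C') : Mixed S C' :=
  fun j x A m hA hm G hG i => (h j x A m hA hm G hG i).trans
    (mul_le_mul_of_nonneg_right hC (S.W_nonneg _ _ _))

theorem mixed_sum {S : CSys g ι} {S' : CSys g κ} {C C' : ℝ} (h : Mixed S C) (h' : Mixed S' C') :
    Mixed (sumS S S') (max C C') := by
  rintro j x A m hA hm G hG (i | i)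
  · exact h.mono (le_max_left _ _) j x A m hA hm G (fun z hz hz' i => hG z hz hz' (Sum.inl i)) i
  · exact h'.mono (le_max_right _ _) j x A m hA hm G (fun z hz hz' i => hG z hz hz' (Sum.inr i)) i

/-- no tests -/
def noneS (g : Grid X) : CSys g PEmpty.{1} where
  a _ i := i.elim
  W _ _ i := i.elim
  W_nonneg _ _ i := i.elim
  nondeg _ _ := ⟨1, one_pos, fun i => i.elim⟩
  C := 1
  C_nonneg := zero_le_one
  inherit _ _ _ _ i := i.elim

theorem mixed_none : Mixed (noneS g) 1 := fun _ _ _ _ _ _ _ _ i => i.elim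

theorem mixed_sys1 {c0 : ℕ} {σ : ℤ} {c : ℤ × ℤ × ℤ} (hc : csz c ≤ 2 ^ c0) {δ e : ℝ} (hδ : 0 < δ)
    (h0 : 0 < e) (h1 : e ≤ 1) : Mixed (sys1 c0 σ c hc δ e hδ h0.le h1) (H782.Cg e) := by
  intro j x A m hA hm G hG i
  obtain ⟨q, u⟩ := i
  refine H782.glue_dot hc hδ.le h0 h1 (l := j) (x0 := x) (m := m) (A := A) ?_ hm (G := G) q u ?_
  · intro z _ y hz hy
    exact hA z hz y (mem_gs.2 hy)
  · intro z hz hz' w _
    exact hG z hz hz' (w, u)

variable {g : Grid ℤ}

/-- `O` satisfies the tests of `S` and has local energy `≤ E` on the cells of the scales `≤ k`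
over the nodes `𝒩` -/
def Stat (S : CSys g ι) (E : ℝ) (k : ℕ) (𝒩 : Finset Nd) (O : ℤ → ℝ) : Prop :=
  ∀ N ∈ 𝒩, ∀ l, N.1 ≤ l → l ≤ k →
    (∀ i, |dot (g.cube l (le N)) O (S.a l i)| ≤ S.W l (g.cube l (le N)) i) ∧
      dot (g.cube l (le N)) O O ≤ E * (g.cube l (le N)).card

/-- the predicate of the class `stc` -/
def stOk (S : CSys g ι) (E : ℝ) (k : ℕ) (𝒩 : Finset Nd) (A : Nd → ℤ → ℝ) : Prop :=
  ∃ O : ℤ → ℝ, (∀ N ∈ 𝒩, ∀ y ∈ g.cube N.1 (le N), A N y = O y) ∧ Stat S E k 𝒩 O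

theorem stOk_bdd (S : CSys g ι) (E : ℝ) (k : ℕ) (x : ℤ) : ∃ B : ℝ, ∀ 𝒩 A,
    Blw g k (g.cube k x) 𝒩 → stOk S E k 𝒩 A → ∀ N ∈ 𝒩, ∀ y ∈ g.cube N.1 (le N), |A N y| ≤ B := by
  refine ⟨√(E * (g.cube k x).card), fun 𝒩 A hb hA N hN y hy => ?_⟩
  obtain ⟨O, h1, h2⟩ := hA
  obtain ⟨h3, h4, h5, h6⟩ := hb N hN
  rw [h1 N hN y hy]
  have h7 := (h2 N hN k h4 le_rfl).2
  have h8 : g.cube k (le N) = g.cube k x := g.eq_of_mem k x _ h6
  rw [h8] at h7
  have hy' : y ∈ g.cube k x := by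
    rw [← h8]; exact g.sub_le h4 _ hy
  refine Real.abs_le_sqrt (le_trans ?_ h7)
  unfold dot
  have h9 := single_le_sum (f := fun y => O y * O y) (fun _ _ => mul_self_nonneg _) hy'
  calc O y ^ 2 = O y * O y := sq _
    _ ≤ _ := h9

/-- the sum of the squares over a family -/
theorem dot_cut_le {F : ℤ → Prop} {m : ℤ → ℕ} (hF : Fam g F m) {l : ℕ} {x : ℤ}
    (hm : ∀ z ∈ g.cube l x, F z → m z ≤ l) {O : ℤ → ℝ} {E : ℝ} (hE : 0 ≤ E)
    (h : ∀ z ∈ g.cube l x, F z → dot (g.cube (m z) z) O O ≤ E * (g.cube (m z) z).card) :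
    dot (g.cube l x) (fun z => if F z then O z else 0) (fun z => if F z then O z else 0) ≤
      E * (g.cube l x).card := by
  have e1 : dot (g.cube l x) (fun z => if F z then O z else 0) (fun z => if F z then O z else 0) =
      ∑ z ∈ g.cube l x, (if F z then O z * O z else 0) := by
    unfold dot
    refine sum_congr rfl fun z _ => ?_
    dsimp only
    split_ifs
    · rfl
    · rw [zero_mul]
  rw [e1, dot_fam O O hF hm]
  have h2 : ∑ z ∈ g.cube l x, (if F z then dot (g.cube (m z) z) O O /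
      (g.cube (m z) z).card else 0) ≤ ∑ z ∈ g.cube l x, E := by
    refine sum_le_sum fun z hz => ?_
    split_ifs with hFz
    · rw [div_le_iff₀ (card_pos' _ _)]
      exact h z hz hFz
    · exact hE
  rw [sum_const, nsmul_eq_mul, mul_comm] at h2
  exact h2

theorem stOk_glue {S : CSys g ι} {C E : ℝ} (hC : 1 ≤ C) (hS : Mixed S C) (hE : 0 ≤ E)
    (j : ℕ) (x : ℤ) (F : ℤ → Prop) (m : ℤ → ℕ) (hF : Fam g F m)
    (_hm : ∀ z ∈ g.cube j x, F z → m z ≤ j) (𝒩 : ℤ → Finset Nd) (A : ℤ → Nd → ℤ → ℝ)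
    (hc : ∀ z, F z → ∀ y ∈ g.cube (m z) z, 𝒩 y = 𝒩 z ∧ A y = A z)
    (hok : ∀ z ∈ g.cube j x, F z → Blw g (m z) (g.cube (m z) z) (𝒩 z) ∧
      stOk S E (m z) (𝒩 z) (A z))
    (𝒩' : Finset Nd) (h𝒩' : ∀ N ∈ 𝒩', le N ∈ g.cube j x ∧ F (le N) ∧ N ∈ 𝒩 (le N)) :
    ∃ A', stOk S E j 𝒩' A' ∧
      ∀ N ∈ 𝒩', ∀ y ∈ g.cube N.1 (le N), A' N y = C⁻¹ * A (le N) N y := by
  have hC0 : 0 < C := zero_lt_one.trans_le hC
  -- the static functions of the cells
  set OO : ℕ → Finset Nd → (Nd → ℤ → ℝ) → ℤ → ℝ := fun k 𝒩 A =>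
    if h : stOk S E k 𝒩 A then h.choose else 0 with hOO
  have hOO' : ∀ k 𝒩 A, stOk S E k 𝒩 A → (∀ N ∈ 𝒩, ∀ y ∈ g.cube N.1 (le N), A N y = OO k 𝒩 A y) ∧
      Stat S E k 𝒩 (OO k 𝒩 A) := by
    intro k 𝒩 A h
    simp only [hOO, dif_pos h]
    exact h.choose_spec
  obtain ⟨F', hF'⟩ : ∃ F' : ℤ → Prop, ∀ y, F' y ↔ F y ∧ (𝒩 y).Nonempty := ⟨_, fun _ => Iff.rfl⟩
  set Og : ℤ → ℝ := fun y => OO (m y) (𝒩 y) (A y) y with hOg
  have hFam' : Fam g F' m := by
    intro z hz y hy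
    rw [hF'] at hz ⊢
    exact ⟨⟨(hF z hz.1 y hy).1, by rw [(hc z hz.1 y hy).1]; exact hz.2⟩, (hF z hz.1 y hy).2⟩
  have hOgz : ∀ z, F z → ∀ y ∈ g.cube (m z) z, Og y = OO (m z) (𝒩 z) (A z) y := by
    intro z hz y hy
    simp only [hOg]
    rw [(hF z hz y hy).2, (hc z hz y hy).1, (hc z hz y hy).2]
  -- the tests at the cells of the family
  have hcell : ∀ z ∈ g.cube j x, F' z →
      (∀ i, |dot (g.cube (m z) z) Og (S.a (m z) i)| ≤ S.W (m z) (g.cube (m z) z) i) ∧
      dot (g.cube (m z) z) Og Og ≤ E * (g.cube (m z) z).card := by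
    intro z hz hz'
    obtain ⟨hFz, N, hN⟩ := (hF' z).1 hz'
    obtain ⟨hb, ho⟩ := hok z hz hFz
    obtain ⟨h3, h4, h5, h6⟩ := hb N hN
    have h7 := (hOO' _ _ _ ho).2 N hN (m z) h4 le_rfl
    rw [g.eq_of_mem _ _ _ h6] at h7
    refine ⟨fun i => ?_, ?_⟩
    · rw [dot_congr (hOgz z hFz) fun _ _ => rfl]
      exact h7.1 i
    · rw [dot_congr (hOgz z hFz) (hOgz z hFz)]
      exact h7.2
  set O' : ℤ → ℝ := fun y => C⁻¹ * (if F' y then Og y else 0) with hO'
  have hdot1 : ∀ (Q : Finset ℤ) (H : ℤ → ℝ), dot Q O' H =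
      C⁻¹ * dot Q (fun y => if F' y then Og y else 0) H := by
    intro Q H
    unfold dot
    rw [mul_sum]
    exact sum_congr rfl fun y _ => by simp only [hO']; ring
  have hdot2 : ∀ Q : Finset ℤ, dot Q O' O' =
      (C⁻¹) ^ 2 * dot Q (fun y => if F' y then Og y else 0) (fun y => if F' y then Og y else 0) := by
    intro Q
    unfold dot
    rw [mul_sum]
    exact sum_congr rfl fun y _ => by simp only [hO']; ring
  have hCi : C⁻¹ ^ 2 ≤ 1 := by
    have h1 : C⁻¹ ≤ 1 := inv_le_one_of_one_le₀ hC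
    exact pow_le_one₀ (inv_pos.2 hC0).le h1
  refine ⟨fun _ => O', ⟨O', fun _ _ _ _ => rfl, fun N hN l hl hlj => ?_⟩, fun N hN y hy => ?_⟩
  · obtain ⟨h1, h2, h3⟩ := h𝒩' N hN
    obtain ⟨hb, ho⟩ := hok _ h1 h2
    obtain ⟨h4, h5, h6, h7⟩ := hb N h3
    rcases Nat.lt_or_ge (m (le N)) l with hlt | hge
    · -- a cell above the cell of the family
      have hm' : ∀ z ∈ g.cube l (le N), F' z → m z ≤ l := by
        intro z hz hFz
        by_contra hcon
        push Not at hcon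
        have h8 : le N ∈ g.cube (m z) z := by
          rw [g.eq_of_mem (m z) (le N) z (g.sub_le hcon.le _ hz)]
          exact g.mem _ _
        have h9 := (hFam' z hFz _ h8).2
        omega
      have hsub : g.cube l (le N) ⊆ g.cube j x := by
        rw [← g.eq_of_mem j x _ h1]
        exact g.sub_le hlj _
      constructor
      · intro i
        have h10 := hS l (le N) F' m hFam' hm' Og
          (fun z hz hFz => (hcell z (hsub hz) hFz).1) i
        rw [hdot1, abs_mul, abs_of_pos (inv_pos.2 hC0), inv_mul_le_iff₀ hC0]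
        exact h10
      · have h10 := dot_cut_le hFam' hm' hE fun z hz hFz => (hcell z (hsub hz) hFz).2
        rw [hdot2]
        refine (mul_le_of_le_one_left (dot_self_nonneg _ _) hCi).trans h10
    · -- a cell below the cell of the family
      have hsub : g.cube l (le N) ⊆ g.cube (m (le N)) (le N) := g.sub_le hge _
      have hF'N : ∀ y ∈ g.cube (m (le N)) (le N), F' y := fun y hy =>
        (hFam' (le N) ((hF' _).2 ⟨h2, N, h3⟩) y hy).1
      have heq : ∀ y ∈ g.cube l (le N), (if F' y then Og y else 0) =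
          OO (m (le N)) (𝒩 (le N)) (A (le N)) y := by
        intro y hy
        rw [if_pos (hF'N y (hsub hy)), hOgz (le N) h2 y (hsub hy)]
      have h8 := (hOO' _ _ _ ho).2 N h3 l hl hge
      constructor
      · intro i
        rw [hdot1, dot_congr heq fun _ _ => rfl, abs_mul, abs_of_pos (inv_pos.2 hC0)]
        exact (mul_le_of_le_one_left (abs_nonneg _) (inv_le_one_of_one_le₀ hC)).trans (h8.1 i)
      · rw [hdot2, dot_congr heq heq]
        exact (mul_le_of_le_one_left (dot_self_nonneg _ _) hCi).trans h8.2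
  · obtain ⟨h1, h2, h3⟩ := h𝒩' N hN
    obtain ⟨hb, ho⟩ := hok _ h1 h2
    obtain ⟨h4, h5, h6, h7⟩ := hb N h3
    have hy' : y ∈ g.cube (m (le N)) (le N) := g.sub_le h5 _ hy
    have hFy : F' y := (hFam' (le N) ((hF' _).2 ⟨h2, N, h3⟩) y hy').1
    simp only [hO']
    rw [if_pos hFy, hOgz (le N) h2 y hy', (hOO' _ _ _ ho).1 N h3 y hy]

/-- **The class of the static companions** which satisfy the tests of `S` and have local energy
`≤ E`. -/
def stc (S : CSys g ι) (C E : ℝ) (hC : 1 ≤ C) (hS : Mixed S C) (hE : 0 ≤ E) : Cls g where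
  ok k _ 𝒩 A := stOk S E k 𝒩 A
  c := C
  one_le := hC
  empty _ _ := ⟨0, fun N hN => absurd hN (notMem_empty N), fun N hN => absurd hN (notMem_empty N)⟩
  bdd := stOk_bdd S E
  glue := stOk_glue hC hS hE

end

end Vale.Agent.P141.H736
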