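import Vale.Agent.P141.H736.TfSys
import Vale.Agent.P141.H922.Floor

/-!
# P141, line W: the family of the generic tests

Index = a scale `l`, a face cube `q` of the scale `l`, `L` triples of edge functions;
`psi = 4 ^ (-l) * ∑ r, push of the atom r on the cube`.  Every `g ⟨u, v⟩` of rank `≤ L` on the cube
is in the family.
-/

namespace Vale.Agent.P141.H736

open Finset
open Vale.Agent.P141.H315 Vale.Agent.P141.PL.H318
open Vale.Agent.P141.H347 (Fam LW)
open Vale.Agent.P141.PL (el)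
open Vale.Agent.P141.PL.H315 (le cube3 wt atm Tri gz card_cube3)
open Vale.Agent.P141.PL.H95 (gr)
open Vale.Agent.P141.H922 (mx3 mx3_nonneg abs_a1_le abs_atm_le SupB)

noncomputable section

open scoped Classical

/-- the indices of the generic tests: scale, point of the cube, atoms -/
abbrev Fi (L : ℕ) : Type := ℕ × (ℤ × ℤ × ℤ) × (Fin L → Tri)

variable {L : ℕ}

/-- the function on the face -/
def ffn (i : Fi L) (y : ℤ × ℤ × ℤ) : ℝ := ∑ r, atm (i.2.2 r) y

/-- the normalised push-forward -/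
def psi (c : ℤ × ℤ × ℤ) (i : Fi L) : ℤ → ℝ := (4 ^ i.1 : ℝ)⁻¹ • ∑ r, a1 c i.1 (i.2.1, i.2.2 r)

theorem psi_apply (c : ℤ × ℤ × ℤ) (i : Fi L) (s : ℤ) :
    psi c i s = (4 ^ i.1 : ℝ)⁻¹ * ∑ r, a1 c i.1 (i.2.1, i.2.2 r) s := by
  unfold psi
  rw [Pi.smul_apply, Finset.sum_apply, smul_eq_mul]

/-- the bound of the function -/
def bnd (i : Fi L) : ℝ := ∑ r, mx3 (cube3 i.1 i.2.1) (i.2.2 r)

theorem bnd_nonneg (i : Fi L) : 0 ≤ bnd i := sum_nonneg fun _ _ => mx3_nonneg _ _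

theorem abs_psi_le {c : ℤ × ℤ × ℤ} (hc : c.1 ≠ 0) (i : Fi L) (s : ℤ) : |psi c i s| ≤ bnd i := by
  rw [psi_apply, abs_mul, abs_of_pos (by positivity : (0 : ℝ) < (4 ^ i.1 : ℝ)⁻¹),
    inv_mul_le_iff₀ (by positivity)]
  refine (abs_sum_le_sum_abs _ _).trans ?_
  unfold bnd
  rw [mul_sum]
  exact sum_le_sum fun r _ => abs_a1_le hc i.1 (i.2.1, i.2.2 r) s

theorem abs_ffn_le (i : Fi L) {y : ℤ × ℤ × ℤ} (hy : y ∈ cube3 i.1 i.2.1) : |ffn i y| ≤ bnd i := by
  unfold ffn bnd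
  exact (abs_sum_le_sum_abs _ _).trans (sum_le_sum fun r _ => abs_atm_le hy _)

/-- pairing with a generic test -/
theorem dot_psi (c : ℤ × ℤ × ℤ) (i : Fi L) (Q : Finset ℤ) (G : ℤ → ℝ) :
    dot Q G (psi c i) = (4 ^ i.1 : ℝ)⁻¹ *
      ∑ y ∈ cube3 i.1 i.2.1, if el c y ∈ Q then G (el c y) * ffn i y else 0 := by
  have h1 : dot Q G (psi c i) = (4 ^ i.1 : ℝ)⁻¹ * ∑ r, dot Q G (a1 c i.1 (i.2.1, i.2.2 r)) := by
    unfold dot
    rw [sum_comm, mul_sum]
    refine sum_congr rfl fun s _ => ?_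
    rw [psi_apply, ← mul_sum]
    ring
  rw [h1]
  congr 1
  simp only [dot_a1]
  rw [sum_comm]
  refine sum_congr rfl fun y _ => ?_
  split_ifs
  · unfold ffn
    rw [mul_sum]
  · exact sum_const_zero

/-- **The generic test on a face cube**: the cube sees at most two cells. -/
theorem cube_gen {c0 : ℕ} {σ : ℤ} {c : ℤ × ℤ × ℤ} (hc : csz c ≤ 2 ^ c0) {k : ℕ} {G : ℤ → ℝ}
    {A : ℤ → Prop} (hA : ∀ s s', ixs c0 σ k s' = ixs c0 σ k s → (A s' ↔ A s)) (i : Fi L)
    (hi : i.1 = k) {B : ℝ} (hB : 0 ≤ B)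
    (hG : ∀ s, A s → |dot ((gr c0 σ).cube k s) G (psi c i)| ≤ B) :
    |∑ y ∈ cube3 k i.2.1, (if A (el c y) then G (el c y) else 0) * ffn i y| ≤ 4 ^ k * (2 * B) := by
  subst hi
  obtain ⟨m, hm⟩ := two_cells_el (c0 := c0) (σ := σ) hc i.1 i.2.1
  -- one cell
  have key : ∀ m' : ℤ, |∑ y ∈ cube3 i.1 i.2.1, (if ixs c0 σ i.1 (el c y) = m' then
      (if A (el c y) then G (el c y) else 0) * ffn i y else 0)| ≤ 4 ^ i.1 * B := by
    intro m'
    by_cases hex : ∃ s, ixs c0 σ i.1 s = m' ∧ A s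
    · obtain ⟨s, hs, hAs⟩ := hex
      have h1 := hG s hAs
      rw [dot_psi, abs_mul, abs_of_pos (by positivity : (0 : ℝ) < (4 ^ i.1 : ℝ)⁻¹),
        inv_mul_le_iff₀ (by positivity)] at h1
      refine le_trans (le_of_eq ?_) h1
      congr 1
      refine Finset.sum_congr rfl fun y _ => ?_
      by_cases hy : ixs c0 σ i.1 (el c y) = m'
      · have h2 : el c y ∈ (gr c0 σ).cube i.1 s := mem_gs.mpr (by rw [hy, hs])
        have h3 : A (el c y) := (hA s (el c y) (by rw [hy, hs])).mpr hAs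
        rw [if_pos hy, if_pos h2, if_pos h3]
      · have h2 : el c y ∉ (gr c0 σ).cube i.1 s := fun h => hy (by rw [mem_gs.mp h, hs])
        rw [if_neg hy, if_neg h2]
    · have h1 : ∑ y ∈ cube3 i.1 i.2.1, (if ixs c0 σ i.1 (el c y) = m' then
          (if A (el c y) then G (el c y) else 0) * ffn i y else 0) = 0 := by
        refine Finset.sum_eq_zero fun y _ => ?_
        by_cases hy : ixs c0 σ i.1 (el c y) = m'
        · have h3 : ¬ A (el c y) := fun h => hex ⟨el c y, hy, h⟩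
          rw [if_pos hy, if_neg h3, zero_mul]
        · rw [if_neg hy]
      rw [h1, abs_zero]; positivity
  have hsplit : ∑ y ∈ cube3 i.1 i.2.1, (if A (el c y) then G (el c y) else 0) * ffn i y =
      (∑ y ∈ cube3 i.1 i.2.1, (if ixs c0 σ i.1 (el c y) = m then
        (if A (el c y) then G (el c y) else 0) * ffn i y else 0)) +
      (∑ y ∈ cube3 i.1 i.2.1, (if ixs c0 σ i.1 (el c y) = m + 1 then
        (if A (el c y) then G (el c y) else 0) * ffn i y else 0)) := by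
    rw [← Finset.sum_add_distrib]
    refine Finset.sum_congr rfl fun y hy => ?_
    rcases hm y hy with h | h
    · have h' : ixs c0 σ i.1 (el c y) ≠ m + 1 := by omega
      rw [if_pos (c := ixs c0 σ i.1 (el c y) = m) h,
        if_neg (c := ixs c0 σ i.1 (el c y) = m + 1) h', add_zero]
    · have h' : ixs c0 σ i.1 (el c y) ≠ m := by omega
      rw [if_neg (c := ixs c0 σ i.1 (el c y) = m) h',
        if_pos (c := ixs c0 σ i.1 (el c y) = m + 1) h, zero_add]
  rw [hsplit]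
  refine (abs_add_le _ _).trans ?_
  have := key m
  have := key (m + 1)
  linarith

/-! ### The system -/

variable {J : Type*} [Fintype J] {g : Grid ℤ} {r : Fin 4}

/-- **The system of the generic tests**, pushes of functions of rank `≤ L`. -/
def genS (c : CW g J r) (L : ℕ) {d : ℤ × ℤ × ℤ} (hd : d.1 ≠ 0) (θ φ : ℝ) (hθ : 0 ≤ θ)
    (hφ : 0 < φ) : PSys g (Fi L) :=
  costSys c (psi d) bnd (fun i s => abs_psi_le hd i s) (fun i => i.1) θ φ hθ hφ

theorem genS_W (c : CW g J r) {d : ℤ × ℤ × ℤ} (hd : d.1 ≠ 0) (θ φ : ℝ) (hθ : 0 ≤ θ)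
    (hφ : 0 < φ) (k : ℕ) (Q : Finset ℤ) (i : Fi L) : (genS c L hd θ φ hθ hφ).W k Q i =
      θ * c.cst (psi d i) k Q + φ * bnd i * Q.card := rfl

/-- heights of the births -/
theorem supB_genS (c : CW g J r) {d : ℤ × ℤ × ℤ} (hd : d.1 ≠ 0) (θ φ : ℝ) (hθ : 0 ≤ θ)
    (hφ : 0 < φ) : SupB (genS c L hd θ φ hθ hφ).toC φ⁻¹ := by
  intro k x i y _
  have h0 := bnd_nonneg i
  have hc := c.cst_nonneg (psi d i) k (g.cube k x)
  have h1 : |(genS c L hd θ φ hθ hφ).toC.a k i y| ≤ bnd i := by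
    rw [PSys.toC_a]
    split_ifs
    · exact abs_psi_le hd i y
    · simpa using h0
  have h2 : (genS c L hd θ φ hθ hφ).toC.W k (g.cube k x) i =
    θ * c.cst (psi d i) k (g.cube k x) + φ * bnd i * (g.cube k x).card := rfl
  rw [h2]
  have h3 : (0 : ℝ) ≤ (g.cube k x).card := Nat.cast_nonneg _
  have h4 : φ⁻¹ * (θ * c.cst (psi d i) k (g.cube k x) + φ * bnd i * (g.cube k x).card) =
      φ⁻¹ * (θ * c.cst (psi d i) k (g.cube k x)) + bnd i * (g.cube k x).card := by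
    field_simp
  rw [h4]
  have h5 : 0 ≤ φ⁻¹ * (θ * c.cst (psi d i) k (g.cube k x)) := by positivity
  have h6 := mul_le_mul_of_nonneg_right h1 h3
  linarith

/-- the edges of the births: the mass of the atoms of the births (normalised push-forwards) in the
sup norms of the edges is at most `φ⁻¹` times the weighted mass density -/
theorem bnd_le (c : CW g J r) {d : ℤ × ℤ × ℤ} (hd : d.1 ≠ 0) (θ φ : ℝ) (hθ : 0 ≤ θ)
    (hφ : 0 < φ) (k : ℕ) (Q : Finset ℤ) (m : Fi L →₀ ℝ) :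
    (m.sum fun i x => |x| * bnd i) * Q.card ≤
      φ⁻¹ * cW (genS c L hd θ φ hθ hφ).toC k Q m := by
  unfold cW bcost Finsupp.sum
  rw [mul_sum, sum_mul]
  refine sum_le_sum fun i _ => ?_
  have h0 := bnd_nonneg i
  have hc := c.cst_nonneg (psi d i) k Q
  have h2 : (genS c L hd θ φ hθ hφ).toC.W k Q i =
    θ * c.cst (psi d i) k Q + φ * bnd i * Q.card := rfl
  dsimp only
  rw [h2]
  have h4 : φ⁻¹ * (|m i| * (θ * c.cst (psi d i) k Q + φ * bnd i * Q.card)) =
      |m i| * (φ⁻¹ * (θ * c.cst (psi d i) k Q)) + |m i| * bnd i * Q.card := by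
    field_simp
  rw [h4]
  have h5 : 0 ≤ |m i| * (φ⁻¹ * (θ * c.cst (psi d i) k Q)) := by positivity
  linarith

/-- the births are of the rank `≤ L` on the cubes of their top scale -/
theorem genS_a (c : CW g J r) {d : ℤ × ℤ × ℤ} (hd : d.1 ≠ 0) (θ φ : ℝ) (hθ : 0 ≤ θ)
    (hφ : 0 < φ) (k : ℕ) (i : Fi L) : (genS c L hd θ φ hθ hφ).toC.a k i =
      if k ≤ i.1 then psi d i else 0 := by
  rw [PSys.toC_a]
  by_cases h : k ≤ i.1
  · rw [if_pos h, if_pos (show (genS c L hd θ φ hθ hφ).live k i from h)]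
    rfl
  · rw [if_neg h, if_neg (show ¬ (genS c L hd θ φ hθ hφ).live k i from h)]

end

end Vale.Agent.P141.H736
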