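import Vale.Agent.P141.H736.TfCls

/-!
# P141, line W: the system of the generic tests

Tests = fixed functions `ψ i` of one variable, weight on a cell `Q`
`θ * ∑ a, cost_a (ψ i; Q) / nrm a + φ * b i * |Q|` : `costSys`, a packed system.  The cost of the
births in an admissible triple: `val_births_le`.
-/

namespace Vale.Agent.P141.H736

open Finset
open Vale.Agent.P141.H315 Vale.Agent.P141.PL.H318
open Vale.Agent.P141.H347 (Fam LW)
open Vale.Agent.P141.PL.H315 (le cube3 wt)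

noncomputable section

open scoped Classical

variable {ι J : Type*} {g : Grid ℤ}

/-- the data of a weight: finitely many classes of triples with their normalisations -/
structure CW (g : Grid ℤ) (J : Type*) (r : Fin 4) where
  κ : J → Fin 4 → Cls g
  o : J → ℤ
  ho : ∀ a, o a = 1 ∨ o a = -1
  nrm : J → ℝ
  nrm_pos : ∀ a, 0 < nrm a
  C : ℝ
  one_le : 1 ≤ C
  ck_le : ∀ a, ck (κ a) r ≤ C

variable {r : Fin 4} [Fintype J] (c : CW g J r)

/-- the normalised cost, all classes -/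
def CW.cst (ψ : ℤ → ℝ) (k : ℕ) (Q : Finset ℤ) : ℝ :=
  ∑ a, cost (c.κ a) (c.o a) r ψ k Q / c.nrm a

theorem CW.cst_nonneg (ψ : ℤ → ℝ) (k : ℕ) (Q : Finset ℤ) : 0 ≤ c.cst ψ k Q :=
  sum_nonneg fun a _ => div_nonneg (cost_nonneg _ _ _ _ _ _) (c.nrm_pos a).le

theorem CW.cost_le (a : J) (ψ : ℤ → ℝ) (k : ℕ) (Q : Finset ℤ) :
    cost (c.κ a) (c.o a) r ψ k Q ≤ c.nrm a * c.cst ψ k Q := by
  have h := single_le_sum (f := fun a => cost (c.κ a) (c.o a) r ψ k Q / c.nrm a)
    (fun a _ => div_nonneg (cost_nonneg _ _ _ _ _ _) (c.nrm_pos a).le) (mem_univ a)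
  have h2 : cost (c.κ a) (c.o a) r ψ k Q / c.nrm a ≤ c.cst ψ k Q := h
  rwa [div_le_iff₀' (c.nrm_pos a)] at h2

theorem CW.cst_pack (ψ : ℤ → ℝ) (j : ℕ) (x : ℤ) (F : ℤ → Prop) (m : ℤ → ℕ) (hF : Fam g F m)
    (hm : ∀ z ∈ g.cube j x, F z → m z ≤ j) :
    ∑ z ∈ g.cube j x, (if F z then c.cst ψ (m z) (g.cube (m z) z) /
      (g.cube (m z) z).card else 0) ≤ c.C * c.cst ψ j (g.cube j x) := by
  have e1 : ∀ z ∈ g.cube j x, (if F z then c.cst ψ (m z) (g.cube (m z) z) /
      (g.cube (m z) z).card else 0) = ∑ a, (if F z then cost (c.κ a) (c.o a) r ψ (m z)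
        (g.cube (m z) z) / (g.cube (m z) z).card else 0) / c.nrm a := by
    intro z _
    split_ifs
    · unfold CW.cst
      rw [sum_div]
      exact sum_congr rfl fun a _ => div_right_comm _ _ _
    · simp
  rw [sum_congr rfl e1, sum_comm]
  unfold CW.cst
  rw [mul_sum]
  refine sum_le_sum fun a _ => ?_
  rw [← sum_div, ← mul_div_assoc]
  refine div_le_div_of_nonneg_right ?_ (c.nrm_pos a).le
  exact (cost_pack (c.κ a) (c.ho a) r ψ j x F m hF hm).trans
    (mul_le_mul_of_nonneg_right (c.ck_le a) (cost_nonneg _ _ _ _ _ _))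

theorem CW.cst_add_le (ψ ψ' : ℤ → ℝ) (k : ℕ) (x : ℤ) :
    c.cst (ψ + ψ') k (g.cube k x) ≤ c.cst ψ k (g.cube k x) + c.cst ψ' k (g.cube k x) := by
  unfold CW.cst
  rw [← sum_add_distrib]
  refine sum_le_sum fun a _ => ?_
  rw [← add_div]
  exact div_le_div_of_nonneg_right (cost_add_le _ (c.ho a) r ψ ψ' k x) (c.nrm_pos a).le

theorem CW.cst_smul_le (b : ℝ) (ψ : ℤ → ℝ) (k : ℕ) (x : ℤ) :
    c.cst (b • ψ) k (g.cube k x) ≤ |b| * c.cst ψ k (g.cube k x) := by
  unfold CW.cst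
  rw [mul_sum]
  refine sum_le_sum fun a _ => ?_
  rw [← mul_div_assoc]
  exact div_le_div_of_nonneg_right (cost_smul_le _ (c.ho a) r b ψ k x) (c.nrm_pos a).le

/-- the sum over a family of the constants -/
theorem sum_fam_const_le {j : ℕ} {x : ℤ} {F : ℤ → Prop} {b : ℝ} (hb : 0 ≤ b) :
    ∑ z ∈ g.cube j x, (if F z then b else 0) ≤ b * (g.cube j x).card := by
  rw [mul_comm, ← nsmul_eq_mul, ← sum_const]
  refine sum_le_sum fun z _ => ?_
  split_ifs
  · exact le_rfl
  · exact hb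

/-- **The system of the generic tests.** -/
def costSys (ψ : ι → ℤ → ℝ) (b : ι → ℝ) (hψ : ∀ i y, |ψ i y| ≤ b i) (top : ι → ℕ) (θ φ : ℝ)
    (hθ : 0 ≤ θ) (hφ : 0 < φ) : PSys g ι where
  ψ := ψ
  live k i := k ≤ top i
  live_mono _ _ _ h h' := h.trans h'
  W k Q i := θ * c.cst (ψ i) k Q + φ * b i * Q.card
  W_nonneg k Q i := by
    have hb : 0 ≤ b i := (abs_nonneg _).trans (hψ i 0)
    have := c.cst_nonneg (ψ i) k Q
    positivity
  nondeg k x := by
    refine ⟨φ ^ 2, by positivity, fun i => ?_⟩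
    have hb : 0 ≤ b i := (abs_nonneg _).trans (hψ i 0)
    have hc := c.cst_nonneg (ψ i) k (g.cube k x)
    have hcd : (1 : ℝ) ≤ (g.cube k x).card := by
      exact_mod_cast Finset.card_pos.mpr ⟨x, g.mem k x⟩
    have h1 : dot (g.cube k x) (ψ i) (ψ i) ≤ (g.cube k x).card * b i ^ 2 := by
      unfold dot
      rw [← nsmul_eq_mul]
      refine sum_le_card_nsmul _ _ _ fun y _ => ?_
      rw [← sq, ← sq_abs]
      exact pow_le_pow_left₀ (abs_nonneg _) (hψ i y) 2
    have h2 : φ * b i * (g.cube k x).card ≤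
        θ * c.cst (ψ i) k (g.cube k x) + φ * b i * (g.cube k x).card :=
      le_add_of_nonneg_left (mul_nonneg hθ hc)
    have h3 : 0 ≤ φ * b i * ((g.cube k x).card : ℝ) := by positivity
    refine le_trans ?_ (pow_le_pow_left₀ h3 h2 2)
    calc φ ^ 2 * dot (g.cube k x) (ψ i) (ψ i) ≤ φ ^ 2 * ((g.cube k x).card * b i ^ 2) :=
          mul_le_mul_of_nonneg_left h1 (by positivity)
      _ ≤ φ ^ 2 * (((g.cube k x).card * (g.cube k x).card) * b i ^ 2) := by
          refine mul_le_mul_of_nonneg_left (mul_le_mul_of_nonneg_right ?_ (by positivity))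
            (by positivity)
          nlinarith
      _ = (φ * b i * ((g.cube k x).card : ℝ)) ^ 2 := by ring
  C := c.C
  one_le := c.one_le
  pack j x i F m hF hm := by
    have hb : 0 ≤ b i := (abs_nonneg _).trans (hψ i 0)
    have e1 : ∀ z ∈ g.cube j x, (if F z then (θ * c.cst (ψ i) (m z) (g.cube (m z) z) +
        φ * b i * (g.cube (m z) z).card) / (g.cube (m z) z).card else 0) =
        θ * (if F z then c.cst (ψ i) (m z) (g.cube (m z) z) / (g.cube (m z) z).card else 0) +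
          (if F z then φ * b i else 0) := by
      intro z _
      split_ifs
      · rw [add_div, mul_div_assoc, mul_div_assoc, div_self (card_pos' _ _).ne', mul_one]
      · simp
    rw [sum_congr rfl e1, sum_add_distrib, ← mul_sum]
    have h1 := mul_le_mul_of_nonneg_left (c.cst_pack (ψ i) j x F m hF hm) hθ
    have h2 := sum_fam_const_le (g := g) (j := j) (x := x) (F := F)
      (show 0 ≤ φ * b i by positivity)
    have h3 : 0 ≤ φ * b i * ((g.cube j x).card : ℝ) := by positivity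
    have h4 := mul_le_mul_of_nonneg_right c.one_le h3
    nlinarith

variable {ψ : ι → ℤ → ℝ} {b : ι → ℝ} {hψ : ∀ i y, |ψ i y| ≤ b i} {top : ι → ℕ} {θ φ : ℝ}
  {hθ : 0 ≤ θ} {hφ : 0 < φ}

/-- the weight dominates the costs -/
theorem cost_le_W (hθ' : 0 < θ) (a : J) (k : ℕ) (Q : Finset ℤ) (i : ι) :
    cost (c.κ a) (c.o a) r (ψ i) k Q ≤ c.nrm a / θ * (costSys c ψ b hψ top θ φ hθ hφ).W k Q i := by
  have hb : 0 ≤ b i := (abs_nonneg _).trans (hψ i 0)
  have h1 := c.cost_le a (ψ i) k Q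
  have h2 : c.nrm a * c.cst (ψ i) k Q ≤ c.nrm a / θ * (θ * c.cst (ψ i) k Q + φ * b i * Q.card) := by
    have h3 : c.nrm a / θ * (θ * c.cst (ψ i) k Q + φ * b i * Q.card) =
        c.nrm a * c.cst (ψ i) k Q + c.nrm a / θ * (φ * b i * Q.card) := by
      field_simp
    rw [h3]
    have : 0 ≤ c.nrm a / θ * (φ * b i * Q.card) :=
      mul_nonneg (div_pos (c.nrm_pos a) hθ').le (by positivity)
    linarith
  exact h1.trans h2

theorem val_cF_le (S : CSys g ι) (o : ℤ) (k : ℕ) (m : ι →₀ ℝ) (𝒩 : Finset Nd)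
    (A : Fin 4 → Nd → ℤ → ℝ) :
    val o r (cF S k m) 𝒩 A ≤ m.sum fun i x => |x| * val o r (S.a k i) 𝒩 A := by
  unfold cF bsum Finsupp.sum
  refine (val_sum_le m.support o r (fun i => m i • S.a k i) 𝒩 A).trans (le_of_eq ?_)
  exact sum_congr rfl fun i _ => val_smul _ _ _ _ _ _

/-- **The cost of the generic births** (born anywhere), tested on an admissible triple of the
class `a` on the cell `g.cube k' x`: the mass in the local weights of the cell. -/
theorem val_births_le (hθ' : 0 < θ) (a : J) (k k' : ℕ) (x : ℤ) (m : ι →₀ ℝ)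
    {𝒩 : Finset Nd} {A : Fin 4 → Nd → ℤ → ℝ} (h1 : Blw g k' (g.cube k' x) 𝒩)
    (h2 : ∀ j, j ≠ r → (c.κ a j).ok k' (g.cube k' x) 𝒩 (A j)) :
    val (c.o a) r (cF (costSys c ψ b hψ top θ φ hθ hφ).toC k m) 𝒩 A ≤
      c.nrm a / θ *
        m.sum fun i y => |y| * (costSys c ψ b hψ top θ φ hθ hφ).W k' (g.cube k' x) i := by
  refine (val_cF_le _ _ k m 𝒩 A).trans ?_
  unfold Finsupp.sum
  rw [mul_sum]
  refine sum_le_sum fun i _ => ?_
  rw [mul_left_comm]
  refine mul_le_mul_of_nonneg_left ?_ (abs_nonneg _)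
  have h3 : val (c.o a) r (ψ i) 𝒩 A ≤
      c.nrm a / θ * (costSys c ψ b hψ top θ φ hθ hφ).W k' (g.cube k' x) i :=
    (val_le_cost (c.κ a) (c.ho a) r (ψ i) h1 h2).trans (cost_le_W c hθ' a k' _ i)
  refine le_trans ?_ h3
  rw [PSys.toC_a]
  split_ifs
  · exact le_rfl
  · refine le_trans (le_of_eq ?_) (val_nonneg (c.o a) r (ψ i) 𝒩 A)
    have := val_smul (c.o a) r 0 (ψ i) 𝒩 A
    rwa [zero_smul, abs_zero, zero_mul] at this

end

end Vale.Agent.P141.H736
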